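import Crest.Agent.R81.Defs

/-! Row 81, task TLA: basic API for `down`, `IsTL`, `kp`. -/

set_option autoImplicit false

open Finset MeasureTheory Filter Topology
open scoped ContDiff ComplexConjugate InnerProductSpace Classical
open Crest.AnalysisR.Torus3
open Crest.Agent.R75 (ee)

namespace Crest.Agent.R81

namespace TLA

theorem coe_rep (θ : UnitAddCircle) : ((rep θ : ℝ) : UnitAddCircle) = θ :=
  (AddCircle.equivIco (1 : ℝ) 0).symm_apply_apply θ

theorem proj_rep (q : T3) : proj (fun i => rep (q i)) = q := funext fun i => coe_rep (q i)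

theorem proj_surj : Function.Surjective proj := fun q => ⟨_, proj_rep q⟩

theorem proj_add (p p' : R3) : proj (p + p') = proj p + proj p' := by
  funext i
  simp [proj]

theorem proj_zc (κ : Fin 3 → ℤ) : proj (zc κ) = 0 := by
  funext i
  simp only [proj, zc, Pi.zero_apply]
  rw [AddCircle.coe_eq_zero_iff]
  exact ⟨κ i, by simp⟩

theorem proj_add_zc (p : R3) (κ : Fin 3 → ℤ) : proj (p + zc κ) = proj p := by
  rw [proj_add, proj_zc, add_zero]

theorem exists_zc {p p' : R3} (h : proj p = proj p') : ∃ κ, p' = p + zc κ := by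
  have : ∀ i, ∃ k : ℤ, p' i = p i + k := by
    intro i
    have h1 : ((p i : ℝ) : UnitAddCircle) = (p' i : ℝ) := congrFun h i
    have h2 : ((p' i - p i : ℝ) : UnitAddCircle) = 0 := by
      rw [AddCircle.coe_sub, h1, sub_self]
    obtain ⟨k, hk⟩ := (AddCircle.coe_eq_zero_iff (1 : ℝ)).1 h2
    exact ⟨k, by simp at hk; linarith⟩
  choose κ hκ using this
  exact ⟨κ, funext hκ⟩

theorem proj_congr {F : R3 → R3} (hF : Eqv F) {p p' : R3} (h : proj p = proj p') :
    proj (F p) = proj (F p') := by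
  obtain ⟨B, hB⟩ := hF
  obtain ⟨κ, rfl⟩ := exists_zc h
  rw [hB, proj_add_zc]

theorem down_proj {F : R3 → R3} (hF : Eqv F) (p : R3) : down F (proj p) = proj (F p) :=
  proj_congr hF (proj_rep _)

theorem isOpenQuotientMap_proj : IsOpenQuotientMap proj :=
  IsOpenQuotientMap.piMap (f := fun (_ : Fin 3) (x : ℝ) => (x : UnitAddCircle))
    fun _ => QuotientAddGroup.isOpenQuotientMap_mk

theorem continuous_proj : Continuous proj := isOpenQuotientMap_proj.continuous

theorem continuous_down {F : R3 → R3} (hF : Eqv F) (hc : Continuous F) : Continuous (down F) := by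
  rw [isOpenQuotientMap_proj.isQuotientMap.continuous_iff]
  have : down F ∘ proj = proj ∘ F := funext (down_proj hF)
  rw [this]
  exact continuous_proj.comp hc

theorem eqv_comp {F F' : R3 → R3} (hF : Eqv F) (hF' : Eqv F') : Eqv (F ∘ F') := by
  obtain ⟨B, hB⟩ := hF
  obtain ⟨B', hB'⟩ := hF'
  exact ⟨fun κ => B (B' κ), fun p κ => by simp [hB, hB']⟩

theorem down_comp {F : R3 → R3} (hF : Eqv F) (F' : R3 → R3) :
    down (F ∘ F') = down F ∘ down F' := by
  funext q
  exact (down_proj hF _).symm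

theorem down_id : down id = id := funext proj_rep

theorem down_inv {F Fi : R3 → R3} (hF : Eqv F) (h : ∀ p, F (Fi p) = p) (q : T3) :
    down F (down Fi q) = q := by
  have h1 : F ∘ Fi = id := funext h
  have := congrFun (down_comp hF Fi) q
  rw [h1, down_id] at this
  exact this.symm

theorem mk' {F Fi : R3 → R3} (sf : ContDiff ℝ ∞ F) (si : ContDiff ℝ ∞ Fi) (ef : Eqv F)
    (ei : Eqv Fi) (fi : ∀ p, F (Fi p) = p) (if' : ∀ p, Fi (F p) = p)
    (mf : MeasurePreserving (down F) volume volume) : IsTL F Fi := by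
  refine ⟨sf, si, ef, ei, fi, if', mf, ?_⟩
  let e : T3 ≃ᵐ T3 :=
    { toFun := down F
      invFun := down Fi
      left_inv := down_inv ei if'
      right_inv := down_inv ef fi
      measurable_toFun := mf.measurable
      measurable_invFun := (continuous_down ei si.continuous).measurable }
  exact MeasurePreserving.symm e mf

theorem eqv_add (b : R3) : Eqv (fun p => p + b) := ⟨id, fun p κ => by simp [add_right_comm]⟩

theorem down_add (b : R3) : down (fun p => p + b) = fun q => q + proj b := by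
  funext q
  unfold down
  rw [proj_add, proj_rep]

theorem tl_add (b : R3) : IsTL (fun p => p + b) (fun p => p + (-b)) := by
  refine mk' (contDiff_id.add contDiff_const) (contDiff_id.add contDiff_const) (eqv_add b)
    (eqv_add _) (fun p => by simp) (fun p => by simp) ?_
  rw [down_add]
  exact measurePreserving_add_right volume _

theorem tl_id : IsTL id id := by
  refine mk' contDiff_id contDiff_id ⟨id, fun _ _ => rfl⟩ ⟨id, fun _ _ => rfl⟩ (fun _ => rfl)
    (fun _ => rfl) ?_
  rw [down_id]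
  exact MeasurePreserving.id _

theorem tl_symm {F Fi : R3 → R3} (h : IsTL F Fi) : IsTL Fi F :=
  ⟨h.si, h.sf, h.ei, h.ef, h.if', h.fi, h.mi, h.mf⟩

theorem tl_comp {F Fi F' Fi' : R3 → R3} (h : IsTL F Fi) (h' : IsTL F' Fi') :
    IsTL (F ∘ F') (Fi' ∘ Fi) := by
  refine mk' (h.sf.comp h'.sf) (h'.si.comp h.si) (eqv_comp h.ef h'.ef) (eqv_comp h'.ei h.ei)
    (fun p => by simp [h'.fi, h.fi]) (fun p => by simp [h'.if', h.if']) ?_
  rw [down_comp h.ef]
  exact h.mf.comp h'.mf

theorem kp_apply {F : R3 → R3} (h : MeasurePreserving (down F) volume volume) (x : HH) :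
    kp F x = Lp.compMeasurePreservingₗᵢ ℂ (down F) h x := by
  unfold kp
  rw [dif_pos h]
  rfl

theorem kp_inner {F : R3 → R3} (h : MeasurePreserving (down F) volume volume) (x y : HH) :
    ⟪kp F x, kp F y⟫_ℂ = ⟪x, y⟫_ℂ := by
  rw [kp_apply h, kp_apply h]
  exact LinearIsometry.inner_map_map _ x y

theorem kp_norm {F : R3 → R3} (h : MeasurePreserving (down F) volume volume) (x : HH) :
    ‖kp F x‖ = ‖x‖ := by
  rw [kp_apply h]
  exact LinearIsometry.norm_map _ x

theorem kp_coe {F : R3 → R3} (h : MeasurePreserving (down F) volume volume) (x : HH) :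
    (kp F x : T3 → ℂ) =ᵐ[volume] fun q => (x : T3 → ℂ) (down F q) := by
  rw [kp_apply h]
  exact Lp.coeFn_compMeasurePreserving x h

theorem kp_kp {F Fi F' Fi' : R3 → R3} (h : IsTL F Fi) (h' : IsTL F' Fi') (x : HH) :
    kp F' (kp F x) = kp (F ∘ F') x := by
  refine Lp.ext ?_
  have h1 := kp_coe h'.mf (kp F x)
  have h2 := h'.mf.quasiMeasurePreserving.ae_eq_comp (kp_coe h.mf x)
  have h3 := kp_coe (tl_comp h h').mf x
  rw [down_comp h.ef] at h3
  exact (h1.trans h2).trans h3.symm

theorem kp_id (x : HH) : kp id x = x := by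
  refine Lp.ext ?_
  have h1 := kp_coe tl_id.mf x
  rw [down_id] at h1
  exact h1

theorem kp_inv {F Fi : R3 → R3} (h : IsTL F Fi) (x : HH) : kp Fi (kp F x) = x := by
  rw [kp_kp h (tl_symm h)]
  have h1 : F ∘ Fi = id := funext h.fi
  rw [h1, kp_id]

theorem eL_coe (m : V) : (eL m : T3 → ℂ) =ᵐ[volume] em m :=
  ContinuousMap.coeFn_toLp (volume : Measure T3) (em m)

theorem kp_eL_coe {F : R3 → R3} (h : MeasurePreserving (down F) volume volume) (m : V) :
    (kp F (eL m) : T3 → ℂ) =ᵐ[volume] fun q => em m (down F q) :=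
  (kp_coe h _).trans (h.quasiMeasurePreserving.ae_eq_comp (eL_coe m))

theorem em_zero (q : T3) : em 0 q = 1 := by
  have : (![(0 : V).1, (0 : V).2.1, (0 : V).2.2] : Fin 3 → ℤ) = 0 := by
    funext i; fin_cases i <;> rfl
  unfold em
  rw [this, UnitAddTorus.mFourier_zero]
  rfl

theorem kp_eL_zero {F : R3 → R3} (h : MeasurePreserving (down F) volume volume) :
    kp F (eL 0) = eL 0 := by
  refine Lp.ext ((kp_eL_coe h 0).trans (EventuallyEq.trans ?_ (eL_coe 0).symm))
  exact Eventually.of_forall fun q => by simp only [em_zero]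

theorem inner_kp {F : R3 → R3} (h : MeasurePreserving (down F) volume volume) (m m' : V) :
    ⟪eL m', kp F (eL m)⟫_ℂ = ∫ q, conj (em m' q) * em m (down F q) := by
  rw [L2.inner_def]
  refine integral_congr_ae ?_
  filter_upwards [eL_coe m', kp_eL_coe h m] with q h1 h2
  rw [h1, h2]
  simp [mul_comm]

end TLA

theorem TLA_proof : TlaStmt :=
  ⟨TLA.proj_rep, TLA.proj_add, TLA.proj_add_zc, fun _ hF => TLA.down_proj hF,
    fun _ hF hc => TLA.continuous_down hF hc,
    fun _ F' hF hF' => ⟨TLA.eqv_comp hF hF', TLA.down_comp hF F'⟩,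
    fun _ _ sf si ef ei fi if' mf => TLA.mk' sf si ef ei fi if' mf, TLA.tl_id, TLA.tl_add,
    fun _ _ h => TLA.tl_symm h, fun _ _ _ _ h h' => TLA.tl_comp h h',
    fun _ _ h => TLA.kp_inner h.mf, fun _ _ h => TLA.kp_norm h.mf, fun _ _ h => TLA.kp_coe h.mf,
    fun _ _ _ _ h h' => TLA.kp_kp h h', fun _ _ h => TLA.kp_inv h,
    fun _ _ h => TLA.kp_eL_zero h.mf, fun _ _ h => TLA.inner_kp h.mf⟩

end Crest.Agent.R81
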