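import Crest.Agent.R81.Defs
import Crest.Agent.R81.TLA

/-! Row 81, task A2H: one step of the approximate isometries, torus side. -/

set_option autoImplicit false

open Finset MeasureTheory Filter Topology
open scoped ContDiff ComplexConjugate InnerProductSpace Classical
open Crest.AnalysisR.Torus3
open Crest.Agent.R75 (ee)

namespace Crest.Agent.R81

namespace A2H

theorem kap_pos (n : ℕ) : 0 < kap n := by unfold kap; positivity

theorem kap_le (n : ℕ) : kap n ≤ 1 / 16 := by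
  unfold kap
  have : (1 / 4 : ℝ) ^ n ≤ 1 := pow_le_one₀ (by norm_num) (by norm_num)
  linarith

theorem conj_phase (r : ℝ) (hr : 0 < r) (w : ℂ) : conj (phase (r * w)) * w = (‖w‖ : ℂ) := by
  unfold phase
  by_cases hw : w = 0
  · simp [hw]
  · have hr' : (r : ℂ) ≠ 0 := by exact_mod_cast hr.ne'
    have hn : (‖w‖ : ℂ) ≠ 0 := by exact_mod_cast norm_ne_zero_iff.2 hw
    rw [if_neg (mul_ne_zero hr' hw), norm_mul, Complex.norm_real, Real.norm_of_nonneg hr.le,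
      map_div₀, map_mul, Complex.conj_ofReal, Complex.conj_ofReal]
    have h1 : conj w * w = (‖w‖ : ℂ) ^ 2 := Complex.conj_mul' w
    push_cast
    field_simp
    rw [h1]

theorem line_inj (L : ℕ) (m : V) (hm : m.1 ≠ 0) :
    Function.Injective fun i : ℤ => line L m (m.1 * i) := by
  intro i j h
  have h1 : m.2.2 + m.1 * i = m.2.2 + m.1 * j := congrArg (fun c : V => c.2.1) h
  exact mul_left_cancel₀ hm (add_left_cancel h1)

/-- the inner product of a new eigenfunction with an old one -/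
theorem inner_E {s s' : St} {F Fi : R3 → R3} (hs : IsTL s.G s.Gi) (hF : IsTL F Fi)
    (hGi : s'.Gi = Fi ∘ s.Gi) (c m : V) : ⟪s'.E c, s.E m⟫_ℂ = ⟪eL c, kp F (eL m)⟫_ℂ := by
  unfold St.E
  rw [hGi, ← TLA.kp_kp (TLA.tl_symm hF) (TLA.tl_symm hs), TLA.kp_inner hs.mi,
    ← TLA.kp_inner hF.mf, TLA.kp_inv (TLA.tl_symm hF)]

theorem on_psi (hB : BasStmt) {n : ℕ} {s : St} (hs : Good n s) : Orthonormal ℂ s.psi := by
  rw [orthonormal_iff_ite]
  intro c c'
  unfold St.psi St.E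
  rw [inner_smul_left, inner_smul_right, TLA.kp_inner hs.tl.mi, orthonormal_iff_ite.1 hB.1]
  split_ifs with h
  · subst h
    rw [mul_one, Complex.conj_mul', hs.ph1]
    simp
  · simp

theorem norm_sq_sub {E : Type} [NormedAddCommGroup E] [InnerProductSpace ℂ E] {y : V → E}
    (hy : Orthonormal ℂ y) (K : Finset V) (x : E) (t : ℝ) :
    ‖x - ∑ k ∈ K, (t : ℂ) • y k‖ ^ 2 =
      ‖x‖ ^ 2 - 2 * t * ∑ k ∈ K, (⟪y k, x⟫_ℂ).re + K.card * t ^ 2 := by
  rw [@norm_sub_sq ℂ, ← inner_conj_symm, sum_inner]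
  have h1 : ‖∑ k ∈ K, (t : ℂ) • y k‖ ^ 2 = K.card * t ^ 2 := by
    have h2 := hy.inner_sum (fun _ => (t : ℂ)) (fun _ => (t : ℂ)) K
    rw [inner_self_eq_norm_sq_to_K] at h2
    have h3 : ((‖∑ k ∈ K, (t : ℂ) • y k‖ ^ 2 : ℝ) : ℂ) = ((K.card * t ^ 2 : ℝ) : ℂ) := by
      push_cast
      refine h2.trans ?_
      simp [sq]
    exact_mod_cast h3
  rw [h1]
  simp only [inner_smul_left, Complex.conj_ofReal, RCLike.re_to_complex, Complex.conj_re,
    Complex.re_sum, Complex.re_ofReal_mul, ← mul_sum]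
  ring

end A2H

theorem A2H_proof (_hT : TlaStmt) (hB : BasStmt) (hI : InnStmt) : A2hStmt := by
  intro n s s' L Γ I hs hs' tr
  obtain ⟨hg, i1, i2, -⟩ := hI L Γ s.U s.v tr.Lpos hs.prf.sU hs.prf.sv
  have hE := A2H.inner_E (s' := s') hs.tl hg tr.hGi
  have hMX : ∀ m ∈ s.M, m ∈ s.M ∪ s.P ∪ s.B := fun m hm => by simp [hm]
  have hzero : ∀ m ∈ s.M, ∀ m' ∈ s.M, m ≠ m' → ∀ j, ⟪s'.E (line L m j), s.E m'⟫_ℂ = 0 := by
    intro m hm m' hm' hne j
    rw [hE]
    exact i2 m' _ fun j' h => hne (tr.inj m (hMX m hm) m' (hMX m' hm') j j' h)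
  have hκ := A2H.kap_pos n
  have hκ1 := A2H.kap_le n
  have hΓ : (0 : ℝ) < Γ := by
    have := tr.Γbig
    by_contra h
    have : kap n ^ 2 * (Γ : ℝ) ≤ 0 := mul_nonpos_of_nonneg_of_nonpos (sq_nonneg _) (not_lt.1 h)
    linarith
  have hcard : ∀ m ∈ s.M, (kids s.𝓘 I L m).card = (idx s.𝓘 I m.1).card := fun m hm =>
    card_image_of_injective _ (A2H.line_inj L m (tr.ne m (hMX m hm)))
  refine ⟨fun m hm => ?_, fun m hm m' hm' hne k hk => ?_, fun hc m hm => ?_⟩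
  · have hinj := A2H.line_inj L m (tr.ne m (hMX m hm))
    have h1 := (hB.1.comp _ hinj).sum_inner_products_le (s := idx s.𝓘 I m.1)
      (kp (gg L Γ s.U s.v) (eL m))
    simp only [Function.comp, i1] at h1
    rw [TLA.kp_norm hg.mf, hB.1.1 m] at h1
    have h2 := sq_sum_le_card_mul_sum_sq (s := idx s.𝓘 I m.1)
      (f := fun i => ‖coef L Γ s.U s.v m (m.1 * i)‖)
    have h3 := tr.c1 m hm
    have h4 : ((1 - 3 * kap n) * √Γ) ^ 2 ≤ (∑ i ∈ idx s.𝓘 I m.1,
        ‖coef L Γ s.U s.v m (m.1 * i)‖) ^ 2 :=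
      pow_le_pow_left₀ (mul_nonneg (by linarith) (Real.sqrt_nonneg _)) h3 2
    rw [mul_pow, Real.sq_sqrt hΓ.le] at h4
    rw [hcard m hm]
    have h5 : ((idx s.𝓘 I m.1).card : ℝ) * ∑ i ∈ idx s.𝓘 I m.1,
        ‖coef L Γ s.U s.v m (m.1 * i)‖ ^ 2 ≤ (idx s.𝓘 I m.1).card * 1 :=
      mul_le_mul_of_nonneg_left (by simpa using h1) (Nat.cast_nonneg _)
    linarith
  · obtain ⟨i, -, rfl⟩ := mem_image.1 hk
    unfold St.psi
    rw [inner_smul_left, inner_smul_right, hzero m hm m' hm' hne]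
    simp
  · obtain ⟨hz, -, hlac, -⟩ := hs.inv.lac m (hMX m hm)
    have hτ : (0 : ℝ) < s.τ := by exact_mod_cast hs.inv.τpos
    have hz' : (1 : ℝ) ≤ |(m.2.2 : ℝ)| := by exact_mod_cast Int.one_le_abs hz
    have hr : 0 < √(|(m.2.2 : ℝ)| / s.τ) := Real.sqrt_pos.2 (by positivity)
    have hin : ∀ j, ⟪s'.psi (line L m j), s.psi m⟫_ℂ = (‖coef L Γ s.U s.v m j‖ : ℂ) := by
      intro j
      have h1 : ⟪s'.E (line L m j), s.gv⟫_ℂ =
          (√(|(m.2.2 : ℝ)| / s.τ) : ℝ) * (s.ph m * coef L Γ s.U s.v m j) := by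
        unfold St.gv St.psi
        rw [inner_sum, sum_eq_single_of_mem m hm]
        · rw [inner_smul_right, inner_smul_right, hE, i1]
        · intro m' hm' hne
          rw [inner_smul_right, inner_smul_right, hzero m hm m' hm' hne.symm]
          simp
      unfold St.psi
      rw [inner_smul_left, inner_smul_right, hE, i1, tr.hph, h1, A2H.conj_phase _ hr, norm_mul,
        hs.ph1, one_mul]
    set t := √(|(m.1 : ℝ)| / (Γ * s.Lp * |(m.2.2 : ℝ)|)) with ht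
    have hD : (8 : ℝ) ≤ s.D := by
      have := hs.inv.DZ
      exact_mod_cast (by omega : 8 ≤ s.D)
    have hLp : (2 : ℝ) * s.D ≤ s.Lp := by exact_mod_cast hs.inv.LD
    have hLp0 : (0 : ℝ) < s.Lp := by linarith
    have hlac' : (s.D : ℝ) * |(m.1 : ℝ) - s.Lp * m.2.2| ≤ s.Lp := by exact_mod_cast hlac
    have ht0 : 0 ≤ t := Real.sqrt_nonneg _
    have ht2 : t ^ 2 = |(m.1 : ℝ)| / (Γ * s.Lp * |(m.2.2 : ℝ)|) := Real.sq_sqrt (by positivity)
    have ha : (1 - kap n ^ 2) * (s.Lp * |(m.2.2 : ℝ)|) ≤ |(m.1 : ℝ)| := by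
      have h1 : (s.Lp : ℝ) * |(m.2.2 : ℝ)| ≤ |(m.1 : ℝ)| + |(m.1 : ℝ) - s.Lp * m.2.2| := by
        have := abs_sub (m.1 : ℝ) ((m.1 : ℝ) - s.Lp * m.2.2)
        rwa [sub_sub_cancel, abs_mul, abs_of_pos hLp0] at this
      have h2 : |(m.1 : ℝ) - s.Lp * m.2.2| ≤ kap n ^ 2 * s.Lp := by
        have h3 := mul_le_mul_of_nonneg_right hs.Dη (abs_nonneg ((m.1 : ℝ) - s.Lp * m.2.2))
        have h4 := mul_le_mul_of_nonneg_left hlac' (sq_nonneg (kap n))
        nlinarith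
      have h5 : kap n ^ 2 * s.Lp * 1 ≤ kap n ^ 2 * s.Lp * |(m.2.2 : ℝ)| :=
        mul_le_mul_of_nonneg_left hz' (by positivity)
      nlinarith
    have hk2 : kap n ^ 2 ≤ kap n := by nlinarith
    have htΓ : 1 - kap n ^ 2 ≤ t * √Γ := by
      refine abs_le_of_sq_le_sq' ?_ (by positivity) |>.2
      rw [mul_pow, Real.sq_sqrt hΓ.le, ht2]
      have h1 : |(m.1 : ℝ)| / (Γ * s.Lp * |(m.2.2 : ℝ)|) * Γ =
          |(m.1 : ℝ)| / (s.Lp * |(m.2.2 : ℝ)|) := by field_simp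
      rw [h1, le_div_iff₀ (by positivity)]
      refine le_trans (mul_le_mul_of_nonneg_right ?_ (by positivity)) ha
      have := sq_nonneg (kap n)
      nlinarith
    have hinj := A2H.line_inj L m (tr.ne m (hMX m hm))
    have hsum : ∑ k ∈ kids s.𝓘 I L m, (⟪s'.psi k, s.psi m⟫_ℂ).re =
        ∑ i ∈ idx s.𝓘 I m.1, ‖coef L Γ s.U s.v m (m.1 * i)‖ := by
      unfold kids
      rw [sum_image fun i _ j _ h => hinj h]
      simp only [hin, Complex.ofReal_re]
    have h1 := A2H.norm_sq_sub (A2H.on_psi hB hs') (kids s.𝓘 I L m) (s.psi m) t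
    rw [hsum, (A2H.on_psi hB hs).1 m] at h1
    have h2 := hc m hm
    rw [← ht2] at h2
    have h3 := mul_le_mul_of_nonneg_left (tr.c1 m hm) ht0
    have h4 : (1 - 3 * kap n) * (1 - kap n ^ 2) ≤ (1 - 3 * kap n) * (t * √Γ) :=
      mul_le_mul_of_nonneg_left htΓ (by linarith)
    refine abs_le_of_sq_le_sq' ?_ (by positivity) |>.2
    have h5 : ((1 / 2 : ℝ) ^ n) ^ 2 = 16 * kap n := by
      unfold kap
      rw [← pow_mul, mul_comm n 2, pow_mul]
      norm_num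
      ring
    rw [h1, h5]
    have h6 : 0 ≤ kap n * kap n ^ 2 := by positivity
    nlinarith

end Crest.Agent.R81
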