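import Crest.Agent.R81.Defs

/-! # Row 81, task A2K: the frequency side of one step -/

set_option autoImplicit false

open Finset MeasureTheory Filter Topology
open scoped ContDiff ComplexConjugate InnerProductSpace Classical
open Crest.AnalysisR.Torus3
open Crest.Agent.R75 (ee)

namespace Crest.Agent.R81

namespace A2K

section basic

variable {E : Type} [NormedAddCommGroup E] [InnerProductSpace ℂ E]

lemma on_mono {K M : Finset V} {φ : V → E} (h : Orthonormal ℂ (fun m : M => φ m)) (hK : K ⊆ M) :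
    Orthonormal ℂ (fun m : K => φ m) := by
  refine h.comp (fun k : K => (⟨k, hK k.2⟩ : M)) fun a b hab => ?_
  exact Subtype.ext (congrArg (fun x : M => (x : V)) hab)

lemma inner_of_mem {M : Finset V} {φ : V → E} (h : Orthonormal ℂ (fun m : M => φ m)) {m k : V}
    (hm : m ∈ M) (hk : k ∈ M) : ⟪φ m, φ k⟫_ℂ = if m = k then 1 else 0 := by
  have := (orthonormal_iff_ite.mp h) ⟨m, hm⟩ ⟨k, hk⟩
  simpa [Subtype.ext_iff] using this

lemma norm_proj {K : Finset V} {φ : V → E} (h : Orthonormal ℂ (fun m : K => φ m)) (x : E) (t : ℝ)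
    (ht : ∀ k ∈ K, ⟪φ k, x⟫_ℂ = (t : ℂ)) :
    ‖x - ∑ k ∈ K, (t : ℂ) • φ k‖ ^ 2 = ‖x‖ ^ 2 - K.card * t ^ 2 := by
  have h1 : ⟪∑ k ∈ K, (t : ℂ) • φ k, x⟫_ℂ = ((K.card * t ^ 2 : ℝ) : ℂ) := by
    rw [sum_inner, Finset.sum_congr rfl (g := fun _ => ((t ^ 2 : ℝ) : ℂ))]
    · simp
    · intro k hk
      rw [inner_smul_left, ht k hk, Complex.conj_ofReal]
      push_cast
      ring
  have h2 : ⟪∑ k ∈ K, (t : ℂ) • φ k, ∑ k ∈ K, (t : ℂ) • φ k⟫_ℂ = ((K.card * t ^ 2 : ℝ) : ℂ) := by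
    rw [sum_inner, Finset.sum_congr rfl (g := fun _ => ((t ^ 2 : ℝ) : ℂ))]
    · simp
    · intro k hk
      rw [inner_smul_left, inner_sum, Finset.sum_congr rfl (g := fun j => if k = j then (t : ℂ) else 0)]
      · rw [Complex.conj_ofReal]
        simp only [Finset.sum_ite_eq, hk, if_true]
        push_cast
        ring
      · intro j hj
        rw [inner_smul_right, inner_of_mem h hk hj]
        split_ifs <;> simp
  have h3 : ‖∑ k ∈ K, (t : ℂ) • φ k‖ ^ 2 = K.card * t ^ 2 := by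
    rw [@norm_sq_eq_re_inner ℂ, h2]
    exact Complex.ofReal_re _
  rw [norm_sub_rev, @norm_sub_sq ℂ, h1, h3]
  have : RCLike.re ((K.card * t ^ 2 : ℝ) : ℂ) = K.card * t ^ 2 := Complex.ofReal_re _
  rw [this]
  ring

end basic

lemma kid_snd {𝓘 : ℤ → ℤ → Prop} {I L : ℕ} {m k : V} (hk : k ∈ kids 𝓘 I L m) : k.2.2 = m.1 := by
  obtain ⟨i, -, rfl⟩ := Finset.mem_image.mp hk
  rfl

lemma inner_phi (hF : FrqStmt) {τ N R N' : ℕ} (hτ : 0 < τ) (hR : 0 < R) (k m : V)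
    (hk : |k.2.2| ≤ (τ * R : ℕ)) :
    ⟪phi (τ * R) N' k, phi τ N m⟫_ℂ =
      ((Real.sqrt (((τ * R : ℕ) : ℝ) / |(k.2.2 : ℝ)|) * Real.sqrt ((τ : ℝ) / |(m.2.2 : ℝ)|) *
        (((cells (τ * R) N' k ∩ refine τ R (cells τ N m)).card : ℝ) / (τ * R : ℕ)) : ℝ) : ℂ) := by
  obtain ⟨h1, h2, h3⟩ := hF
  have hτR : 0 < τ * R := Nat.mul_pos hτ hR
  rw [phi, phi, inner_smul_left, inner_smul_right, h2 τ R _ hτ hR,
    h1 (τ * R) _ _ hτR (h3 (τ * R) N' k hτR hk).2.1, Complex.conj_ofReal]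
  push_cast
  ring

end A2K

open A2K in
theorem A2K_proof (hF : FrqStmt) (hA : A34Stmt) : A2kStmt := by
  intro n s s' L Γ I hg hg' hT hcard
  have hτ : 0 < s.τ := hg.inv.τpos
  have hκ : 0 < kap n := by unfold kap; positivity
  have hκ1 : kap n ≤ 1 / 16 := by
    unfold kap
    have : (1 / 4 : ℝ) ^ n ≤ 1 := pow_le_one₀ (by norm_num) (by norm_num)
    linarith
  have hΓ : 0 < Γ := by
    rcases Nat.eq_zero_or_pos Γ with h | h
    · have := hT.Γbig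
      rw [h] at this
      norm_num at this
    · exact h
  have hD : 8 ≤ s.D := le_trans (by omega) hg.inv.DZ
  have hLp : 0 < s.Lp := lt_of_lt_of_le (by omega) hg.inv.LD
  have hR : 0 < Γ * s.Lp := Nat.mul_pos hΓ hLp
  have wd1 : ∀ {τ N : ℕ} {M : Finset V}, 0 < τ → Part τ N M →
      Orthonormal ℂ (fun m : M => phi τ N m) := by
    intro τ N M hτ hP
    refine (hA τ N M 1 hτ hP fun m hm => ?_).1
    have h1 := (hP.len m hm).2
    have h2 : |(m.2.2 : ℝ)| ≤ τ := by exact_mod_cast h1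
    exact div_le_one_of_le₀ h2 (Nat.cast_nonneg _)
  have hon := wd1 hτ hg.inv.part
  have hon' := wd1 hg'.inv.τpos hg'.inv.part
  have hsub : ∀ m ∈ s.M, kids s.𝓘 I L m ⊆ s'.M := fun m hm =>
    hT.kM m (Finset.mem_union_left _ hm)
  have hklen : ∀ m ∈ s.M, ∀ k ∈ kids s.𝓘 I L m,
      k.2.2 ≠ 0 ∧ |k.2.2| ≤ ((s.τ * (Γ * s.Lp) : ℕ) : ℤ) := by
    intro m hm k hk
    have := hg'.inv.part.len k (hsub m hm hk)
    rwa [hT.hτ] at this
  have hself : ∀ m ∈ s.M, ∀ k ∈ kids s.𝓘 I L m, ⟪phi s'.τ s'.N k, phi s.τ s.N m⟫_ℂ =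
      ((Real.sqrt (|(m.1 : ℝ)| / (Γ * s.Lp * |(m.2.2 : ℝ)|)) : ℝ) : ℂ) := by
    intro m hm k hk
    have h0 := hT.sub m hm k hk
    obtain ⟨h1, h2⟩ := hklen m hm k hk
    rw [hT.hτ] at h0 ⊢
    rw [inner_phi hF hτ hR k m h2, Finset.inter_eq_left.mpr h0]
    have h3 := (hF.2.2 (s.τ * (Γ * s.Lp)) s'.N k (Nat.mul_pos hτ hR) h2).1
    have h4 : ((cells (s.τ * (Γ * s.Lp)) s'.N k).card : ℝ) = |(k.2.2 : ℝ)| := by exact_mod_cast h3
    rw [h4, kid_snd hk]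
    rw [kid_snd hk] at h1
    have hz := (hg.inv.part.len m hm).1
    have ha' : 0 < |(m.1 : ℝ)| := abs_pos.mpr (by exact_mod_cast h1)
    have hz' : 0 < |(m.2.2 : ℝ)| := abs_pos.mpr (by exact_mod_cast hz)
    have hτ' : (0 : ℝ) < s.τ := by exact_mod_cast hτ
    have hΓ' : (0 : ℝ) < Γ := by exact_mod_cast hΓ
    have hLp' : (0 : ℝ) < s.Lp := by exact_mod_cast hLp
    congr 1
    symm
    rw [Real.sqrt_eq_iff_mul_self_eq (by positivity) (by positivity)]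
    have e1 := Real.mul_self_sqrt (x := ((s.τ * (Γ * s.Lp) : ℕ) : ℝ) / |(m.1 : ℝ)|) (by positivity)
    have e2 := Real.mul_self_sqrt (x := (s.τ : ℝ) / |(m.2.2 : ℝ)|) (by positivity)
    symm
    calc _ = (Real.sqrt (((s.τ * (Γ * s.Lp) : ℕ) : ℝ) / |(m.1 : ℝ)|) *
          Real.sqrt (((s.τ * (Γ * s.Lp) : ℕ) : ℝ) / |(m.1 : ℝ)|)) *
          (Real.sqrt ((s.τ : ℝ) / |(m.2.2 : ℝ)|) * Real.sqrt ((s.τ : ℝ) / |(m.2.2 : ℝ)|)) *
          (|(m.1 : ℝ)| / ((s.τ * (Γ * s.Lp) : ℕ) : ℝ)) ^ 2 := by ring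
      _ = _ := by
        rw [e1, e2]
        push_cast
        field_simp
  have hnorm : ∀ m ∈ s.M, ‖phi s.τ s.N m - ∑ k ∈ kids s.𝓘 I L m,
        ((Real.sqrt (|(m.1 : ℝ)| / (Γ * s.Lp * |(m.2.2 : ℝ)|)) : ℝ) : ℂ) • phi s'.τ s'.N k‖ ^ 2 =
      1 - ((kids s.𝓘 I L m).card : ℝ) * (|(m.1 : ℝ)| / (Γ * s.Lp * |(m.2.2 : ℝ)|)) := by
    intro m hm
    rw [norm_proj (on_mono hon' (hsub m hm)) _ _ (hself m hm), Real.sq_sqrt (by positivity)]
    have : ‖phi s.τ s.N m‖ = 1 := hon.1 ⟨m, hm⟩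
    rw [this, one_pow]
  refine ⟨fun m hm => ?_, fun m hm m' hm' hne k hk => ?_, fun m hm => ?_⟩
  · have h1 := hnorm m hm
    have h2 := sq_nonneg ‖phi s.τ s.N m - ∑ k ∈ kids s.𝓘 I L m,
        ((Real.sqrt (|(m.1 : ℝ)| / (Γ * s.Lp * |(m.2.2 : ℝ)|)) : ℝ) : ℂ) • phi s'.τ s'.N k‖
    linarith
  · have h0 := hT.sub m hm k hk
    obtain ⟨-, h2⟩ := hklen m hm k hk
    rw [hT.hτ] at h0 ⊢
    rw [inner_phi hF hτ hR k m' h2]
    have h3 : cells (s.τ * (Γ * s.Lp)) s'.N k ∩ refine s.τ (Γ * s.Lp) (cells s.τ s.N m') = ∅ := by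
      refine Finset.eq_empty_of_forall_notMem fun x hx => ?_
      obtain ⟨hx1, hx2⟩ := Finset.mem_inter.mp hx
      have h4 := (Finset.mem_filter.mp (h0 hx1)).2
      have h5 := (Finset.mem_filter.mp hx2).2
      exact Finset.disjoint_left.mp (hg.inv.part.disj m hm m' hm' hne) h4 h5
    rw [h3]
    simp
  · refine (pow_le_pow_iff_left₀ (norm_nonneg _) (by positivity) two_ne_zero).mp ?_
    rw [hnorm m hm]
    obtain ⟨hz, -, hl, -⟩ := hg.inv.lac m (Finset.mem_union_left _ (Finset.mem_union_left _ hm))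
    have hz1 : (1 : ℝ) ≤ |(m.2.2 : ℝ)| := by exact_mod_cast Int.one_le_abs hz
    have hl' : (s.D : ℝ) * |(m.1 : ℝ) - s.Lp * m.2.2| ≤ s.Lp := by exact_mod_cast hl
    have hΓ' : (0 : ℝ) < Γ := by exact_mod_cast hΓ
    have hLp' : (0 : ℝ) < s.Lp := by exact_mod_cast hLp
    have hDη := hg.Dη
    have h1 : |(m.1 : ℝ) - s.Lp * m.2.2| ≤ kap n ^ 2 * s.Lp := by
      calc _ = 1 * |(m.1 : ℝ) - s.Lp * m.2.2| := (one_mul _).symm
        _ ≤ (kap n ^ 2 * s.D) * |(m.1 : ℝ) - s.Lp * m.2.2| :=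
          mul_le_mul_of_nonneg_right hDη (abs_nonneg _)
        _ = kap n ^ 2 * (s.D * |(m.1 : ℝ) - s.Lp * m.2.2|) := by ring
        _ ≤ _ := mul_le_mul_of_nonneg_left hl' (by positivity)
    have h2 : (1 - kap n ^ 2) * (s.Lp * |(m.2.2 : ℝ)|) ≤ |(m.1 : ℝ)| := by
      have h3 : s.Lp * |(m.2.2 : ℝ)| ≤ |(m.1 : ℝ)| + |(m.1 : ℝ) - s.Lp * m.2.2| := by
        have h4 : (s.Lp : ℝ) * |(m.2.2 : ℝ)| = |(m.1 : ℝ) - ((m.1 : ℝ) - s.Lp * m.2.2)| := by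
          rw [sub_sub_cancel, abs_mul, abs_of_pos hLp']
        rw [h4]
        exact abs_sub _ _
      have h5 : kap n ^ 2 * s.Lp ≤ kap n ^ 2 * (s.Lp * |(m.2.2 : ℝ)|) :=
        mul_le_mul_of_nonneg_left (le_mul_of_one_le_right hLp'.le hz1) (by positivity)
      linarith
    have h3 : (1 - kap n ^ 2) / Γ ≤ |(m.1 : ℝ)| / (Γ * s.Lp * |(m.2.2 : ℝ)|) := by
      rw [div_le_div_iff₀ hΓ' (by positivity)]
      calc _ = (1 - kap n ^ 2) * (s.Lp * |(m.2.2 : ℝ)|) * Γ := by ring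
        _ ≤ _ := mul_le_mul_of_nonneg_right h2 hΓ'.le
    have hk2 : 0 ≤ 1 - kap n ^ 2 := by nlinarith
    have h4 : (1 - 3 * kap n) ^ 2 * Γ * ((1 - kap n ^ 2) / Γ) ≤
        ((kids s.𝓘 I L m).card : ℝ) * (|(m.1 : ℝ)| / (Γ * s.Lp * |(m.2.2 : ℝ)|)) :=
      mul_le_mul (hcard m hm) h3 (by positivity) (Nat.cast_nonneg _)
    have h5 : (1 - 3 * kap n) ^ 2 * Γ * ((1 - kap n ^ 2) / Γ) =
        (1 - 3 * kap n) ^ 2 * (1 - kap n ^ 2) := by field_simp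
    have h6 : ((1 / 2 : ℝ) ^ n) ^ 2 = 16 * kap n := by
      rw [kap, ← pow_mul, mul_comm n 2, pow_mul]
      norm_num
      ring
    rw [h6]
    rw [h5] at h4
    have h7 : 1 - 16 * kap n ≤ (1 - 3 * kap n) ^ 2 * (1 - kap n ^ 2) := by
      have h8 : 1 - 6 * kap n ≤ (1 - 3 * kap n) ^ 2 := by nlinarith [sq_nonneg (kap n)]
      have h9 : (1 - 6 * kap n) * (1 - kap n ^ 2) ≤ (1 - 3 * kap n) ^ 2 * (1 - kap n ^ 2) :=
        mul_le_mul_of_nonneg_right h8 hk2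
      have h10 : 0 ≤ kap n ^ 3 := by positivity
      nlinarith
    linarith

end Crest.Agent.R81
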