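import Crest.Agent.R81.Defs

set_option autoImplicit false

open Finset MeasureTheory Filter Topology
open scoped ContDiff ComplexConjugate InnerProductSpace Classical
open Crest.AnalysisR.Torus3
open Crest.Agent.R75 (ee)

namespace Crest.Agent.R81

namespace A34

lemma ee_add (x y : ℝ) : ee (x + y) = ee x * ee y := by
  unfold ee; rw [← Complex.exp_add]; congr 1; push_cast; ring

lemma ee_norm (x : ℝ) : ‖ee x‖ = 1 := by
  unfold ee
  rw [show (2 * (Real.pi : ℂ) * Complex.I * (x : ℂ)) = ((2 * Real.pi * x : ℝ) : ℂ) * Complex.I by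
    push_cast; ring]
  exact Complex.norm_exp_ofReal_mul_I _

lemma pyth {E : Type*} [NormedAddCommGroup E] [InnerProductSpace ℂ E] (M : Finset V) (φ : V → E)
    (h : ∀ m ∈ M, ∀ m' ∈ M, ⟪φ m, φ m'⟫_ℂ = if m = m' then 1 else 0) (x : E) :
    ‖x - ∑ m ∈ M, ⟪φ m, x⟫_ℂ • φ m‖ ^ 2 = ‖x‖ ^ 2 - ∑ m ∈ M, ‖⟪φ m, x⟫_ℂ‖ ^ 2 := by
  have h1 : ⟪x, ∑ m ∈ M, ⟪φ m, x⟫_ℂ • φ m⟫_ℂ = ((∑ m ∈ M, ‖⟪φ m, x⟫_ℂ‖ ^ 2 : ℝ) : ℂ) := by
    rw [inner_sum]; push_cast
    refine Finset.sum_congr rfl fun m _ => ?_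
    rw [inner_smul_right, ← inner_conj_symm x (φ m), Complex.mul_conj, Complex.normSq_eq_norm_sq]
    push_cast; rfl
  have h2 : ⟪∑ m ∈ M, ⟪φ m, x⟫_ℂ • φ m, ∑ m ∈ M, ⟪φ m, x⟫_ℂ • φ m⟫_ℂ =
      ((∑ m ∈ M, ‖⟪φ m, x⟫_ℂ‖ ^ 2 : ℝ) : ℂ) := by
    rw [sum_inner]; push_cast
    refine Finset.sum_congr rfl fun m hm => ?_
    rw [inner_smul_left, inner_sum]
    have : ∑ m' ∈ M, ⟪φ m, ⟪φ m', x⟫_ℂ • φ m'⟫_ℂ = ⟪φ m, x⟫_ℂ := by
      rw [Finset.sum_eq_single m]
      · rw [inner_smul_right, h m hm m hm]; simp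
      · intro m' hm' hne
        rw [inner_smul_right, h m hm m' hm', if_neg (Ne.symm hne)]; simp
      · intro h; exact absurd hm h
    rw [this, mul_comm, Complex.mul_conj, Complex.normSq_eq_norm_sq]
    push_cast; rfl
  rw [norm_sub_sq (𝕜 := ℂ), h1, ← inner_self_eq_norm_sq (𝕜 := ℂ) (∑ m ∈ M, ⟪φ m, x⟫_ℂ • φ m), h2]
  simp only [RCLike.re_to_complex, Complex.ofReal_re]
  ring

end A34

open A34 in
theorem A34_proof (hF : FrqStmt) : A34Stmt := by
  intro τ N M wd hτ hP hwd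
  obtain ⟨hF1, -, hF3⟩ := hF
  have hτ' : (0 : ℝ) < τ := by exact_mod_cast hτ
  have hz : ∀ m ∈ M, (0 : ℝ) < |(m.2.2 : ℝ)| := fun m hm =>
    abs_pos.2 (by exact_mod_cast (hP.len m hm).1)
  have hcard : ∀ m ∈ M, ((cells τ N m).card : ℝ) = |(m.2.2 : ℝ)| := fun m hm => by
    have := (hF3 τ N m hτ (hP.len m hm).2).1
    exact_mod_cast this
  have hsum : ∑ m ∈ M, |(m.2.2 : ℝ)| / τ = 1 := by
    have hU : M.biUnion (cells τ N) = Finset.Ico (0 : ℤ) τ := by
      apply Finset.Subset.antisymm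
      · exact Finset.biUnion_subset.2 fun m hm => (hF3 τ N m hτ (hP.len m hm).2).2.1
      · intro x hx
        obtain ⟨m, hm, hx⟩ := hP.cover x hx
        exact Finset.mem_biUnion.2 ⟨m, hm, hx⟩
    have hc : (M.biUnion (cells τ N)).card = ∑ m ∈ M, (cells τ N m).card :=
      Finset.card_biUnion fun m hm m' hm' hne => hP.disj m hm m' hm' hne
    rw [hU, Int.card_Ico] at hc
    have hc' : (τ : ℝ) = ∑ m ∈ M, ((cells τ N m).card : ℝ) := by
      have : τ = ∑ m ∈ M, (cells τ N m).card := by simpa using hc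
      exact_mod_cast this
    rw [← Finset.sum_div, ← Finset.sum_congr rfl hcard, ← hc', div_self hτ'.ne']
  have hin : ∀ m (x : KK), ⟪phi τ N m, x⟫_ℂ =
      ((Real.sqrt ((τ : ℝ) / |(m.2.2 : ℝ)|) : ℝ) : ℂ) * ⟪ind τ (cells τ N m), x⟫_ℂ := by
    intro m x
    rw [phi, inner_smul_left, Complex.conj_ofReal]
  have hsq : ∀ m ∈ M, Real.sqrt ((τ : ℝ) / |(m.2.2 : ℝ)|) ^ 2 * (|(m.2.2 : ℝ)| / τ) = 1 := by
    intro m hm
    have := hz m hm
    rw [Real.sq_sqrt (by positivity)]; field_simp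
  have horth : ∀ m ∈ M, ∀ m' ∈ M, ⟪phi τ N m, phi τ N m'⟫_ℂ = if m = m' then 1 else 0 := by
    intro m hm m' hm'
    rw [hin]
    conv_lhs => rw [phi]
    rw [inner_smul_right, hF1 τ _ _ hτ (hF3 τ N m hτ (hP.len m hm).2).2.1]
    split_ifs with h
    · subst h
      rw [Finset.inter_self, hcard m hm]
      have := hsq m hm
      rw [← mul_assoc, ← Complex.ofReal_mul, ← Complex.ofReal_mul, ← sq, this, Complex.ofReal_one]
    · rw [Finset.disjoint_iff_inter_eq_empty.1 (hP.disj m hm m' hm' h)]; simp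
  have hwd0 : ∀ m ∈ M, 0 ≤ wd := fun m hm => le_trans (by have := hz m hm; positivity) (hwd m hm)
  refine ⟨?_, fun m hm => ?_, fun s => ?_, fun s => ?_⟩
  · rw [orthonormal_iff_ite]
    intro m m'
    rw [horth m m.2 m' m'.2]
    simp only [Subtype.ext_iff]
  · have h := (hF3 τ N m hτ (hP.len m hm).2).2.2 0
    simp only [Int.cast_zero, zero_mul, zero_div, abs_zero, mul_zero, norm_le_zero_iff,
      sub_eq_zero] at h
    rw [hin, h, show ee 0 = 1 by simp [ee], one_mul]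
    have := hz m hm
    have e : Real.sqrt ((τ : ℝ) / |(m.2.2 : ℝ)|) * (|(m.2.2 : ℝ)| / τ) =
        Real.sqrt (|(m.2.2 : ℝ)| / τ) := by
      have h1 : Real.sqrt ((τ : ℝ) / |(m.2.2 : ℝ)|) * Real.sqrt (|(m.2.2 : ℝ)| / τ) = 1 := by
        rw [← Real.sqrt_mul (by positivity)]
        rw [show (τ : ℝ) / |(m.2.2 : ℝ)| * (|(m.2.2 : ℝ)| / τ) = 1 by field_simp, Real.sqrt_one]
      have h2 : |(m.2.2 : ℝ)| / τ = Real.sqrt (|(m.2.2 : ℝ)| / τ) * Real.sqrt (|(m.2.2 : ℝ)| / τ) :=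
        (Real.mul_self_sqrt (by positivity)).symm
      conv_lhs => rw [h2]
      rw [← mul_assoc, h1, one_mul]
    exact_mod_cast e
  · have hn : ‖eK s‖ = 1 := (@orthonormal_fourier 1 ⟨one_pos⟩).1 s
    have hlow : ∀ m ∈ M, |(m.2.2 : ℝ)| / τ * (1 - 4 * Real.pi * |(s : ℝ)| * wd) ≤
        ‖⟪phi τ N m, eK s⟫_ℂ‖ ^ 2 := by
      intro m hm
      have h := (hF3 τ N m hτ (hP.len m hm).2).2.2 s
      have hl : 0 < |(m.2.2 : ℝ)| / τ := by have := hz m hm; positivity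
      have hs := hsq m hm
      have hw := hwd m hm
      set l := |(m.2.2 : ℝ)| / τ with hl'
      set r := Real.sqrt ((τ : ℝ) / |(m.2.2 : ℝ)|) with hr
      have hr0 : 0 ≤ r := Real.sqrt_nonneg _
      rw [hin, norm_mul, Complex.norm_real, Real.norm_of_nonneg hr0, mul_pow]
      set c := 2 * Real.pi * |(s : ℝ)| with hc
      have hc0 : 0 ≤ c := by positivity
      have h1 : l - c * l ^ 2 ≤ ‖⟪ind τ (cells τ N m), eK s⟫_ℂ‖ := by
        have h2 := norm_sub_norm_le (ee (s * pos N m / τ) * (l : ℂ)) ⟪ind τ (cells τ N m), eK s⟫_ℂ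
        rw [norm_sub_rev, norm_mul, ee_norm, one_mul, Complex.norm_real,
          Real.norm_of_nonneg hl.le] at h2
        linarith
      set X := ‖⟪ind τ (cells τ N m), eK s⟫_ℂ‖ with hX
      have hX0 : 0 ≤ X := norm_nonneg _
      have e4 : 4 * Real.pi * |(s : ℝ)| = 2 * c := by rw [hc]; ring
      rw [e4]
      have hcw : c * l ≤ c * wd := mul_le_mul_of_nonneg_left hw hc0
      have key : l ^ 2 * (1 - 2 * c * wd) ≤ X ^ 2 := by
        by_cases hh : 0 ≤ 1 - c * l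
        · have h3 : (l * (1 - c * l)) ^ 2 ≤ X ^ 2 :=
            pow_le_pow_left₀ (by positivity) (by linarith) 2
          have h4 : 1 - 2 * c * wd ≤ (1 - c * l) ^ 2 := by nlinarith [sq_nonneg (c * l)]
          calc l ^ 2 * (1 - 2 * c * wd) ≤ l ^ 2 * (1 - c * l) ^ 2 :=
                mul_le_mul_of_nonneg_left h4 (by positivity)
            _ = (l * (1 - c * l)) ^ 2 := by ring
            _ ≤ _ := h3
        · have h4 : 1 - 2 * c * wd ≤ 0 := by
            have : 0 ≤ c * l := by positivity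
            linarith
          have : l ^ 2 * (1 - 2 * c * wd) ≤ 0 := mul_nonpos_of_nonneg_of_nonpos (by positivity) h4
          nlinarith [sq_nonneg X]
      calc l * (1 - 2 * c * wd) = r ^ 2 * (l ^ 2 * (1 - 2 * c * wd)) := by
            rw [show r ^ 2 * (l ^ 2 * (1 - 2 * c * wd)) = (r ^ 2 * l) * (l * (1 - 2 * c * wd)) by ring,
              hs, one_mul]
        _ ≤ _ := mul_le_mul_of_nonneg_left key (by positivity)
    have h1 := Finset.sum_le_sum hlow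
    rw [← Finset.sum_mul, hsum, one_mul] at h1
    rw [← Real.sqrt_mul (by positivity)]
    apply Real.le_sqrt_of_sq_le
    rw [pyth M _ horth, hn]
    linarith
  · have hup : ∀ m ∈ M, ‖⟪phi τ N m, eK (s + 1)⟫_ℂ - ee (pos N m / τ) * ⟪phi τ N m, eK s⟫_ℂ‖ ^ 2 ≤
        |(m.2.2 : ℝ)| / τ * (2 * Real.pi * (2 * |(s : ℝ)| + 1) * wd) ^ 2 := by
      intro m hm
      have h := (hF3 τ N m hτ (hP.len m hm).2).2.2 s
      have h' := (hF3 τ N m hτ (hP.len m hm).2).2.2 (s + 1)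
      have hl : 0 < |(m.2.2 : ℝ)| / τ := by have := hz m hm; positivity
      have hs := hsq m hm
      have hw := hwd m hm
      set l := |(m.2.2 : ℝ)| / τ with hl'
      set r := Real.sqrt ((τ : ℝ) / |(m.2.2 : ℝ)|) with hr
      have hr0 : 0 ≤ r := Real.sqrt_nonneg _
      have e : ee (((s + 1 : ℤ) : ℝ) * pos N m / τ) = ee (pos N m / τ) * ee (s * pos N m / τ) := by
        rw [← ee_add]; congr 1; push_cast; ring
      rw [e] at h'
      rw [hin, hin]
      set a := ⟪ind τ (cells τ N m), eK (s + 1)⟫_ℂ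
      set b := ⟪ind τ (cells τ N m), eK s⟫_ℂ
      have e2 : (r : ℂ) * a - ee (pos N m / τ) * ((r : ℂ) * b) =
          (r : ℂ) * ((a - ee (pos N m / τ) * ee (s * pos N m / τ) * (l : ℂ)) -
            ee (pos N m / τ) * (b - ee (s * pos N m / τ) * (l : ℂ))) := by ring
      have habs : |((s + 1 : ℤ) : ℝ)| ≤ |(s : ℝ)| + 1 := by
        push_cast; exact (abs_add_le _ _).trans (by simp)
      have h3 : ‖(a - ee (pos N m / τ) * ee (s * pos N m / τ) * (l : ℂ)) -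
            ee (pos N m / τ) * (b - ee (s * pos N m / τ) * (l : ℂ))‖ ≤
          2 * Real.pi * (2 * |(s : ℝ)| + 1) * l ^ 2 := by
        refine (norm_sub_le _ _).trans ?_
        rw [norm_mul, ee_norm, one_mul]
        have : 2 * Real.pi * |((s + 1 : ℤ) : ℝ)| * l ^ 2 ≤ 2 * Real.pi * (|(s : ℝ)| + 1) * l ^ 2 := by
          gcongr
        linarith
      rw [e2, norm_mul, Complex.norm_real, Real.norm_of_nonneg hr0, mul_pow]
      set C := 2 * Real.pi * (2 * |(s : ℝ)| + 1) with hC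
      have hC0 : 0 ≤ C := by positivity
      calc _ ≤ r ^ 2 * (C * l ^ 2) ^ 2 := by gcongr
        _ = (r ^ 2 * l) * (l * (C * l) ^ 2) := by ring
        _ = l * (C * l) ^ 2 := by rw [hs, one_mul]
        _ ≤ l * (C * wd) ^ 2 := by gcongr
    refine (Finset.sum_le_sum hup).trans (le_of_eq ?_)
    rw [← Finset.sum_mul, hsum, one_mul]

end Crest.Agent.R81
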