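import Crest.Agent.R81.Defs

/-! # Row 81, task ABS: the abstract limit of approximate isometries -/

set_option autoImplicit false

open Finset MeasureTheory Filter Topology
open scoped ContDiff ComplexConjugate InnerProductSpace Classical
open Crest.AnalysisR.Torus3
open Crest.Agent.R75 (ee)

namespace Crest.Agent.R81

namespace ABS

section basic

variable {E F : Type} [NormedAddCommGroup E] [InnerProductSpace ℂ E] [NormedAddCommGroup F]
  [InnerProductSpace ℂ F]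

lemma inner_of_mem {M : Finset V} {φ : V → E} (h : Orthonormal ℂ (fun m : M => φ m)) {m k : V}
    (hm : m ∈ M) (hk : k ∈ M) : ⟪φ m, φ k⟫_ℂ = if m = k then 1 else 0 := by
  have := (orthonormal_iff_ite.mp h) ⟨m, hm⟩ ⟨k, hk⟩
  simpa [Subtype.ext_iff] using this

lemma inner_sy {M : Finset V} {φ : V → E} (h : Orthonormal ℂ (fun m : M => φ m)) (c : V → ℂ)
    {m : V} (hm : m ∈ M) : ⟪φ m, ∑ k ∈ M, c k • φ k⟫_ℂ = c m := by
  rw [inner_sum]
  have : ∀ k ∈ M, ⟪φ m, c k • φ k⟫_ℂ = if m = k then c k else 0 := by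
    intro k hk
    rw [inner_smul_right, inner_of_mem h hm hk]
    split_ifs <;> simp
  rw [Finset.sum_congr rfl this]
  simp [hm]

lemma inner_sy_sy {M : Finset V} {φ : V → E} (h : Orthonormal ℂ (fun m : M => φ m))
    (c d : V → ℂ) :
    ⟪∑ k ∈ M, c k • φ k, ∑ k ∈ M, d k • φ k⟫_ℂ = ∑ k ∈ M, conj (c k) * d k := by
  rw [sum_inner]
  refine Finset.sum_congr rfl fun k hk => ?_
  rw [inner_smul_left, inner_sy h d hk]

lemma norm_sy {M : Finset V} {φ : V → E} (h : Orthonormal ℂ (fun m : M => φ m)) (c : V → ℂ) :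
    ‖∑ k ∈ M, c k • φ k‖ = Real.sqrt (∑ k ∈ M, ‖c k‖ ^ 2) := by
  have h1 := inner_sy_sy h c c
  rw [inner_self_eq_norm_sq_to_K] at h1
  have h2 : ‖∑ k ∈ M, c k • φ k‖ ^ 2 = ∑ k ∈ M, ‖c k‖ ^ 2 := by
    have h3 : ∀ k ∈ M, conj (c k) * c k = ((‖c k‖ ^ 2 : ℝ) : ℂ) := by
      intro k _
      rw [Complex.conj_mul']
      push_cast
      rfl
    rw [Finset.sum_congr rfl h3] at h1
    have h4 : ((‖∑ k ∈ M, c k • φ k‖ ^ 2 : ℝ) : ℂ) = ((∑ k ∈ M, ‖c k‖ ^ 2 : ℝ) : ℂ) := by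
      push_cast at h1 ⊢
      exact h1
    exact_mod_cast h4
  rw [← h2, Real.sqrt_sq (norm_nonneg _)]

lemma bessel {M : Finset V} {φ : V → E} (h : Orthonormal ℂ (fun m : M => φ m)) (x : E) :
    Real.sqrt (∑ k ∈ M, ‖⟪φ k, x⟫_ℂ‖ ^ 2) ≤ ‖x‖ := by
  have h1 := h.sum_inner_products_le x (s := Finset.univ)
  rw [Finset.sum_coe_sort M (fun k => ‖⟪φ k, x⟫_ℂ‖ ^ 2)] at h1
  exact Real.sqrt_le_iff.mpr ⟨norm_nonneg _, h1⟩

/-- The partial isometry `φ m ↦ ψ m`. -/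
noncomputable def J (M : Finset V) (φ : V → E) (ψ : V → F) (x : E) : F :=
  ∑ m ∈ M, ⟪φ m, x⟫_ℂ • ψ m

lemma J_add (M : Finset V) (φ : V → E) (ψ : V → F) (x y : E) :
    J M φ ψ (x + y) = J M φ ψ x + J M φ ψ y := by
  simp [J, inner_add_right, add_smul, Finset.sum_add_distrib]

lemma J_sub (M : Finset V) (φ : V → E) (ψ : V → F) (x y : E) :
    J M φ ψ (x - y) = J M φ ψ x - J M φ ψ y := by
  simp [J, inner_sub_right, sub_smul, Finset.sum_sub_distrib]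

lemma J_smul (M : Finset V) (φ : V → E) (ψ : V → F) (a : ℂ) (x : E) :
    J M φ ψ (a • x) = a • J M φ ψ x := by
  simp [J, inner_smul_right, Finset.smul_sum, mul_smul]

lemma J_zero (M : Finset V) (φ : V → E) (ψ : V → F) : J M φ ψ 0 = 0 := by
  simp [J]

lemma norm_J_le {M : Finset V} {φ : V → E} {ψ : V → F} (hφ : Orthonormal ℂ (fun m : M => φ m))
    (hψ : Orthonormal ℂ (fun m : M => ψ m)) (x : E) : ‖J M φ ψ x‖ ≤ ‖x‖ := by
  rw [J, norm_sy hψ]
  exact bessel hφ x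

lemma J_sy {M : Finset V} {φ : V → E} (ψ : V → F) (hφ : Orthonormal ℂ (fun m : M => φ m))
    (c : V → ℂ) : J M φ ψ (∑ k ∈ M, c k • φ k) = ∑ k ∈ M, c k • ψ k := by
  refine Finset.sum_congr rfl fun k hk => ?_
  rw [inner_sy hφ c hk]

lemma inner_J_J {M : Finset V} {φ : V → E} {ψ : V → F} (hφ : Orthonormal ℂ (fun m : M => φ m))
    (hψ : Orthonormal ℂ (fun m : M => ψ m)) (x y : E) :
    ⟪J M φ ψ x, J M φ ψ y⟫_ℂ = ⟪J M φ φ x, J M φ φ y⟫_ℂ := by
  rw [J, J, J, J, inner_sy_sy hψ, inner_sy_sy hφ]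

lemma iter {M : ℕ → Finset V} {φ : ℕ → V → E} {ψ : ℕ → V → F} {δ : ℕ → ℝ} (hδ : ∀ n, 0 ≤ δ n)
    (hA : ∀ n, A2 (δ n) (M n) (M (n + 1)) (φ n) (φ (n + 1)) (ψ n) (ψ (n + 1)))
    (n : ℕ) (c : V → ℂ) (k : ℕ) :
    A2 (∑ i ∈ range k, δ (i + n)) (M n) (M (k + n)) (φ n) (φ (k + n)) (ψ n) (ψ (k + n)) := by
  clear c
  induction k with
  | zero =>
    intro c
    refine ⟨c, ?_, ?_, ?_⟩ <;> simp
  | succ k ih =>
    intro c
    obtain ⟨c1, h1, h2, h3⟩ := ih c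
    obtain ⟨c2, g1, g2, g3⟩ := hA (k + n) c1
    have e : k + 1 + n = k + n + 1 := by ring
    rw [e, Finset.sum_range_succ]
    have hs : δ (k + n) * Real.sqrt (∑ m ∈ M (k + n), ‖c1 m‖ ^ 2) ≤
        δ (k + n) * Real.sqrt (∑ m ∈ M n, ‖c m‖ ^ 2) :=
      mul_le_mul_of_nonneg_left (Real.sqrt_le_sqrt h1) (hδ _)
    refine ⟨c2, g1.trans h1, ?_, ?_⟩
    · calc _ ≤ ‖∑ m ∈ M n, c m • φ n m - ∑ m ∈ M (k + n), c1 m • φ (k + n) m‖ +
            ‖∑ m ∈ M (k + n), c1 m • φ (k + n) m -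
              ∑ m ∈ M (k + n + 1), c2 m • φ (k + n + 1) m‖ := norm_sub_le_norm_sub_add_norm_sub _ _ _
        _ ≤ _ := by rw [add_mul]; linarith
    · calc _ ≤ ‖∑ m ∈ M n, c m • ψ n m - ∑ m ∈ M (k + n), c1 m • ψ (k + n) m‖ +
            ‖∑ m ∈ M (k + n), c1 m • ψ (k + n) m -
              ∑ m ∈ M (k + n + 1), c2 m • ψ (k + n + 1) m‖ := norm_sub_le_norm_sub_add_norm_sub _ _ _
        _ ≤ _ := by rw [add_mul]; linarith

lemma step {M M' : Finset V} {φ φ' : V → E} {ψ ψ' : V → F} {δ : ℝ}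
    (hφ : Orthonormal ℂ (fun m : M' => φ' m)) (hψ : Orthonormal ℂ (fun m : M' => ψ' m))
    (hA : A2 δ M M' φ φ' ψ ψ') (c : V → ℂ) :
    ‖J M' φ' ψ' (∑ m ∈ M, c m • φ m) - ∑ m ∈ M, c m • ψ m‖ ≤
      2 * δ * Real.sqrt (∑ m ∈ M, ‖c m‖ ^ 2) := by
  obtain ⟨c', -, h2, h3⟩ := hA c
  have h4 : ‖J M' φ' ψ' (∑ m ∈ M, c m • φ m) - ∑ m ∈ M', c' m • ψ' m‖ ≤
      δ * Real.sqrt (∑ m ∈ M, ‖c m‖ ^ 2) := by
    rw [← J_sy ψ' hφ c', ← J_sub]
    exact (norm_J_le hφ hψ _).trans h2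
  rw [norm_sub_rev] at h3
  calc _ ≤ ‖J M' φ' ψ' (∑ m ∈ M, c m • φ m) - ∑ m ∈ M', c' m • ψ' m‖ +
        ‖∑ m ∈ M', c' m • ψ' m - ∑ m ∈ M, c m • ψ m‖ := norm_sub_le_norm_sub_add_norm_sub _ _ _
    _ ≤ _ := by linarith

end basic

end ABS

open ABS in
theorem ABS_proof : AbsStmt := by
  intro E F _ _ _ _ _ e M φ ψ δ U Ul lm f he hd hφ hψ hδ hs hA hC hU hUl hev hlm hf
  have hδ0 : Tendsto δ atTop (𝓝 0) := hs.tendsto_atTop_zero
  -- convergence of `J n (e s)`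
  have hconv : ∀ s, ∃ g : F, Tendsto (fun n => J (M n) (φ n) (ψ n) (e s)) atTop (𝓝 g) := by
    intro s
    obtain ⟨C, hC⟩ := hC s
    apply cauchySeq_tendsto_of_complete
    refine cauchySeq_of_dist_le_of_summable (fun n => (C + 2) * δ n) (fun n => ?_) (hs.mul_left _)
    rw [dist_comm, dist_eq_norm]
    have h1 := step (hφ (n + 1)) (hψ (n + 1)) (hA n) (fun m => ⟪φ n m, e s⟫_ℂ)
    have h2 : Real.sqrt (∑ k ∈ M n, ‖⟪φ n k, e s⟫_ℂ‖ ^ 2) ≤ 1 := by
      have := bessel (hφ n) (e s)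
      rwa [he.1 s] at this
    have h3 : ‖J (M (n + 1)) (φ (n + 1)) (ψ (n + 1)) (e s) -
        J (M (n + 1)) (φ (n + 1)) (ψ (n + 1)) (∑ m ∈ M n, ⟪φ n m, e s⟫_ℂ • φ n m)‖ ≤ C * δ n := by
      rw [← J_sub]
      exact (norm_J_le (hφ _) (hψ _) _).trans (hC n)
    have h4 : 2 * δ n * Real.sqrt (∑ k ∈ M n, ‖⟪φ n k, e s⟫_ℂ‖ ^ 2) ≤ 2 * δ n * 1 :=
      mul_le_mul_of_nonneg_left h2 (by have := hδ n; positivity)
    calc _ ≤ ‖J (M (n + 1)) (φ (n + 1)) (ψ (n + 1)) (e s) -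
          J (M (n + 1)) (φ (n + 1)) (ψ (n + 1)) (∑ m ∈ M n, ⟪φ n m, e s⟫_ℂ • φ n m)‖ +
          ‖J (M (n + 1)) (φ (n + 1)) (ψ (n + 1)) (∑ m ∈ M n, ⟪φ n m, e s⟫_ℂ • φ n m) -
            J (M n) (φ n) (ψ n) (e s)‖ := norm_sub_le_norm_sub_add_norm_sub _ _ _
      _ ≤ C * δ n + 2 * δ n * 1 := add_le_add h3 (h1.trans h4)
      _ = _ := by ring
  choose G hG using hconv
  have hP : ∀ s, Tendsto (fun n => J (M n) (φ n) (φ n) (e s)) atTop (𝓝 (e s)) := by
    intro s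
    obtain ⟨C, hC⟩ := hC s
    rw [tendsto_iff_norm_sub_tendsto_zero]
    refine squeeze_zero (fun n => norm_nonneg _) (fun n => ?_) (by simpa using hδ0.const_mul C)
    rw [norm_sub_rev]
    exact hC n
  refine ⟨G, ?_, ?_, hG 0, ?_⟩
  · rw [orthonormal_iff_ite]
    intro s t
    rw [← (orthonormal_iff_ite.mp he) s t]
    have h1 : Tendsto (fun n => ⟪J (M n) (φ n) (ψ n) (e s), J (M n) (φ n) (ψ n) (e t)⟫_ℂ) atTop
        (𝓝 ⟪G s, G t⟫_ℂ) := (hG s).inner (hG t)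
    have h2 : Tendsto (fun n => ⟪J (M n) (φ n) (φ n) (e s), J (M n) (φ n) (φ n) (e t)⟫_ℂ) atTop
        (𝓝 ⟪e s, e t⟫_ℂ) := (hP s).inner (hP t)
    refine tendsto_nhds_unique h1 (h2.congr fun n => ?_)
    exact (inner_J_J (hφ n) (hψ n) _ _).symm
  · intro s
    have h1 : Tendsto (fun n => U n (J (M n) (φ n) (ψ n) (e s))) atTop (𝓝 (Ul (G s))) := by
      have h2 : Tendsto (fun n => U n (J (M n) (φ n) (ψ n) (e s) - G s)) atTop (𝓝 0) := by
        rw [tendsto_zero_iff_norm_tendsto_zero]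
        exact squeeze_zero (fun n => norm_nonneg _) (fun n => hU n _)
          (tendsto_iff_norm_sub_tendsto_zero.mp (hG s))
      have h3 := h2.add (hUl (G s))
      rw [zero_add] at h3
      refine h3.congr fun n => ?_
      rw [map_sub, sub_add_cancel]
    have h2 : Tendsto (fun n => J (M n) (φ n) (ψ n) (e (s + 1)) -
        U n (J (M n) (φ n) (ψ n) (e s))) atTop (𝓝 0) := by
      rw [tendsto_zero_iff_norm_tendsto_zero]
      have h3 := (hlm s).sqrt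
      rw [Real.sqrt_zero] at h3
      refine h3.congr fun n => ?_
      rw [← norm_sy (hψ n)]
      congr 1
      rw [J, J, map_sum, ← Finset.sum_sub_distrib]
      refine Finset.sum_congr rfl fun m hm => ?_
      rw [map_smul, hev n m hm, sub_smul, smul_smul, mul_comm]
    have h3 := h2.add h1
    rw [zero_add] at h3
    refine tendsto_nhds_unique (hG (s + 1)) (h3.congr fun n => ?_)
    rw [sub_add_cancel]
  · intro h hh k hk
    have hspan : ∀ y ∈ Submodule.span ℂ (Set.range e),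
        Tendsto (fun n => ⟪J (M n) (φ n) (ψ n) y, h⟫_ℂ) atTop (𝓝 0) := by
      intro y hy
      induction hy using Submodule.span_induction with
      | mem y hy =>
        obtain ⟨s, rfl⟩ := hy
        have := (hG s).inner (𝕜 := ℂ) (tendsto_const_nhds (x := h))
        rwa [hh s] at this
      | zero => simp [J_zero]
      | add y z _ _ hy hz =>
        have := hy.add hz
        rw [add_zero] at this
        refine this.congr fun n => ?_
        rw [J_add, inner_add_left]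
      | smul a y _ hy =>
        have := hy.const_mul (conj a)
        rw [mul_zero] at this
        refine this.congr fun n => ?_
        rw [J_smul, inner_smul_left]
    have hall : ∀ x : E, Tendsto (fun n => ⟪J (M n) (φ n) (ψ n) x, h⟫_ℂ) atTop (𝓝 0) := by
      intro x
      rw [Metric.tendsto_atTop]
      intro ε hε
      have hx : x ∈ closure (Submodule.span ℂ (Set.range e) : Set E) := hd (Submodule.mem_top)
      have hpos : 0 < ε / (2 * (‖h‖ + 1)) := by positivity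
      obtain ⟨y, hy, hxy⟩ := Metric.mem_closure_iff.mp hx _ hpos
      obtain ⟨N, hN⟩ := Metric.tendsto_atTop.mp (hspan y hy) (ε / 2) (by positivity)
      refine ⟨N, fun n hn => ?_⟩
      have h1 := hN n hn
      rw [dist_zero_right] at h1 ⊢
      rw [dist_eq_norm] at hxy
      have h2 : ‖⟪J (M n) (φ n) (ψ n) (x - y), h⟫_ℂ‖ ≤ ‖x - y‖ * (‖h‖ + 1) :=
        (norm_inner_le_norm _ _).trans (mul_le_mul (norm_J_le (hφ n) (hψ n) _) (by linarith)
          (norm_nonneg _) (norm_nonneg _))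
      have h3 : ‖x - y‖ * (‖h‖ + 1) ≤ ε / 2 := by
        calc _ ≤ ε / (2 * (‖h‖ + 1)) * (‖h‖ + 1) :=
              mul_le_mul_of_nonneg_right hxy.le (by positivity)
          _ = ε / 2 := by field_simp
      have h4 : ⟪J (M n) (φ n) (ψ n) x, h⟫_ℂ =
          ⟪J (M n) (φ n) (ψ n) (x - y), h⟫_ℂ + ⟪J (M n) (φ n) (ψ n) y, h⟫_ℂ := by
        rw [← inner_add_left, ← J_add, sub_add_cancel]
      rw [h4]
      calc _ ≤ _ := norm_add_le _ _
        _ < ε / 2 + ε / 2 := by linarith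
        _ = ε := by ring
    have htail : Tendsto (fun n => ∑' i, δ (i + n)) atTop (𝓝 0) := tendsto_sum_nat_add δ
    have hbound : ∀ n (c : V → ℂ), ‖⟪∑ m ∈ M n, c m • ψ n m, h⟫_ℂ‖ ≤
        2 * (∑' i, δ (i + n)) * ‖∑ m ∈ M n, c m • ψ n m‖ * ‖h‖ := by
      intro n c
      have h1 : Tendsto (fun k => ‖⟪J (M (k + n)) (φ (k + n)) (ψ (k + n))
          (∑ m ∈ M n, c m • φ n m), h⟫_ℂ‖ +
          2 * (∑' i, δ (i + n)) * ‖∑ m ∈ M n, c m • ψ n m‖ * ‖h‖) atTop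
          (𝓝 (0 + 2 * (∑' i, δ (i + n)) * ‖∑ m ∈ M n, c m • ψ n m‖ * ‖h‖)) := by
        refine Tendsto.add ?_ tendsto_const_nhds
        have := ((hall (∑ m ∈ M n, c m • φ n m)).comp (tendsto_add_atTop_nat n)).norm
        simpa [Function.comp_def] using this
      rw [zero_add] at h1
      refine ge_of_tendsto' h1 fun k => ?_
      have h2 := step (hφ (k + n)) (hψ (k + n)) (iter hδ hA n c k) c
      rw [← norm_sy (hψ n)] at h2
      have h3 : ∑ i ∈ range k, δ (i + n) ≤ ∑' i, δ (i + n) :=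
        ((summable_nat_add_iff n).mpr hs).sum_le_tsum _ fun i _ => hδ _
      have h4 : ⟪∑ m ∈ M n, c m • ψ n m, h⟫_ℂ =
          ⟪J (M (k + n)) (φ (k + n)) (ψ (k + n)) (∑ m ∈ M n, c m • φ n m), h⟫_ℂ -
          ⟪J (M (k + n)) (φ (k + n)) (ψ (k + n)) (∑ m ∈ M n, c m • φ n m) -
            ∑ m ∈ M n, c m • ψ n m, h⟫_ℂ := by
        rw [← inner_sub_left, sub_sub_cancel]
      rw [h4]
      refine (norm_sub_le _ _).trans (add_le_add le_rfl ?_)
      refine (norm_inner_le_norm _ _).trans (mul_le_mul_of_nonneg_right (h2.trans ?_)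
        (norm_nonneg _))
      exact mul_le_mul_of_nonneg_right (by linarith) (norm_nonneg _)
    have hfin : ∀ ε : ℝ, 0 < ε → ‖⟪f k, h⟫_ℂ‖ ≤ ε * ‖h‖ := by
      intro ε hε
      have h1 : Tendsto (fun n => ε * ‖h‖ + 2 * (∑' i, δ (i + n)) * (‖f k‖ + ε) * ‖h‖) atTop
          (𝓝 (ε * ‖h‖ + 2 * 0 * (‖f k‖ + ε) * ‖h‖)) :=
        tendsto_const_nhds.add (((htail.const_mul 2).mul_const _).mul_const _)
      simp only [mul_zero, zero_mul, add_zero] at h1
      refine ge_of_tendsto h1 ?_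
      filter_upwards [hf k hk ε hε] with n hn
      obtain ⟨c, hc⟩ := hn
      have h2 := hbound n c
      have h3 : ‖∑ m ∈ M n, c m • ψ n m‖ ≤ ‖f k‖ + ε := by
        have : ∑ m ∈ M n, c m • ψ n m = f k - (f k - ∑ m ∈ M n, c m • ψ n m) := by
          rw [sub_sub_cancel]
        rw [this]
        exact (norm_sub_le _ _).trans (by linarith)
      have h4 : ⟪f k, h⟫_ℂ = ⟪f k - ∑ m ∈ M n, c m • ψ n m, h⟫_ℂ +
          ⟪∑ m ∈ M n, c m • ψ n m, h⟫_ℂ := by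
        rw [← inner_add_left, sub_add_cancel]
      have h5 : 0 ≤ ∑' i, δ (i + n) := tsum_nonneg fun i => hδ _
      rw [h4]
      refine (norm_add_le _ _).trans (add_le_add ?_ (h2.trans ?_))
      · exact (norm_inner_le_norm _ _).trans (mul_le_mul_of_nonneg_right hc (norm_nonneg _))
      · exact mul_le_mul_of_nonneg_right (mul_le_mul_of_nonneg_left h3 (by positivity))
          (norm_nonneg _)
    rw [← norm_le_zero_iff]
    have h1 : Tendsto (fun ε : ℝ => ε * ‖h‖) (𝓝[>] 0) (𝓝 (0 * ‖h‖)) :=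
      (tendsto_id.mul_const _).mono_left nhdsWithin_le_nhds
    rw [zero_mul] at h1
    refine ge_of_tendsto h1 ?_
    filter_upwards [self_mem_nhdsWithin] with ε hε using hfin ε hε

end Crest.Agent.R81
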