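import Crest.Agent.R81.Defs
import Crest.Agent.R81.A2H

/-! Row 81, task APX: old eigenfunctions are approximated by their children. -/

set_option autoImplicit false

open Finset MeasureTheory Filter Topology
open scoped ContDiff ComplexConjugate InnerProductSpace Classical
open Crest.AnalysisR.Torus3
open Crest.Agent.R75 (ee)

namespace Crest.Agent.R81

namespace APX

theorem on_E (hB : BasStmt) {s : St} (hs : IsTL s.G s.Gi) : Orthonormal ℂ s.E := by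
  rw [orthonormal_iff_ite]
  intro c c'
  unfold St.E
  rw [TLA.kp_inner hs.mi, orthonormal_iff_ite.1 hB.1]

theorem norm_sq_sum {E : Type} [NormedAddCommGroup E] [InnerProductSpace ℂ E] {y : V → E}
    (hy : Orthonormal ℂ y) (K : Finset V) (c : V → ℂ) :
    ‖∑ k ∈ K, c k • y k‖ ^ 2 = ∑ k ∈ K, ‖c k‖ ^ 2 := by
  have h2 := hy.inner_sum c c K
  rw [inner_self_eq_norm_sq_to_K] at h2
  have h3 : ((‖∑ k ∈ K, c k • y k‖ ^ 2 : ℝ) : ℂ) = ((∑ k ∈ K, ‖c k‖ ^ 2 : ℝ) : ℂ) := by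
    push_cast
    refine h2.trans (sum_congr rfl fun k _ => ?_)
    exact Complex.conj_mul' _
  exact_mod_cast h3

theorem norm_sq_proj {E : Type} [NormedAddCommGroup E] [InnerProductSpace ℂ E] {y : V → E}
    (hy : Orthonormal ℂ y) (K : Finset V) (x : E) :
    ‖x - ∑ k ∈ K, ⟪y k, x⟫_ℂ • y k‖ ^ 2 = ‖x‖ ^ 2 - ∑ k ∈ K, ‖⟪y k, x⟫_ℂ‖ ^ 2 := by
  rw [@norm_sub_sq ℂ, ← inner_conj_symm, sum_inner, norm_sq_sum hy]
  have h1 : ∑ k ∈ K, ⟪⟪y k, x⟫_ℂ • y k, x⟫_ℂ = ((∑ k ∈ K, ‖⟪y k, x⟫_ℂ‖ ^ 2 : ℝ) : ℂ) := by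
    push_cast
    refine sum_congr rfl fun k _ => ?_
    rw [inner_smul_left]
    exact Complex.conj_mul' _
  rw [h1, Complex.conj_ofReal, RCLike.re_to_complex, Complex.ofReal_re]
  ring

theorem core (hB : BasStmt) (hI : InnStmt) (hO : OrtStmt) {n : ℕ} {s s' : St} {L Γ I : ℕ}
    (hs : Good n s) (hs' : Good (n + 1) s') (tr : Trans n s s' L Γ I) (X Y : Finset V)
    (hX : X ⊆ s.M ∪ s.P ∪ s.B) (hY : ∀ m ∈ X, kids s.𝓘 I L m ⊆ Y) :
    Appr ((1 / 2 : ℝ) ^ n) (s.sp ↑X) (s'.sp ↑Y) := by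
  obtain ⟨hg, i1, i2, -⟩ := hI L Γ s.U s.v tr.Lpos hs.prf.sU hs.prf.sv
  have hE := A2H.inner_E (s' := s') hs.tl hg tr.hGi
  have o1 := on_E hB hs.tl
  have o2 := on_E hB hs'.tl
  have hκ := A2H.kap_pos n
  intro y hy
  obtain ⟨c, rfl⟩ := (Submodule.mem_span_image_finset_iff_exists_fun' ℂ).1 hy
  have key := (hO HH X Y s.E s'.E (kids s.𝓘 I L) (fun m k => ⟪s'.E k, s.E m⟫_ℂ) ((1 / 2 : ℝ) ^ n)
    (by positivity) (o1.comp _ Subtype.val_injective) (o2.comp _ Subtype.val_injective) hY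
    ?_ ?_ ?_ c).1
  · refine ⟨_, ?_, key.trans_eq ?_⟩
    · exact sum_mem fun k hk => Submodule.smul_mem _ _ (Submodule.subset_span ⟨k, hk, rfl⟩)
    · rw [← norm_sq_sum o1, Real.sqrt_sq (norm_nonneg _)]
  · intro m hm m' hm' hne
    rw [disjoint_left]
    intro k hk hk'
    obtain ⟨i, -, rfl⟩ := mem_image.1 hk
    obtain ⟨i', -, h⟩ := mem_image.1 hk'
    exact hne (tr.inj m (hX hm) m' (hX hm') _ _ h.symm)
  · intro m hm m' hm' hne k hk
    obtain ⟨i, -, rfl⟩ := mem_image.1 hk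
    rw [hE]
    exact i2 m' _ fun j' h => hne (tr.inj m (hX hm) m' (hX hm') _ j' h)
  · intro m hm
    refine abs_le_of_sq_le_sq' ?_ (by positivity) |>.2
    have h5 : ((1 / 2 : ℝ) ^ n) ^ 2 = 16 * kap n := by
      unfold kap
      rw [← pow_mul, mul_comm n 2, pow_mul]
      norm_num
      ring
    have hinj := A2H.line_inj L m (tr.ne m (hX hm))
    have hsum : ∑ k ∈ kids s.𝓘 I L m, ‖⟪s'.E k, s.E m⟫_ℂ‖ ^ 2 =
        ∑ i ∈ idx s.𝓘 I m.1, ‖coef L Γ s.U s.v m (m.1 * i)‖ ^ 2 := by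
      unfold kids
      rw [sum_image fun i _ j _ h => hinj h]
      simp only [hE, i1]
    rw [norm_sq_proj o2, hsum, o1.1 m, h5]
    have := tr.c2 m (hX hm)
    nlinarith [sq_nonneg (kap n)]

end APX

theorem APX_proof (_hT : TlaStmt) (hB : BasStmt) (hI : InnStmt) (hO : OrtStmt) : ApxStmt := by
  intro n s s' L Γ I hs hs' tr
  refine ⟨APX.core hB hI hO hs hs' tr _ _ subset_rfl fun m hm => ?_,
    APX.core hB hI hO hs hs' tr _ _ subset_union_left tr.kM⟩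
  rcases mem_union.1 hm with h | h
  · exact (tr.kM m h).trans subset_union_left
  · exact (tr.kB m h).trans subset_union_right

end Crest.Agent.R81
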