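import Crest.Agent.R81.Defs

set_option autoImplicit false

open Finset MeasureTheory Filter Topology
open scoped ContDiff ComplexConjugate InnerProductSpace Classical
open Crest.AnalysisR.Torus3
open Crest.Agent.R75 (ee)

namespace Crest.Agent.R81

namespace BAS

lemma vol_eq : (volume : Measure UnitAddCircle) = AddCircle.haarAddCircle := by
  rw [AddCircle.volume_eq_smul_haarAddCircle]; simp

instance : IsProbabilityMeasure (volume : Measure UnitAddCircle) := by
  rw [vol_eq]; infer_instance

def tv (m : V) : Fin 3 → ℤ := ![m.1, m.2.1, m.2.2]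

lemma tv_inj : Function.Injective tv := by
  intro m n h
  have h0 := congrFun h 0
  have h1 := congrFun h 1
  have h2 := congrFun h 2
  simp only [tv, Matrix.cons_val_zero, Matrix.cons_val_one, Matrix.cons_val] at h0 h1 h2
  exact Prod.ext h0 (Prod.ext h1 h2)

lemma tv_surj : Function.Surjective tv := by
  intro k
  refine ⟨(k 0, k 1, k 2), ?_⟩
  funext i
  fin_cases i <;> rfl

lemma tv_zero : tv 0 = 0 := by
  funext i
  fin_cases i <;> rfl

lemma em_eq (m : V) : em m = UnitAddTorus.mFourier (tv m) := rfl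

lemma int_fourier (k : ℤ) (hk : k ≠ 0) : ∫ t : UnitAddCircle, fourier k t = 0 := by
  rw [vol_eq]
  have := (orthonormal_iff_ite.mp <| @orthonormal_fourier 1 ⟨one_pos⟩) 0 k
  rw [if_neg (Ne.symm hk)] at this
  simpa only [ContinuousMap.inner_toLp, ← fourier_neg, ← fourier_add, neg_zero, add_zero]
    using! this

lemma int_mF (k : Fin 3 → ℤ) :
    ∫ q : T3, UnitAddTorus.mFourier k q = if k = 0 then 1 else 0 := by
  split_ifs with h
  · rw [h, UnitAddTorus.mFourier_zero]; simp
  · rw [UnitAddTorus.mFourier, ContinuousMap.coe_mk,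
      MeasureTheory.integral_fintype_prod_volume_eq_prod]
    obtain ⟨i, hi⟩ := Function.ne_iff.mp h
    exact Finset.prod_eq_zero (Finset.mem_univ i) (int_fourier _ hi)

lemma int_em (m : V) : ∫ q : T3, em m q = if m = 0 then 1 else 0 := by
  rw [em_eq, int_mF]
  by_cases h : m = 0
  · simp [h, tv_zero]
  · have : tv m ≠ 0 := fun h' => h (tv_inj (h'.trans tv_zero.symm))
    simp [h, this]

lemma orth : Orthonormal ℂ eL := by
  rw [orthonormal_iff_ite]
  intro m n
  simp only [eL, ContinuousMap.inner_toLp, em_eq, ← UnitAddTorus.mFourier_neg,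
    ← UnitAddTorus.mFourier_add]
  rw [int_mF]
  by_cases h : m = n
  · simp [h]
  · have : tv n + -tv m ≠ 0 := by
      intro h'
      apply h
      apply tv_inj
      rw [← sub_eq_add_neg, sub_eq_zero] at h'
      exact h'.symm
    simp [h, this]

lemma range_em : Set.range em = Set.range (UnitAddTorus.mFourier (d := Fin 3)) := by
  have : em = UnitAddTorus.mFourier ∘ tv := rfl
  rw [this, tv_surj.range_comp]

lemma dense_em : (Submodule.span ℂ (Set.range em)).topologicalClosure = ⊤ := by
  rw [range_em]; exact UnitAddTorus.span_mFourier_closure_eq_top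

lemma dense_eL : (Submodule.span ℂ (Set.range eL)).topologicalClosure = ⊤ := by
  have := (ContinuousMap.toLp_denseRange ℂ (volume : Measure T3) ℂ
    (p := 2) (by simp)).topologicalClosure_map_submodule dense_em
  simpa only [Submodule.map_span, ContinuousLinearMap.coe_coe, ← Set.range_comp,
    Function.comp_def] using! this

noncomputable def basis : HilbertBasis V ℂ HH := HilbertBasis.mk orth dense_eL.ge

lemma basis_apply (m : V) : basis m = eL m := by
  simp [basis]

lemma hasSum_eL (x : HH) : HasSum (fun m => ⟪eL m, x⟫_ℂ • eL m) x := by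
  have := basis.hasSum_repr x
  simpa only [HilbertBasis.repr_apply_apply, basis_apply] using this

lemma em_proj (m : V) (p : R3) :
    em m (proj p) = ee (m.1 * p 0 + m.2.1 * p 1 + m.2.2 * p 2) := by
  simp only [em, UnitAddTorus.mFourier, ContinuousMap.coe_mk, Fin.prod_univ_three, proj,
    fourier_coe_apply, ee, ← Complex.exp_add]
  congr 1
  simp
  ring

lemma int_ext (μ ν : Measure T3) [IsFiniteMeasure μ] [IsFiniteMeasure ν]
    (h : ∀ m, ∫ q, em m q ∂μ = ∫ q, em m q ∂ν) : μ = ν := by
  have key : ∀ g : C(T3, ℂ), ∫ q, g q ∂μ = ∫ q, g q ∂ν := by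
    let A : (ρ : Measure T3) → [IsFiniteMeasure ρ] → C(T3, ℂ) →L[ℂ] ℂ := fun ρ _ =>
      (innerSL ℂ (ContinuousMap.toLp 2 ρ ℂ (1 : C(T3, ℂ)))).comp (ContinuousMap.toLp 2 ρ ℂ)
    have hA : ∀ (ρ : Measure T3) [IsFiniteMeasure ρ] (g : C(T3, ℂ)), A ρ g = ∫ q, g q ∂ρ := by
      intro ρ _ g
      simp [A, ContinuousMap.inner_toLp]
    have hd : Dense ((Submodule.span ℂ (Set.range em) : Submodule ℂ C(T3, ℂ)) : Set C(T3, ℂ)) :=
      Submodule.dense_iff_topologicalClosure_eq_top.mpr dense_em
    have : A μ = A ν := by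
      refine ContinuousLinearMap.ext_on hd ?_
      rintro _ ⟨m, rfl⟩
      rw [hA, hA, h]
    intro g
    rw [← hA, ← hA, this]
  apply ext_of_forall_integral_eq_of_IsFiniteMeasure
  intro f
  have := key ⟨fun q => (f q : ℂ), by fun_prop⟩
  simp only [ContinuousMap.coe_mk, integral_complex_ofReal] at this
  exact_mod_cast this

lemma mp (f : T3 → T3) (hf : Continuous f)
    (h : ∀ m : V, ∫ q, em m (f q) = if m = 0 then 1 else 0) :
    MeasurePreserving f volume volume := by
  refine ⟨hf.measurable, ?_⟩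
  apply int_ext
  intro m
  rw [integral_map hf.measurable.aemeasurable (em m).continuous.aestronglyMeasurable, h, int_em]

end BAS

theorem BAS_proof : BasStmt := by
  refine ⟨BAS.orth, ?_, BAS.em_proj, BAS.mp, ?_⟩
  · intro x hx
    have := BAS.hasSum_eL x
    simp only [hx, zero_smul] at this
    exact this.unique hasSum_zero
  · intro x ε hε
    have h := BAS.hasSum_eL x
    have h2 : ∀ᶠ S : Finset V in atTop, dist (∑ m ∈ S, ⟪eL m, x⟫_ℂ • eL m) x < ε :=
      (Metric.tendsto_nhds.mp h) ε hε
    obtain ⟨S, hS⟩ := h2.exists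
    refine ⟨S.filter (fun m => ⟪eL m, x⟫_ℂ ≠ 0), fun m hm => (Finset.mem_filter.mp hm).2, ?_⟩
    have e : ∑ m ∈ S.filter (fun m => ⟪eL m, x⟫_ℂ ≠ 0), ⟪eL m, x⟫_ℂ • eL m
        = ∑ m ∈ S, ⟪eL m, x⟫_ℂ • eL m := by
      apply Finset.sum_filter_of_ne
      intro m _ hm h0
      exact hm (by rw [h0, zero_smul])
    rw [e]
    rw [dist_comm, dist_eq_norm] at hS
    exact hS.le

end Crest.Agent.R81
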