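import Crest.Agent.R81.Defs

/-! Row 81, task CHAIN. -/

set_option autoImplicit false

open Finset MeasureTheory Filter Topology
open scoped ContDiff ComplexConjugate InnerProductSpace Classical
open Crest.AnalysisR.Torus3
open Crest.Agent.R75 (ee)

namespace Crest.Agent.R81

namespace CHAIN

theorem stp {f : HH} (hf : ‖f‖ = 1) {c : ℝ} (hc : c ≤ 1) {n : ℕ} {s s' : St} {Y₀ Y Y' : Set V}
    (h : Appr ((1 / 2 : ℝ) ^ n) (s.sp Y) (s'.sp Y'))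
    (hq : ∃ y ∈ s.sp Y₀, ‖f - y‖ ≤ c - 4 * (1 / 2 : ℝ) ^ n) (hY : Y₀ ⊆ Y) :
    ∃ y ∈ s'.sp Y', ‖f - y‖ ≤ c - 4 * (1 / 2 : ℝ) ^ (n + 1) := by
  obtain ⟨y, hy, he⟩ := hq
  obtain ⟨y', hy', he'⟩ := h y (Submodule.span_mono (Set.image_mono hY) hy)
  refine ⟨y', hy', ?_⟩
  have hδ : (0 : ℝ) < (1 / 2 : ℝ) ^ n := by positivity
  have h1 : ‖y‖ ≤ 2 := by
    have : ‖y‖ ≤ ‖f‖ + ‖f - y‖ := by
      have := norm_sub_le f (f - y)
      rwa [sub_sub_cancel] at this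
    linarith
  have h2 : ‖f - y'‖ ≤ ‖f - y‖ + ‖y - y'‖ := norm_sub_le_norm_sub_add_norm_sub _ _ _
  have h3 : (1 / 2 : ℝ) ^ n * ‖y‖ ≤ (1 / 2 : ℝ) ^ n * 2 := mul_le_mul_of_nonneg_left h1 hδ.le
  rw [pow_succ]
  linarith

end CHAIN

open CHAIN

theorem CHAIN_proof (_hT : TlaStmt) (hB : BasStmt) : ChainStmt := by
  intro s hG hS k hk ε hε
  have hf : ‖eL k‖ = 1 := hB.1.1 k
  have hlim : Tendsto (fun n : ℕ => (1 / 2 : ℝ) ^ n) atTop (𝓝 0) :=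
    tendsto_pow_atTop_nhds_zero_of_lt_one (by norm_num) (by norm_num)
  have hm : 0 < min ε 1 / 5 := by positivity
  obtain ⟨l, hl1, hl2⟩ := ((hlim.eventually (ge_mem_nhds hm)).and
    (eventually_ge_atTop (k.1.natAbs + k.2.1.natAbs + k.2.2.natAbs))).exists
  have hc : 5 * (1 / 2 : ℝ) ^ l ≤ 1 := by linarith [min_le_right ε 1]
  have hcε : 5 * (1 / 2 : ℝ) ^ l ≤ ε := by linarith [min_le_left ε 1]
  obtain ⟨S0, hS0, a0, t0⟩ := (hS l).trk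
  obtain ⟨S1, -, -, t1⟩ := (hS (l + 1)).trk
  obtain ⟨S2, -, -, t2⟩ := (hS (l + 1 + 1)).trk
  have q0 : ∃ y ∈ (s l).sp ↑S0, ‖eL k - y‖ ≤ 5 * (1 / 2 : ℝ) ^ l - 4 * (1 / 2 : ℝ) ^ l := by
    obtain ⟨y, hy, he⟩ := a0 k hk (by rw [Int.abs_eq_natAbs]; omega)
      (by rw [Int.abs_eq_natAbs]; omega) (by rw [Int.abs_eq_natAbs]; omega)
    exact ⟨y, hy, by linarith⟩
  have q1 := stp hf hc (t0 0 (by norm_num)) q0
    (fun m hm => ⟨mem_union_right _ hm, fun h => hS0 (h ▸ hm)⟩)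
  have q2 := stp hf hc (t1 1 (by norm_num)) q1 (fun m hm => ⟨mem_union_left _ hm.1, hm.2⟩)
  have q3 := stp hf hc (t2 2 (by norm_num)) q2 (fun m hm => ⟨mem_union_left _ hm.1, hm.2⟩)
  have q4 := stp hf hc (hS (l + 1 + 1 + 1)).apX q3 (fun m hm => (hS (l + 1 + 1)).w3 m hm.1 hm.2)
  have q5 := stp hf hc (hS (l + 1 + 1 + 1 + 1)).apM q4 (fun m hm => hm)
  have q : ∀ n, l + 1 + 1 + 1 + 1 + 1 ≤ n →
      ∃ y ∈ (s n).sp ↑(s n).M, ‖eL k - y‖ ≤ 5 * (1 / 2 : ℝ) ^ l - 4 * (1 / 2 : ℝ) ^ n := by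
    intro n hn
    induction n, hn using Nat.le_induction with
    | base => exact q5
    | succ n _ ih =>
      exact stp hf hc (hS n).apM ih (fun m hm => mem_coe.2 (mem_union_left _ (mem_coe.1 hm)))
  filter_upwards [eventually_ge_atTop (l + 1 + 1 + 1 + 1 + 1)] with n hn
  obtain ⟨y, hy, he⟩ := q n hn
  rw [St.sp, Submodule.mem_span_image_finset_iff_exists_fun'] at hy
  obtain ⟨c, rfl⟩ := hy
  refine ⟨fun m => c m / (s n).ph m, ?_⟩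
  have e : ∑ m ∈ (s n).M, (c m / (s n).ph m) • (s n).psi m = ∑ m ∈ (s n).M, c m • (s n).E m := by
    refine sum_congr rfl fun m _ => ?_
    have h0 : (s n).ph m ≠ 0 := by
      intro h
      have := (hG n).ph1 m
      rw [h, norm_zero] at this
      exact zero_ne_one this
    rw [St.psi, smul_smul, div_mul_cancel₀ _ h0]
  rw [e]
  have hδ : (0 : ℝ) < (1 / 2 : ℝ) ^ n := by positivity
  linarith

end Crest.Agent.R81
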