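import Crest.Agent.R81.Defs

/-! Row 81: flatness of the chirp coefficients. -/

set_option autoImplicit false

open Finset MeasureTheory Filter Topology
open scoped ContDiff ComplexConjugate InnerProductSpace Classical
open Crest.AnalysisR.Torus3
open Crest.Agent.R75 (ee)

namespace Crest.Agent.R81

namespace CHIRP

theorem core (S : Finset ℤ) (c g : ℤ → ℝ) (m e x : ℝ) (he : 0 ≤ e) (hx : 0 < x)
    (hc : ∀ i ∈ S, m - g i ≤ c i) (hg : ∑ i ∈ S, g i ^ 2 ≤ e ^ 2)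
    (hm : x + e ≤ Real.sqrt S.card * m) :
    Real.sqrt S.card * x ≤ ∑ i ∈ S, c i ∧ x ^ 2 ≤ ∑ i ∈ S, c i ^ 2 := by
  set r := Real.sqrt S.card with hr
  have r0 : 0 ≤ r := Real.sqrt_nonneg _
  have rr : r ^ 2 = S.card := Real.sq_sqrt (Nat.cast_nonneg _)
  have rpos : 0 < r := by
    rcases r0.eq_or_lt with h | h
    · rw [← h, zero_mul] at hm; linarith
    · exact h
  have h1 : ∑ i ∈ S, g i ≤ r * e := by
    refine le_of_sq_le_sq' ?_ (mul_nonneg r0 he)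
    calc (∑ i ∈ S, g i) ^ 2 ≤ S.card * ∑ i ∈ S, g i ^ 2 := sq_sum_le_card_mul_sum_sq
      _ ≤ S.card * e ^ 2 := mul_le_mul_of_nonneg_left hg (Nat.cast_nonneg _)
      _ = (r * e) ^ 2 := by rw [mul_pow, rr]
  have h2 : ∑ i ∈ S, (m - g i) ≤ ∑ i ∈ S, c i := sum_le_sum hc
  rw [sum_sub_distrib, sum_const, nsmul_eq_mul, ← rr] at h2
  have h3 : r * x ≤ ∑ i ∈ S, c i := by
    have := mul_le_mul_of_nonneg_left hm r0
    nlinarith
  refine ⟨h3, ?_⟩
  have h4 : (∑ i ∈ S, c i) ^ 2 ≤ S.card * ∑ i ∈ S, c i ^ 2 := sq_sum_le_card_mul_sum_sq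
  have h5 : (r * x) ^ 2 ≤ (∑ i ∈ S, c i) ^ 2 := pow_le_pow_left₀ (by positivity) h3 2
  rw [← rr] at h4
  rw [mul_pow] at h5
  exact le_of_mul_le_mul_left (h5.trans h4) (by positivity)
where
  le_of_sq_le_sq' {a b : ℝ} (h : a ^ 2 ≤ b ^ 2) (hb : 0 ≤ b) : a ≤ b :=
    (abs_le_of_sq_le_sq' h hb).2

end CHIRP

open CHIRP

set_option maxHeartbeats 1600000 in
theorem CHIRP_proof (hF : FresStmt) (hD : DecStmt) : ChirpStmt := by
  intro A 𝓑 κ Q N₀ w 𝓘 U v hκ hκ1 hJ hP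
  set η := κ ^ 2 with hη
  have η0 : 0 < η := by positivity
  have ηκ : η ≤ κ / 10 := by rw [hη]; nlinarith
  have η1 : η ≤ 1 / 100 := by linarith
  obtain ⟨β₀, hβ₀, hfr⟩ := hF η η0 (by linarith)
  have Q0 : (0 : ℝ) < Q := by exact_mod_cast hJ.Qpos
  refine ⟨2 * Q * β₀ + 3 * N₀, fun Γ I a lm hΓ hI1 hI2 ha haA hlm => ?_⟩
  have N0 : (0 : ℝ) ≤ N₀ := Nat.cast_nonneg _
  have hQβ : 0 < Q * β₀ := by positivity
  have Γ0 : 0 < Γ := by linarith
  have hNI : N₀ ≤ I := by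
    have : (N₀ : ℝ) ≤ I := by nlinarith
    exact_mod_cast this
  obtain ⟨d, d0, hd1, hKs⟩ := hJ.j3 a ha haA
  obtain ⟨Ks, hK1, hK2⟩ := hKs I hNI
  obtain ⟨gap, hgap, hcf⟩ := hD Q w η U v hJ.Qpos η0 (by linarith) hP lm a Γ
  have d0' : (0 : ℝ) < d := by exact_mod_cast d0
  have a1 : (1 : ℝ) ≤ |(a : ℝ)| := by exact_mod_cast Int.one_le_abs ha
  have l1 : |(a : ℝ)| * (1 - η) ≤ |lm| := by
    have := abs_sub_abs_le_abs_sub (a : ℝ) lm
    rw [abs_sub_comm] at this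
    nlinarith
  have l2 : |lm| ≤ |(a : ℝ)| * (1 + η) := by
    have := abs_sub_abs_le_abs_sub lm (a : ℝ)
    nlinarith
  have hβ : |lm * Γ / Q| = |lm| * Γ / Q := by
    rw [abs_div, abs_mul, abs_of_pos Γ0, abs_of_pos Q0]
  have l0 : 1 / 2 ≤ |lm| := by nlinarith
  have hβ1 : β₀ ≤ |lm * Γ / Q| := by
    rw [hβ, le_div_iff₀ Q0]; nlinarith
  have hβpos : 0 < |lm * Γ / Q| := lt_of_lt_of_le hβ₀ hβ1
  set m := (1 - 2 * η) * Real.sqrt (d / Γ) with hm
  have hmain : ∀ i ∈ Ks, m - ‖gap (a * i)‖ ≤ ‖cf lm a Γ U v (a * i)‖ := by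
    intro i hi
    obtain ⟨hi1, -, hi3⟩ := hK1 i hi
    have hi1' : |(i : ℝ)| ≤ I := by exact_mod_cast hi1
    have ht : |((a * i : ℤ) : ℝ) / Q| ≤ (1 / 2 - 2 * η) * |lm * Γ / Q| := by
      rw [hβ, abs_div, abs_of_pos Q0, ← mul_div_assoc, div_le_div_iff_of_pos_right Q0]
      push_cast
      rw [abs_mul]
      calc |(a : ℝ)| * |(i : ℝ)| ≤ |(a : ℝ)| * ((1 / 2 - 3 * η) * Γ) :=
            mul_le_mul_of_nonneg_left (hi1'.trans hI2) (abs_nonneg _)
        _ ≤ |(a : ℝ)| * (((1 / 2 - 2 * η) * (1 - η)) * Γ) := by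
            refine mul_le_mul_of_nonneg_left (mul_le_mul_of_nonneg_right ?_ Γ0.le) (abs_nonneg _)
            nlinarith
        _ = (1 / 2 - 2 * η) * ((|(a : ℝ)| * (1 - η)) * Γ) := by ring
        _ ≤ (1 / 2 - 2 * η) * (|lm| * Γ) :=
            mul_le_mul_of_nonneg_left (mul_le_mul_of_nonneg_right l1 Γ0.le) (by linarith)
    have h1 := hfr _ _ hβ1 ht
    rw [hcf]
    generalize (∫ s in η..(1 - η),
      ee (lm * Γ / Q * (s - 1 / 2) ^ 2 / 2 - ((a * i : ℤ) : ℝ) / Q * s)) = J at h1 ⊢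
    have h2 : ((1 - η) / Real.sqrt |lm * Γ / Q|) ^ 2 ≤ ‖J‖ ^ 2 :=
      pow_le_pow_left₀ (div_nonneg (by linarith) (Real.sqrt_nonneg _)) h1 2
    rw [div_pow, Real.sq_sqrt hβpos.le] at h2
    have h3 : m ^ 2 ≤ (‖dft Q w a (a * i)‖ * ‖J‖) ^ 2 := by
      rw [hm, mul_pow, mul_pow, Real.sq_sqrt (by positivity)]
      refine le_trans ?_ (mul_le_mul hi3 h2 (by positivity) (sq_nonneg _))
      have h4 : (1 - η) ^ 2 / (|(a : ℝ)| * (1 + η) * Γ / Q) ≤ (1 - η) ^ 2 / |lm * Γ / Q| := by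
        refine div_le_div_of_nonneg_left (sq_nonneg _) hβpos ?_
        rw [hβ]; gcongr
      refine le_trans ?_ (mul_le_mul_of_nonneg_left h4 ?_)
      · have e : (1 - η) * |(a : ℝ)| * d / Q * ((1 - η) ^ 2 / (|(a : ℝ)| * (1 + η) * Γ / Q)) =
            (1 - η) ^ 3 / (1 + η) * (d / Γ) := by
          field_simp
        rw [e]
        refine mul_le_mul_of_nonneg_right ?_ (by positivity)
        rw [le_div_iff₀ (by linarith)]
        nlinarith [mul_nonneg η0.le η0.le, mul_nonneg (mul_nonneg η0.le η0.le) η0.le]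
      · have : 0 ≤ 1 - η := by linarith
        positivity
    have h5 : m ≤ ‖dft Q w a (a * i) * J‖ := by
      rw [norm_mul]; exact (abs_le_of_sq_le_sq' h3 (by positivity)).2
    have h6 := norm_sub_le (dft Q w a (a * i) * J + gap (a * i)) (gap (a * i))
    rw [add_sub_cancel_right] at h6
    linarith
  have hg : ∑ i ∈ Ks, ‖gap (a * i)‖ ^ 2 ≤ (3 / 2 * κ) ^ 2 := by
    have := hgap (Ks.image fun i => a * i)
    rw [sum_image fun x _ y _ h => mul_left_cancel₀ ha h] at this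
    nlinarith
  have hn : (1 - 5 * η) ^ 2 * (Γ / d) ≤ Ks.card := by
    refine le_trans ?_ hK2
    rw [← mul_div_assoc, div_le_div_iff_of_pos_right d0']
    have : (1 - 5 * η) ^ 2 ≤ (1 - η) * (1 - 8 * η) := by nlinarith
    calc (1 - 5 * η) ^ 2 * Γ ≤ (1 - η) * (1 - 8 * η) * Γ := mul_le_mul_of_nonneg_right this Γ0.le
      _ = (1 - η) * (2 * ((1 / 2 - 4 * η) * Γ)) := by ring
      _ ≤ (1 - η) * (2 * I) := mul_le_mul_of_nonneg_left (by linarith) (by linarith)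
  have hr : (1 - 5 * η) * Real.sqrt (Γ / d) ≤ Real.sqrt Ks.card := by
    refine Real.le_sqrt_of_sq_le ?_
    rw [mul_pow, Real.sq_sqrt (by positivity)]; exact hn
  have hs : Real.sqrt (Γ / d) * Real.sqrt (d / Γ) = 1 := by
    rw [← Real.sqrt_mul (by positivity)]
    have : Γ / d * (d / Γ) = 1 := by field_simp
    rw [this, Real.sqrt_one]
  have hm0 : 0 ≤ m := mul_nonneg (by linarith) (Real.sqrt_nonneg _)
  have hrm : (1 - 7 * η - 3 / 2 * κ) + 3 / 2 * κ ≤ Real.sqrt Ks.card * m := by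
    refine le_trans ?_ (mul_le_mul_of_nonneg_right hr hm0)
    have : (1 - 5 * η) * Real.sqrt (Γ / d) * m = (1 - 5 * η) * (1 - 2 * η) := by
      rw [hm]
      calc _ = (1 - 5 * η) * (1 - 2 * η) * (Real.sqrt (Γ / d) * Real.sqrt (d / Γ)) := by ring
        _ = _ := by rw [hs, mul_one]
    rw [this]; nlinarith
  obtain ⟨c1, c2⟩ := core Ks (fun i => ‖cf lm a Γ U v (a * i)‖) (fun i => ‖gap (a * i)‖) m
    (3 / 2 * κ) (1 - 7 * η - 3 / 2 * κ) (by positivity) (by linarith) hmain hg hrm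
  have hsub : Ks ⊆ idx 𝓘 I a := fun i hi => by
    obtain ⟨h1, h2, -⟩ := hK1 i hi
    exact mem_filter.mpr ⟨mem_Icc.mpr (abs_le.mp h1), h2⟩
  constructor
  · refine le_trans ?_ (c2.trans (sum_le_sum_of_subset_of_nonneg hsub fun _ _ _ => sq_nonneg _))
    exact pow_le_pow_left₀ (by linarith) (by linarith) 2
  · intro hb
    refine le_trans ?_ (c1.trans (sum_le_sum_of_subset_of_nonneg hsub fun _ _ _ => norm_nonneg _))
    rw [hd1 hb, Nat.cast_one, div_one] at hr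
    refine le_trans ?_ (mul_le_mul_of_nonneg_right hr (by linarith))
    have h1 : 1 - 3 * κ ≤ (1 - 5 * η) * (1 - 7 * η - 3 / 2 * κ) := by nlinarith
    calc (1 - 3 * κ) * Real.sqrt Γ ≤ (1 - 5 * η) * (1 - 7 * η - 3 / 2 * κ) * Real.sqrt Γ :=
          mul_le_mul_of_nonneg_right h1 (Real.sqrt_nonneg _)
      _ = _ := by ring

end Crest.Agent.R81
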