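import Crest.Agent.R81.Defs

/-! # Row 81: children bands lie in the refined parent band -/

set_option autoImplicit false

open Finset
open scoped Classical

namespace Crest.Agent.R81
namespace CM1

lemma mem_cells {τ N : ℕ} {m : V} {x : ℤ} :
    x ∈ cells τ N m ↔ ∃ u : ℤ, min 0 m.2.2 ≤ u ∧ u < max 0 m.2.2 ∧ (pos N m + u) % τ = x := by
  unfold cells
  simp only [mem_image, mem_Ico]
  constructor
  · rintro ⟨k, ⟨h1, h2⟩, rfl⟩
    refine ⟨k - pos N m, ?_, ?_, by congr 1; ring⟩
    · rcases le_total 0 m.2.2 with h | h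
      · rw [min_eq_left (by linarith)] at h1; rw [min_eq_left h]; linarith
      · rw [min_eq_right (by linarith)] at h1; rw [min_eq_right h]; linarith
    · rcases le_total 0 m.2.2 with h | h
      · rw [max_eq_right (by linarith)] at h2; rw [max_eq_right h]; linarith
      · rw [max_eq_left (by linarith)] at h2; rw [max_eq_left h]; linarith
  · rintro ⟨u, h1, h2, rfl⟩
    refine ⟨pos N m + u, ⟨?_, ?_⟩, rfl⟩
    · rcases le_total 0 m.2.2 with h | h
      · rw [min_eq_left (by linarith)]; rw [min_eq_left h] at h1; linarith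
      · rw [min_eq_right (by linarith)]; rw [min_eq_right h] at h1; linarith
    · rcases le_total 0 m.2.2 with h | h
      · rw [max_eq_right (by linarith)]; rw [max_eq_right h] at h2; linarith
      · rw [max_eq_left (by linarith)]; rw [max_eq_left h] at h2; linarith

set_option maxHeartbeats 1600000 in
/-- The offsets, positive case. -/
lemma off_pos {D Lp L c Γ I a y z i : ℤ} (hD : 8 ≤ D) (hLp : 2 * D ≤ Lp) (hL : 0 < L)
    (hΓ : Γ = 2 * L * c) (hI0 : 0 ≤ I) (hI : 2 * D * I + 6 * Γ ≤ D * Γ) (h4 : 4 * D ≤ Γ) (hz : 0 < z)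
    (ha : D * |a - Lp * z| ≤ Lp) (hy : D * |y| ≤ L) (hi : |i| ≤ I) :
    0 < a ∧ 0 ≤ c * (y + L * a) + z + a * i ∧ c * (y + L * a) + z + a * i + a ≤ Γ * Lp * z := by
  have hc : 0 < c := by
    by_contra h
    have : 2 * L * c ≤ 0 := by nlinarith
    linarith
  have ha1 : D * (a - Lp * z) ≤ Lp := le_trans (by nlinarith [le_abs_self (a - Lp * z)]) ha
  have ha2 : D * (Lp * z - a) ≤ Lp := le_trans (by nlinarith [neg_abs_le (a - Lp * z)]) ha
  have hy1 : D * y ≤ L := le_trans (by nlinarith [le_abs_self y]) hy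
  have hy2 : -L ≤ D * y := by nlinarith [neg_abs_le y]
  have hi1 : i ≤ I := le_trans (le_abs_self i) hi
  have hi2 : -I ≤ i := by linarith [neg_abs_le i]
  have hLz : Lp ≤ Lp * z := by nlinarith
  have ha0 : 0 < a := by
    by_contra h
    have : D * (Lp * z - a) ≥ D * Lp := by nlinarith
    nlinarith
  have hD0 : 0 < D := by linarith
  have hΓ0 : 0 < Γ := by linarith
  -- `2 D c y` is between `-Γ` and `Γ`
  have hcy1 : 2 * D * (c * y) ≤ Γ := by rw [hΓ]; nlinarith
  have hcy2 : -Γ ≤ 2 * D * (c * y) := by rw [hΓ]; nlinarith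
  have hcl : 2 * (c * (L * a)) = Γ * a := by rw [hΓ]; ring
  have hai1 : a * i ≤ a * I := by nlinarith
  have hai2 : -(a * I) ≤ a * i := by nlinarith
  have hIa : 2 * D * (a * I) + 6 * Γ * a ≤ D * Γ * a := by nlinarith
  refine ⟨ha0, ?_, ?_⟩
  · have h : 0 ≤ 2 * D * (c * (y + L * a) + z + a * i) := by
      have e : 2 * D * (c * (y + L * a) + z + a * i) =
          2 * D * (c * y) + D * (2 * (c * (L * a))) + 2 * D * z + 2 * D * (a * i) := by ring
      rw [e, hcl]
      have h1 : -(2 * D * (a * I)) ≤ 2 * D * (a * i) := by nlinarith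
      have h2 : Γ ≤ Γ * a := by nlinarith
      nlinarith
    by_contra h'
    push Not at h'
    nlinarith
  · have hw : D * a ≤ (D + 1) * (Lp * z) := by nlinarith
    have h : 2 * D * (c * (y + L * a) + z + a * i + a) ≤
        (2 * D * Γ - 5 * Γ + 2 * D) * a + 2 * D * z := by
      have e : 2 * D * (c * (y + L * a) + z + a * i + a) =
          2 * D * (c * y) + D * (2 * (c * (L * a))) + 2 * D * z + 2 * D * (a * i) + 2 * D * a := by
        ring
      rw [e, hcl]
      have h1 : 2 * D * (a * i) ≤ 2 * D * (a * I) := by nlinarith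
      have h2 : Γ ≤ Γ * a := by nlinarith
      nlinarith
    have hk : 0 ≤ 2 * D * Γ - 5 * Γ + 2 * D := by nlinarith
    have h2 : D * ((2 * D * Γ - 5 * Γ + 2 * D) * a) ≤
        (2 * D * Γ - 5 * Γ + 2 * D) * ((D + 1) * (Lp * z)) := by nlinarith
    have hzz : z ≤ Lp * z := by nlinarith
    have hw0 : 0 < Lp * z := by nlinarith
    have h3 : (2 * D * Γ - 5 * Γ + 2 * D) * (D + 1) + 2 * D * D ≤ 2 * D * D * Γ := by nlinarith
    have h5 : D * (2 * D * (c * (y + L * a) + z + a * i + a)) ≤ 2 * D * D * Γ * (Lp * z) := by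
      calc D * (2 * D * (c * (y + L * a) + z + a * i + a))
          ≤ D * ((2 * D * Γ - 5 * Γ + 2 * D) * a + 2 * D * z) := by nlinarith
        _ = D * ((2 * D * Γ - 5 * Γ + 2 * D) * a) + 2 * D * D * z := by ring
        _ ≤ (2 * D * Γ - 5 * Γ + 2 * D) * ((D + 1) * (Lp * z)) + 2 * D * D * (Lp * z) := by
          have : 2 * D * D * z ≤ 2 * D * D * (Lp * z) :=
            mul_le_mul_of_nonneg_left hzz (by positivity)
          linarith
        _ = ((2 * D * Γ - 5 * Γ + 2 * D) * (D + 1) + 2 * D * D) * (Lp * z) := by ring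
        _ ≤ 2 * D * D * Γ * (Lp * z) := mul_le_mul_of_nonneg_right h3 hw0.le
    have h6 : 2 * D * D * (c * (y + L * a) + z + a * i + a) ≤ 2 * D * D * (Γ * Lp * z) := by
      linarith
    exact le_of_mul_le_mul_left h6 (by positivity)

/-- The offsets: every point of the child's band lies in `[min 0 (R z), max 0 (R z))`. -/
lemma off {D Lp L c Γ I a y z i u : ℤ} (hD : 8 ≤ D) (hLp : 2 * D ≤ Lp) (hL : 0 < L)
    (hΓ : Γ = 2 * L * c) (hI0 : 0 ≤ I) (hI : 2 * D * I + 6 * Γ ≤ D * Γ) (h4 : 4 * D ≤ Γ) (hz : z ≠ 0)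
    (ha : D * |a - Lp * z| ≤ Lp) (hy : D * |y| ≤ L) (hi : |i| ≤ I) (hu1 : min 0 a ≤ u)
    (hu2 : u < max 0 a) :
    Γ * Lp * min 0 z ≤ c * (y + L * a) + z + a * i + u ∧
      c * (y + L * a) + z + a * i + u < Γ * Lp * max 0 z := by
  rcases lt_or_gt_of_ne hz with h | h
  · obtain ⟨h1, h2, h3⟩ := off_pos (a := -a) (y := -y) (z := -z) (i := i) hD hLp hL hΓ hI0 hI h4
      (by linarith) (by rw [show -a - Lp * -z = -(a - Lp * z) by ring, abs_neg]; exact ha)
      (by rw [abs_neg]; exact hy) hi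
    rw [min_eq_right (by linarith)] at hu1
    rw [max_eq_left (by linarith)] at hu2
    rw [min_eq_right h.le, max_eq_left h.le]
    constructor <;> nlinarith
  · obtain ⟨h1, h2, h3⟩ := off_pos hD hLp hL hΓ hI0 hI h4 h ha hy hi
    rw [min_eq_left h1.le] at hu1
    rw [max_eq_right h1.le] at hu2
    rw [min_eq_left h.le, max_eq_right h.le]
    constructor <;> nlinarith

end CM1

set_option maxHeartbeats 1600000 in
open CM1 in
theorem CM1_proof : Cm1Stmt := by
  intro τ N Lp D L zz c Γ R N' I m hτ hD hLp hL hLe hΓ hR hN' hI h4 hz hzτ ha hy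
  obtain ⟨a, y, z⟩ := m
  simp only at hz hzτ ha hy ⊢
  have hD' : (8 : ℤ) ≤ D := by exact_mod_cast hD
  have hLp' : 2 * (D : ℤ) ≤ Lp := by exact_mod_cast hLp
  have hL' : (0 : ℤ) < L := by exact_mod_cast hL
  have hΓ' : (Γ : ℤ) = 2 * L * c := by exact_mod_cast hΓ
  have hI' : 2 * (D : ℤ) * I + 6 * Γ ≤ D * Γ := by exact_mod_cast hI
  have h4' : 4 * (D : ℤ) ≤ Γ := by exact_mod_cast h4
  have hR' : (R : ℤ) = Γ * Lp := by exact_mod_cast hR
  have hR0 : (0 : ℤ) < R := by rw [hR']; nlinarith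
  have hτ' : (0 : ℤ) < τ := by exact_mod_cast hτ
  have hpos : ∀ i : ℤ, pos N' (line L (a, y, z) (a * i)) =
      R * pos N (a, y, z) + (c * (y + L * a) + z + a * i) + (τ * R) * (zz * a) := by
    intro i
    have e1 : (N' : ℤ) = R + c := by exact_mod_cast hN'
    have e2 : (L : ℤ) = zz * τ + N := by exact_mod_cast hLe
    simp only [pos, line, e1]
    have : (R : ℤ) * (y + L * a) = R * (N * a + y) + τ * R * (zz * a) := by rw [e2]; ring
    linear_combination this
  have hoff : ∀ i u : ℤ, |i| ≤ I → min 0 a ≤ u → u < max 0 a →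
      R * min 0 z ≤ c * (y + L * a) + z + a * i + u ∧
        c * (y + L * a) + z + a * i + u < R * max 0 z := by
    intro i u hi h1 h2
    rw [hR']
    exact off hD' hLp' hL' hΓ' (Int.natCast_nonneg I) hI' h4' hz ha hy hi h1 h2
  have hmem : ∀ i x : ℤ, x ∈ cells (τ * R) N' (line L (a, y, z) (a * i)) →
      ∃ u : ℤ, min 0 a ≤ u ∧ u < max 0 a ∧
        (R * pos N (a, y, z) + (c * (y + L * a) + z + a * i + u)) % (τ * R) = x := by
    intro i x hx
    obtain ⟨u, h1, h2, h3⟩ := mem_cells.1 hx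
    refine ⟨u, h1, h2, ?_⟩
    rw [← h3, hpos]
    push_cast
    rw [show (R : ℤ) * pos N (a, y, z) + (c * (y + L * a) + z + a * i) + τ * R * (zz * a) + u =
      R * pos N (a, y, z) + (c * (y + L * a) + z + a * i + u) + τ * R * (zz * a) by ring,
      Int.add_mul_emod_self_left]
  constructor
  · intro i hi x hx
    obtain ⟨u, h1, h2, rfl⟩ := hmem i x hx
    obtain ⟨h3, h5⟩ := hoff i u hi h1 h2
    generalize c * (y + L * a) + z + a * i + u = o at h3 h5
    unfold refine
    rw [mem_filter, mem_Ico]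
    have hτR : (0 : ℤ) < τ * R := by positivity
    refine ⟨⟨Int.emod_nonneg _ hτR.ne', Int.emod_lt_of_pos _ hτR⟩, mem_cells.2 ⟨o / R, ?_, ?_, ?_⟩⟩
    · exact Int.le_ediv_of_mul_le hR0 (by linarith)
    · exact Int.ediv_lt_of_lt_mul hR0 (by linarith)
    · generalize pos N (a, y, z) = p
      have e1 : R * p + o = (τ * R) * ((p + o / R) / τ) + (R * ((p + o / R) % τ) + o % R) := by
        have h6 := Int.mul_ediv_add_emod (p + o / R) τ
        have h7 := Int.mul_ediv_add_emod o R
        linear_combination (-(R : ℤ)) * h6 - h7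
      have h8 := Int.emod_nonneg o hR0.ne'
      have h9 := Int.emod_lt_of_pos o hR0
      have h10 := Int.emod_nonneg (p + o / R) hτ'.ne'
      have h11 := Int.emod_lt_of_pos (p + o / R) hτ'
      have e2 : (R * p + o) % (τ * R) = R * ((p + o / R) % τ) + o % R := by
        rw [e1, add_comm, Int.add_mul_emod_self_left]
        exact Int.emod_eq_of_lt (by nlinarith) (by nlinarith)
      rw [e2, add_comm ((R : ℤ) * _), Int.add_mul_ediv_left _ _ hR0.ne',
        Int.ediv_eq_zero_of_lt h8 h9, zero_add]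
  · intro i i' hi hi' hne
    rw [Finset.disjoint_left]
    intro x hx hx'
    obtain ⟨u, h1, h2, e1⟩ := hmem i x hx
    obtain ⟨u', h1', h2', e2⟩ := hmem i' x hx'
    obtain ⟨h3, h5⟩ := hoff i u hi h1 h2
    obtain ⟨h3', h5'⟩ := hoff i' u' hi' h1' h2'
    have hdv : ((τ : ℤ) * R) ∣ (a * i' + u') - (a * i + u) := by
      have h := Int.ModEq.dvd (show (R * pos N (a, y, z) + (c * (y + L * a) + z + a * i + u)) ≡
        (R * pos N (a, y, z) + (c * (y + L * a) + z + a * i' + u')) [ZMOD (τ * R)] from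
          e1.trans e2.symm)
      convert h using 1
      ring
    have hwin : R * max 0 z - R * min 0 z ≤ τ * R := by
      have : max 0 z - min 0 z ≤ τ := by
        rcases le_total 0 z with h | h
        · rw [max_eq_right h, min_eq_left h]; linarith [le_abs_self z]
        · rw [max_eq_left h, min_eq_right h]; linarith [neg_abs_le z]
      nlinarith
    have hzero : (a * i' + u') - (a * i + u) = 0 :=
      Int.eq_zero_of_abs_lt_dvd hdv (abs_lt.2 ⟨by linarith, by linarith⟩)
    have hua : |u - u'| < |a| := by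
      rcases le_total 0 a with h | h
      · rw [min_eq_left h] at h1 h1'; rw [max_eq_right h] at h2 h2'
        rw [abs_of_nonneg h, abs_lt]; constructor <;> linarith
      · rw [min_eq_right h] at h1 h1'; rw [max_eq_left h] at h2 h2'
        rw [abs_of_nonpos h, abs_lt]; constructor <;> linarith
    have e3 : u - u' = a * (i' - i) := by linarith
    rw [e3, abs_mul] at hua
    have : 1 ≤ |i' - i| := Int.one_le_abs (sub_ne_zero.2 hne.symm)
    nlinarith [abs_nonneg a]

end Crest.Agent.R81
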