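import Crest.Agent.R81.Defs

/-! Row 81, task CM3: fillers. -/

set_option autoImplicit false

open Finset MeasureTheory Filter Topology
open scoped ContDiff ComplexConjugate InnerProductSpace Classical
open Crest.AnalysisR.Torus3
open Crest.Agent.R75 (ee)

namespace Crest.Agent.R81

namespace CM3

theorem mem_cells (τ N : ℕ) (m : V) (x : ℤ) : x ∈ cells τ N m ↔
    ∃ k : ℤ, min (pos N m) (pos N m + m.2.2) ≤ k ∧ k < max (pos N m) (pos N m + m.2.2) ∧
      k % (τ : ℤ) = x := by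
  simp only [cells, mem_image, mem_Ico, and_assoc]

theorem pos_neg (N : ℕ) (m : V) : pos N (-m) = -pos N m := by
  simp only [pos, Prod.fst_neg, Prod.snd_neg]; ring

theorem refl_mod (τ : ℕ) (hτ : 0 < τ) (k : ℤ) : (-1 - k) % (τ : ℤ) = τ - 1 - k % τ := by
  have h0 : (0 : ℤ) < τ := by exact_mod_cast hτ
  have h1 := Int.emod_nonneg k h0.ne'
  have h2 := Int.emod_lt_of_pos k h0
  have h3 := Int.emod_add_mul_ediv k τ
  have e : -1 - k = (τ - 1 - k % τ) + τ * (-(k / τ) - 1) := by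
    rw [mul_sub, mul_neg]; omega
  rw [e, Int.add_mul_emod_self_left]
  exact Int.emod_eq_of_lt (by omega) (by omega)

theorem refl (τ N : ℕ) (hτ : 0 < τ) (m : V) (x : ℤ) (hx : x ∈ cells τ N m) :
    (τ : ℤ) - 1 - x ∈ cells τ N (-m) := by
  rw [mem_cells] at hx ⊢
  obtain ⟨k, h1, h2, h3⟩ := hx
  refine ⟨-1 - k, ?_, ?_, ?_⟩
  · rw [pos_neg]; simp only [Prod.snd_neg]; omega
  · rw [pos_neg]; simp only [Prod.snd_neg]; omega
  · rw [refl_mod τ hτ, h3]

def fl (N L : ℕ) (x : ℤ) : V := (L, x - N * L, 1)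

theorem cells_fl (τ N L : ℕ) (x : ℤ) (h0 : 0 ≤ x) (h1 : x < τ) (y : ℤ) :
    y ∈ cells τ N (fl N L x) ↔ y = x := by
  have hp : pos N (fl N L x) = x := by simp only [pos, fl]; ring
  have hz : (fl N L x).2.2 = 1 := rfl
  rw [mem_cells, hp, hz]
  constructor
  · rintro ⟨k, a, b, c⟩
    have : k = x := by omega
    rw [← c, this, Int.emod_eq_of_lt h0 h1]
  · rintro rfl
    exact ⟨y, by omega, by omega, Int.emod_eq_of_lt h0 h1⟩

theorem cells_nfl (τ N L : ℕ) (hτ : 0 < τ) (x : ℤ) (h0 : 0 ≤ x) (h1 : x < τ) (y : ℤ) :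
    y ∈ cells τ N (-fl N L x) ↔ y = τ - 1 - x := by
  constructor
  · intro h
    have := refl τ N hτ _ _ h
    rw [neg_neg, cells_fl τ N L x h0 h1] at this
    omega
  · rintro rfl
    exact refl τ N hτ _ _ ((cells_fl τ N L x h0 h1 x).2 rfl)

end CM3

open CM3 in
theorem CM3_proof : Cm3Stmt := by
  intro τ N L C hτ hev hsym hlen hdis
  obtain ⟨h, hh⟩ := hev
  have hh' : (τ : ℤ) = h + h := by exact_mod_cast hh
  let U : Finset ℤ := (Finset.Ico (0 : ℤ) h).filter fun x => ∀ m ∈ C, x ∉ cells τ N m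
  have hU : ∀ x, x ∈ U ↔ 0 ≤ x ∧ x < h ∧ ∀ m ∈ C, x ∉ cells τ N m := by
    intro x; simp only [U, mem_filter, mem_Ico, and_assoc]
  let F : Finset V := U.image (fl N L) ∪ U.image fun x => -fl N L x
  have hF : ∀ m, m ∈ F ↔ ∃ x ∈ U, m = fl N L x ∨ m = -fl N L x := by
    intro m
    simp only [F, mem_union, mem_image]
    constructor
    · rintro (⟨x, hx, rfl⟩ | ⟨x, hx, rfl⟩)
      · exact ⟨x, hx, Or.inl rfl⟩
      · exact ⟨x, hx, Or.inr rfl⟩
    · rintro ⟨x, hx, rfl | rfl⟩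
      · exact Or.inl ⟨x, hx, rfl⟩
      · exact Or.inr ⟨x, hx, rfl⟩
  have hCF : ∀ m ∈ C, ∀ m' ∈ F, Disjoint (cells τ N m) (cells τ N m') := by
    intro m hm m' hm'
    obtain ⟨x, hx, hm'⟩ := (hF m').1 hm'
    obtain ⟨x0, x1, x2⟩ := (hU x).1 hx
    rw [Finset.disjoint_left]
    intro y hy hy'
    rcases hm' with rfl | rfl
    · rw [cells_fl τ N L x x0 (by omega)] at hy'
      exact x2 m hm (hy' ▸ hy)
    · rw [cells_nfl τ N L hτ x x0 (by omega)] at hy'
      have := refl τ N hτ m y hy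
      have e : (τ : ℤ) - 1 - y = x := by omega
      rw [e] at this
      exact x2 _ (hsym m hm) this
  refine ⟨F, ?_, ?_, ⟨?_, ?_, ?_⟩⟩
  · intro m hm
    obtain ⟨x, hx, hm⟩ := (hF m).1 hm
    refine (hF _).2 ⟨x, hx, ?_⟩
    rcases hm with rfl | rfl
    · exact Or.inr rfl
    · exact Or.inl (neg_neg _)
  · intro m hm
    obtain ⟨x, -, hm⟩ := (hF m).1 hm
    rcases hm with rfl | rfl
    · exact Or.inl ⟨rfl, rfl⟩
    · exact Or.inr ⟨rfl, rfl⟩
  · intro m hm m' hm' hne
    rcases mem_union.1 hm with hm | hm <;> rcases mem_union.1 hm' with hm' | hm'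
    · exact hdis m hm m' hm' hne
    · exact hCF m hm m' hm'
    · exact (hCF m' hm' m hm).symm
    · obtain ⟨x, hx, hm⟩ := (hF m).1 hm
      obtain ⟨x', hx', hm'⟩ := (hF m').1 hm'
      obtain ⟨x0, x1, -⟩ := (hU x).1 hx
      obtain ⟨x0', x1', -⟩ := (hU x').1 hx'
      rw [Finset.disjoint_left]
      intro y hy hy'
      rcases hm with rfl | rfl <;> rcases hm' with rfl | rfl
      · rw [cells_fl τ N L x x0 (by omega)] at hy
        rw [cells_fl τ N L x' x0' (by omega)] at hy'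
        exact hne (by rw [← hy, hy'])
      · rw [cells_fl τ N L x x0 (by omega)] at hy
        rw [cells_nfl τ N L hτ x' x0' (by omega)] at hy'
        omega
      · rw [cells_nfl τ N L hτ x x0 (by omega)] at hy
        rw [cells_fl τ N L x' x0' (by omega)] at hy'
        omega
      · rw [cells_nfl τ N L hτ x x0 (by omega)] at hy
        rw [cells_nfl τ N L hτ x' x0' (by omega)] at hy'
        have : x = x' := by omega
        exact hne (by rw [this])
  · intro x hx
    obtain ⟨x0, x1⟩ := mem_Ico.1 hx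
    by_cases hc : ∃ m ∈ C, x ∈ cells τ N m
    · obtain ⟨m, hm, hx⟩ := hc
      exact ⟨m, mem_union_left _ hm, hx⟩
    · push Not at hc
      by_cases hx2 : x < h
      · refine ⟨fl N L x, mem_union_right _ ((hF _).2 ⟨x, (hU x).2 ⟨x0, hx2, hc⟩, Or.inl rfl⟩), ?_⟩
        exact (cells_fl τ N L x x0 x1 x).2 rfl
      · refine ⟨-fl N L (τ - 1 - x), mem_union_right _ ((hF _).2 ⟨τ - 1 - x,
          (hU _).2 ⟨by omega, by omega, ?_⟩, Or.inr rfl⟩), ?_⟩
        · intro m hm hx'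
          have := refl τ N hτ m _ hx'
          have e : (τ : ℤ) - 1 - (τ - 1 - x) = x := by omega
          rw [e] at this
          exact hc _ (hsym m hm) this
        · exact (cells_nfl τ N L hτ _ (by omega) (by omega) x).2 (by omega)
  · intro m hm
    rcases mem_union.1 hm with hm | hm
    · obtain ⟨a, b⟩ := hlen m hm
      refine ⟨?_, b⟩
      intro h0; rw [h0] at a; simp at a
    · obtain ⟨x, -, hm⟩ := (hF m).1 hm
      have h1 : (1 : ℤ) ≤ τ := by exact_mod_cast hτ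
      rcases hm with rfl | rfl
      · exact ⟨by simp [fl], by simpa [fl] using h1⟩
      · exact ⟨by simp [fl], by simpa [fl] using h1⟩

end Crest.Agent.R81
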