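import Crest.Agent.R81.Defs

set_option autoImplicit false

open Finset MeasureTheory Filter Topology
open scoped ContDiff ComplexConjugate InnerProductSpace Classical
open Crest.AnalysisR.Torus3
open Crest.Agent.R75 (ee)

namespace Crest.Agent.R81

namespace CM4

lemma le_abs_mul (L k : ℤ) (hL : 0 < L) (hk : k ≠ 0) : L ≤ |L * k| := by
  rw [abs_mul, abs_of_pos hL]
  have : 1 ≤ |k| := Int.one_le_abs hk
  nlinarith

lemma key (L D Z u u' k k' t : ℤ) (hL : 0 < L) (hD : 4 * Z + 8 ≤ D) (hu : D * |u| ≤ L)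
    (hu' : D * |u'| ≤ L) (hk : |k| ≤ Z) (hk' : k' ≠ 0) (h : u + L * k = t * (u' + L * k')) :
    k = t * k' ∧ u = t * u' := by
  have hZ : 0 ≤ Z := (abs_nonneg k).trans hk
  have a0 := abs_nonneg u
  have a0' := abs_nonneg u'
  have t0 := abs_nonneg t
  have h8 : 8 * |u| ≤ L := by nlinarith
  have h8' : 8 * |u'| ≤ L := by nlinarith
  have h1 : L ≤ 2 * |u' + L * k'| := by
    have e1 := le_abs_mul L k' hL hk'
    have e2 : |L * k'| ≤ |u' + L * k'| + |u'| := by
      have := abs_sub (u' + L * k') u'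
      rwa [add_sub_cancel_left] at this
    linarith
  have h2 : |u + L * k| ≤ |u| + L * Z := by
    have e1 := abs_add_le u (L * k)
    rw [abs_mul, abs_of_pos hL] at e1
    nlinarith
  have h3 : |t| ≤ 2 * Z + 1 := by
    have e1 : |u + L * k| = |t| * |u' + L * k'| := by rw [h, abs_mul]
    have e2 : |t| * L ≤ (2 * Z + 1) * L := by nlinarith
    exact le_of_mul_le_mul_right e2 hL
  have h4 : t * k' - k = 0 := by
    by_contra hne
    have e1 := le_abs_mul L _ hL hne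
    have e2 : L * (t * k' - k) = u - t * u' := by linear_combination -h
    rw [e2] at e1
    have e3 : |u - t * u'| ≤ |u| + |t| * |u'| := by
      have := abs_sub u (t * u')
      rwa [abs_mul] at this
    have e4 : D * L ≤ D * |u| + |t| * (D * |u'|) := by nlinarith
    have e5 : |t| * (D * |u'|) ≤ (2 * Z + 1) * L := by
      calc |t| * (D * |u'|) ≤ |t| * L := mul_le_mul_of_nonneg_left hu' t0
        _ ≤ (2 * Z + 1) * L := mul_le_mul_of_nonneg_right h3 hL.le
    nlinarith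
  have h5 : k = t * k' := by linarith
  refine ⟨h5, ?_⟩
  rw [h5] at h
  linear_combination h

end CM4

theorem CM4_proof : Cm4Stmt := by
  intro τ N Lp D Z A M P B 𝓑 L D' Z' hI hD' hL hW
  have hD : 4 * (Z : ℤ) + 8 ≤ D := by exact_mod_cast hI.DZ
  have hD2 : 4 * (Z' : ℤ) + 8 ≤ D' := by exact_mod_cast hD'
  have hLD : 2 * (D : ℤ) ≤ Lp := by exact_mod_cast hI.LD
  have hZ0 : (0 : ℤ) ≤ Z := Int.natCast_nonneg Z
  have hZ0' : (0 : ℤ) ≤ Z' := Int.natCast_nonneg Z'
  have hL' : (0 : ℤ) < L := by exact_mod_cast hL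
  have hLp : (0 : ℤ) < Lp := by linarith
  have i1 : ∀ m ∈ M ∪ P ∪ B, 2 ≤ |m.1| := by
    intro m hm
    obtain ⟨h1, h2, h3, -⟩ := hI.lac m hm
    have e1 := CM4.le_abs_mul Lp m.2.2 hLp h1
    have e2 : |(Lp : ℤ) * m.2.2| ≤ |m.1| + |m.1 - Lp * m.2.2| := by
      have := abs_sub m.1 (m.1 - Lp * m.2.2)
      rwa [sub_sub_cancel] at this
    have e3 : 8 * |m.1 - Lp * m.2.2| ≤ Lp := by
      have := abs_nonneg (m.1 - Lp * m.2.2)
      nlinarith
    linarith
  have i2 : ∀ m ∈ M ∪ P ∪ B, ∀ m' ∈ M ∪ P ∪ B, ∀ t : ℤ, m.1 = t * m'.1 → m.2.2 = t * m'.2.2 := by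
    intro m hm m' hm' t ht
    obtain ⟨h1, h2, h3, -⟩ := hI.lac m hm
    obtain ⟨h1', h2', h3', -⟩ := hI.lac m' hm'
    exact (CM4.key Lp D Z _ _ m.2.2 m'.2.2 t hLp hD h3 h3' h2 h1' (by linear_combination ht)).1
  have i3 : ∀ m ∈ M ∪ P ∪ B, ∀ m' ∈ M ∪ P ∪ B, ∀ t : ℤ,
      m.2.1 + L * m.1 = t * (m'.2.1 + L * m'.1) → m = t • m' := by
    intro m hm m' hm' t ht
    have hne : m'.1 ≠ 0 := by
      intro h0
      have := i1 m' hm'
      rw [h0] at this
      norm_num at this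
    obtain ⟨e1, e2⟩ := CM4.key L D' Z' _ _ m.1 m'.1 t hL' hD2 (hW m hm).1 (hW m' hm').1
      (hW m hm).2 hne ht
    exact Prod.ext e1 (Prod.ext e2 (i2 m hm m' hm' t e1))
  refine ⟨fun m hm => ⟨i1 m hm, ?_⟩, ?_, ?_, ?_⟩
  · have e1 := i1 m hm
    have e2 : |(L : ℤ) * m.1| ≤ |m.2.1 + L * m.1| + |m.2.1| := by
      have := abs_sub (m.2.1 + L * m.1) m.2.1
      rwa [add_sub_cancel_left] at this
    rw [abs_mul, abs_of_pos hL'] at e2
    have e3 : 8 * |m.2.1| ≤ L := by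
      have := abs_nonneg m.2.1
      have := (hW m hm).1
      nlinarith
    nlinarith
  · intro m hm m' hm' h
    simpa using i2 m hm m' hm' 1 (by simpa using h)
  · intro m hm m' hm' h
    simpa using i3 m hm m' hm' 1 (by simpa using h)
  · rintro m hm m' hm' ⟨t, ht⟩
    have hm1 : m ∈ M ∪ P ∪ B := Finset.mem_union_left _ hm
    have hm2 : m' ∈ M ∪ P ∪ B := Finset.mem_union_right _ hm'
    have e := i3 m hm1 m' hm2 t (by rw [ht, mul_comm])
    have ht0 : t ≠ 0 := by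
      intro h0
      have := i1 m hm1
      rw [e, h0, zero_smul] at this
      norm_num at this
    exact hI.disB m' hm' (hI.clMP t m' ht0 (e ▸ hm))

end Crest.Agent.R81
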