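import Crest.Agent.R81.Defs

/-! Task CMB: the combinatorial step. -/

set_option autoImplicit false

open Finset
open scoped Classical

namespace Crest.Agent.R81

namespace CMB

theorem mem_kids {𝓘 : ℤ → ℤ → Prop} {I L : ℕ} {m c : V} :
    c ∈ kids 𝓘 I L m ↔ ∃ i : ℤ, |i| ≤ I ∧ 𝓘 m.1 i ∧ c = line L m (m.1 * i) := by
  unfold kids idx
  simp only [mem_image, mem_filter, mem_Icc, abs_le]
  constructor
  · rintro ⟨i, ⟨h1, h2⟩, rfl⟩; exact ⟨i, h1, h2, rfl⟩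
  · rintro ⟨i, h1, h2, rfl⟩; exact ⟨i, ⟨h1, h2⟩, rfl⟩

theorem mem_cells {τ N : ℕ} {m : V} {x : ℤ} (h : x ∈ cells τ N m) :
    ∃ u : ℤ, |u| ≤ |m.2.2| ∧ (pos N m + u) % (τ : ℤ) = x := by
  unfold cells at h
  obtain ⟨k, hk, rfl⟩ := mem_image.mp h
  rw [mem_Ico] at hk
  refine ⟨k - pos N m, ?_, by congr 1; ring⟩
  obtain ⟨h1, h2⟩ := hk
  rcases le_total 0 m.2.2 with h | h
  · rw [min_eq_left (by linarith)] at h1
    rw [max_eq_right (by linarith)] at h2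
    rw [abs_of_nonneg h, abs_le]; constructor <;> linarith
  · rw [min_eq_right (by linarith)] at h1
    rw [max_eq_left (by linarith)] at h2
    rw [abs_of_nonpos h, abs_le]; constructor <;> linarith

theorem refine_disj {τ R : ℕ} {S S' : Finset ℤ} (h : Disjoint S S') :
    Disjoint (refine τ R S) (refine τ R S') := by
  rw [disjoint_left] at h ⊢
  intro x h1 h2
  exact h (mem_filter.mp h1).2 (mem_filter.mp h2).2

theorem abs_le_of_mul {t x y : ℤ} (ht : t ≠ 0) (h : t * x = y) : |x| ≤ |y| := by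
  rw [← h, abs_mul]
  exact le_mul_of_one_le_left (abs_nonneg _) (Int.one_le_abs ht)

theorem kid_neg {𝓘 : ℤ → ℤ → Prop} (j1 : ∀ a t i : ℤ, t ≠ 0 → 𝓘 (t * a) i → 𝓘 a i) {I L : ℕ}
    {m c : V} (h : c ∈ kids 𝓘 I L m) : -c ∈ kids 𝓘 I L (-m) := by
  obtain ⟨i, h1, h2, rfl⟩ := mem_kids.mp h
  refine mem_kids.mpr ⟨i, h1, j1 _ (-1) _ (by norm_num) (by simpa using h2), ?_⟩
  simp only [line, Prod.neg_mk, Prod.fst_neg, Prod.snd_neg, Prod.mk.injEq]
  exact ⟨by ring, by ring, trivial⟩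

theorem kid_div {𝓘 : ℤ → ℤ → Prop} (j1 : ∀ a t i : ℤ, t ≠ 0 → 𝓘 (t * a) i → 𝓘 a i) {I L : ℕ}
    {m c : V} {t : ℤ} (ht : t ≠ 0) (h : t • c ∈ kids 𝓘 I L m) :
    ∃ m₀, t • m₀ = m ∧ c ∈ kids 𝓘 I L m₀ := by
  obtain ⟨i, h1, h2, h3⟩ := mem_kids.mp h
  obtain ⟨c1, c2, c3⟩ := c
  obtain ⟨a, y, z⟩ := m
  simp only [line, Prod.smul_mk, smul_eq_mul, Prod.mk.injEq] at h2 h3
  obtain ⟨e1, e2, e3⟩ := h3
  refine ⟨(c3, c1 - L * c3, c2 - c3 * i), ?_, mem_kids.mpr ⟨i, h1, j1 _ t _ ht (by rwa [e3]), ?_⟩⟩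
  · simp only [Prod.smul_mk, smul_eq_mul, Prod.mk.injEq]
    exact ⟨e3, by linear_combination e1 - L * e3, by linear_combination e2 - i * e3⟩
  · simp only [line, Prod.mk.injEq]
    exact ⟨by ring, by ring, trivial⟩

noncomputable def sat (W : Finset V) : Finset V :=
  (W.biUnion fun c => Icc (-|c.1|, -|c.2.1|, -|c.2.2|) (|c.1|, |c.2.1|, |c.2.2|)).filter
    fun c => ∃ t : ℤ, t ≠ 0 ∧ t • c ∈ W ∧ (t • c).2.2 ≠ 0

theorem mem_sat {W : Finset V} {c : V} :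
    c ∈ sat W ↔ ∃ t : ℤ, t ≠ 0 ∧ t • c ∈ W ∧ (t • c).2.2 ≠ 0 := by
  unfold sat
  rw [mem_filter, and_iff_right_iff_imp]
  rintro ⟨t, ht, h, -⟩
  refine mem_biUnion.mpr ⟨_, h, ?_⟩
  have h1 := abs_le.mp (abs_le_of_mul ht (rfl : t * c.1 = (t • c).1))
  have h2 := abs_le.mp (abs_le_of_mul ht (rfl : t * c.2.1 = (t • c).2.1))
  have h3 := abs_le.mp (abs_le_of_mul ht (rfl : t * c.2.2 = (t • c).2.2))
  exact mem_Icc.mpr ⟨⟨h1.1, h2.1, h3.1⟩, ⟨h1.2, h2.2, h3.2⟩⟩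

end CMB

open CMB in
theorem CMB_proof (h1 : Cm1Stmt) (h3 : Cm3Stmt) (h4 : Cm4Stmt) : CmbStmt := by
  intro τ N Lp D Z A M P B 𝓑 η Q N₀ w 𝓘 W₀ W' L D' Z' A' zz γ Γ R N' I hI hJ hL hD hZ hLD hLA hZ1
    hZA hb hΓ hR hN' hi hΓD hZτ hW
  have hD8 : 8 ≤ D := by have := hI.DZ; omega
  have hL0 : 0 < L := by omega
  have hbX : ∀ m ∈ M ∪ P ∪ B, D' * |m.2.1| ≤ L ∧ |m.1| ≤ Z' ∧ |m.2.1 + L * m.1| ≤ A' :=
    fun m hm => hb m (mem_union_left _ hm)
  obtain ⟨c41, -, c43, c44⟩ := h4 τ N Lp D Z A M P B 𝓑 L D' Z' hI hZ hL0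
    fun m hm => ⟨(hbX m hm).1, (hbX m hm).2.1⟩
  have c1 := fun m (hm : m ∈ M ∪ P ∪ B) => h1 τ N Lp D L zz (Q * γ) Γ R N' I m hI.τpos hD8 hI.LD
    hL0 hL hΓ hR hN' hi hΓD (hI.lac m hm).1
    ((hI.lac m hm).2.1.trans (by exact_mod_cast hI.Zle)) (hI.lac m hm).2.2.1
    (le_trans (mul_le_mul_of_nonneg_right (by exact_mod_cast hD) (abs_nonneg _)) (hbX m hm).1)
  have hX : ∀ m ∈ M ∪ P, m ∈ M ∪ P ∪ B := fun m hm => mem_union_left _ hm
  have hXB : ∀ m ∈ B, m ∈ M ∪ P ∪ B := fun m hm => mem_union_right _ hm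
  have symMP : ∀ m ∈ M ∪ P, -m ∈ M ∪ P := fun m hm => by
    rcases mem_union.mp hm with h | h
    · exact mem_union_left _ (hI.symM m h)
    · exact mem_union_right _ (hI.symP m h)
  have symB : ∀ m ∈ B, -m ∈ B := fun m hm => by
    have h := hI.clX (-1) (-m) (by norm_num) (by simpa using hXB m hm)
    rcases mem_union.mp h with h | h
    · exact absurd (by simpa using symMP _ h) (hI.disB m hm)
    · exact h
  have same : ∀ m ∈ M ∪ P ∪ B, ∀ c ∈ kids 𝓘 I L m, ∀ c' ∈ kids 𝓘 I L m, c ≠ c' →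
      Disjoint (cells (τ * R) N' c) (cells (τ * R) N' c') := by
    intro m hm c hc c' hc' hne
    obtain ⟨i, hi1, -, rfl⟩ := mem_kids.mp hc
    obtain ⟨i', hi1', -, rfl⟩ := mem_kids.mp hc'
    exact (c1 m hm).2 i i' hi1 hi1' fun e => hne (by rw [e])
  have sub : ∀ m ∈ M ∪ P ∪ B, ∀ c ∈ kids 𝓘 I L m,
      cells (τ * R) N' c ⊆ refine τ R (cells τ N m) := by
    intro m hm c hc
    obtain ⟨i, hi1, -, rfl⟩ := mem_kids.mp hc
    exact (c1 m hm).1 i hi1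
  have far : ∀ m ∈ M ∪ P, ∀ m' ∈ P, m ≠ m' → ∀ c ∈ kids 𝓘 I L m, ∀ c' ∈ kids 𝓘 I L m',
      Disjoint (cells (τ * R) N' c) (cells (τ * R) N' c') := by
    intro m hm m' hm' hne c hc c' hc'
    have hm'' : m' ∈ M ∪ P ∪ B := hX _ (mem_union_right _ hm')
    by_cases ha : m.1 = m'.1
    · rcases mem_union.mp hm with h | h
      · exact absurd (by rw [ha]; exact Int.natAbs_dvd.mpr dvd_rfl) (hI.old m h _ (hI.new m' hm'))
      · exact (refine_disj (hI.sib m h m' hm' hne ha)).mono (sub m (hX m hm) c hc)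
          (sub m' hm'' c' hc')
    · obtain ⟨i, -, hi2, rfl⟩ := mem_kids.mp hc
      obtain ⟨i', -, hi2', rfl⟩ := mem_kids.mp hc'
      rw [disjoint_left]
      intro x hx hx'
      obtain ⟨u, hu, e⟩ := mem_cells hx
      obtain ⟨u', hu', e'⟩ := mem_cells hx'
      obtain ⟨-, l1, -, l2⟩ := hI.lac m (hX m hm)
      obtain ⟨-, l1', -, l2'⟩ := hI.lac m' hm''
      have hZA' : (Z : ℤ) ≤ A := by exact_mod_cast hI.ZA
      have ha0 : m.1 ≠ 0 := fun h0 => by have := (c41 m (hX m hm)).1; rw [h0] at this; simp at this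
      refine hJ.j2 m.1 m'.1 i i' (m.2.2 - m'.2.2 + u - u') ha0 l2 (hI.new m' hm') ha hi2 hi2' ?_ ?_
      · simp only [line] at hu hu'
        have a1 := abs_le.mp (hu.trans l2)
        have a2 := abs_le.mp (hu'.trans l2')
        have a3 := abs_le.mp (l1.trans hZA')
        have a4 := abs_le.mp (l1'.trans hZA')
        rw [abs_le]; constructor <;> linarith
      · obtain ⟨k, hk⟩ := Int.ModEq.dvd (show Int.ModEq _ _ _ from e'.trans e.symm)
        simp only [pos, line] at hk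
        subst hN' hR hΓ
        push_cast at hk
        exact ⟨τ * (2 * L * γ * Lp) * k - (2 * L * γ * Lp + γ) * (m.2.1 + L * m.1)
          + (2 * L * γ * Lp + γ) * (m'.2.1 + L * m'.1), by linear_combination hk⟩
  set C := (M ∪ P).biUnion (kids 𝓘 I L) with hC
  set P' := B.biUnion (kids 𝓘 I L) with hP'
  have hR0 : 0 < R := by
    have := hI.LD
    rw [hR]; exact Nat.mul_pos (by omega) (by omega)
  have symC : ∀ c ∈ C, -c ∈ C := fun c hc => by
    obtain ⟨m, hm, h⟩ := mem_biUnion.mp hc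
    exact mem_biUnion.mpr ⟨-m, symMP m hm, kid_neg hJ.j1 h⟩
  obtain ⟨F, symF, hF, hpart⟩ := h3 (τ * R) N' L C (Nat.mul_pos hI.τpos hR0)
    (by rw [hR, hΓ]; exact ⟨τ * (L * (Q * γ) * Lp), by ring⟩) symC
    (fun c hc => by
      obtain ⟨m, hm, h⟩ := mem_biUnion.mp hc
      obtain ⟨i, -, -, rfl⟩ := mem_kids.mp h
      exact ⟨(c41 m (hX m hm)).1, (hbX m (hX m hm)).2.1.trans (by exact_mod_cast hZτ)⟩)
    (fun c hc c' hc' hne => by
      obtain ⟨m, hm, h⟩ := mem_biUnion.mp hc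
      obtain ⟨m', hm', h'⟩ := mem_biUnion.mp hc'
      by_cases e : m = m'
      · subst e; exact same m (hX m hm) c h c' h' hne
      rcases mem_union.mp hm' with g' | g'
      · rcases mem_union.mp hm with g | g
        · exact (refine_disj (hI.part.disj m g m' g' e)).mono (sub m (hX m hm) c h)
            (sub m' (hX m' hm') c' h')
        · exact (far m' hm' m g (Ne.symm e) c' h' c h).symm
      · exact far m hm m' g' e c h c' h')
  have kidX : ∀ m ∈ M ∪ P ∪ B, ∀ c ∈ kids 𝓘 I L m, c ∈ C ∪ F ∪ P' := by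
    intro m hm c hc
    rcases mem_union.mp hm with h | h
    · exact mem_union_left _ (mem_union_left _ (mem_biUnion.mpr ⟨m, h, hc⟩))
    · exact mem_union_right _ (mem_biUnion.mpr ⟨m, h, hc⟩)
  have cases3 : ∀ c ∈ C ∪ F ∪ P', c ∈ F ∨ ∃ m ∈ M ∪ P ∪ B, c ∈ kids 𝓘 I L m := by
    intro c hc
    rcases mem_union.mp hc with h | h
    · rcases mem_union.mp h with h | h
      · obtain ⟨m, hm, h⟩ := mem_biUnion.mp h
        exact Or.inr ⟨m, hX m hm, h⟩
      · exact Or.inl h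
    · obtain ⟨m, hm, h⟩ := mem_biUnion.mp h
      exact Or.inr ⟨m, hXB m hm, h⟩
  have cl : ∀ (t : ℤ) (c : V), t ≠ 0 → t • c ∈ C ∪ F ∪ P' → c ∈ C ∪ F ∪ P' := by
    intro t c ht hc
    rcases cases3 _ hc with h | ⟨m, hm, h⟩
    · refine mem_union_left _ (mem_union_right _ ?_)
      have hu : t = 1 ∨ t = -1 := by
        rcases hF _ h with ⟨-, e⟩ | ⟨-, e⟩
        · exact Int.eq_one_or_neg_one_of_mul_eq_one e
        · exact Int.eq_one_or_neg_one_of_mul_eq_neg_one e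
      rcases hu with rfl | rfl
      · simpa using h
      · simpa using symF _ h
    · obtain ⟨m₀, rfl, h0⟩ := kid_div hJ.j1 ht h
      exact kidX m₀ (hI.clX t m₀ ht hm) c h0
  have satX : ∀ c ∈ sat W', c ∈ C ∪ F ∪ P' ∪ (sat W' \ (C ∪ F ∪ P')) := fun c hc => by
    by_cases h : c ∈ C ∪ F ∪ P'
    · exact mem_union_left _ h
    · exact mem_union_right _ (mem_sdiff.mpr ⟨hc, h⟩)
  refine ⟨C ∪ F, P', sat W' \ (C ∪ F ∪ P'), ⟨Nat.mul_pos hI.τpos hR0, hZτ, hZ, hLD, hZA, ?_, ?_, cl,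
    ?_, fun m hm => (mem_sdiff.mp hm).2, ?_, ?_, ?_, ?_, hpart, ?_⟩,
    fun m hm c hc => mem_union_left _ (mem_biUnion.mpr ⟨m, hm, hc⟩),
    fun m hm c hc => mem_biUnion.mpr ⟨m, hm, hc⟩,
    fun c hc h0 => satX c (mem_sat.mpr ⟨1, one_ne_zero, by simpa using hc, by simpa using h0⟩),
    fun m hm => sub m (hX m (mem_union_left _ hm))⟩
  · intro c hc
    rcases mem_union.mp hc with h | h
    · exact mem_union_left _ (symC c h)
    · exact mem_union_right _ (symF c h)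
  · intro c hc
    obtain ⟨m, hm, h⟩ := mem_biUnion.mp hc
    exact mem_biUnion.mpr ⟨-m, symB m hm, kid_neg hJ.j1 h⟩
  · intro t c ht hc
    rcases mem_union.mp hc with h | h
    · exact mem_union_left _ (cl t c ht h)
    · obtain ⟨t', ht', g1, g2⟩ := mem_sat.mp (mem_sdiff.mp h).1
      rw [← mul_smul] at g1 g2
      exact satX c (mem_sat.mpr ⟨t' * t, mul_ne_zero ht' ht, g1, g2⟩)
  · intro c hc
    have hZ1' : (1 : ℤ) ≤ Z' := by exact_mod_cast hZ1
    have hLA' : (L : ℤ) ≤ A' := by exact_mod_cast hLA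
    rcases mem_union.mp hc with h | h
    · rcases cases3 _ h with h | ⟨m, hm, h⟩
      · rcases hF _ h with ⟨e1, e2⟩ | ⟨e1, e2⟩ <;> rw [e1, e2] <;> simp [hZ1, hLA]
      · obtain ⟨i, -, -, rfl⟩ := mem_kids.mp h
        obtain ⟨g1, g2, g3⟩ := hbX m hm
        simp only [line, add_sub_cancel_right]
        exact ⟨fun h0 => by have := (c41 m hm).1; rw [h0] at this; simp at this, g2, g1, g3⟩
    · obtain ⟨t, ht, g1, g2⟩ := mem_sat.mp (mem_sdiff.mp h).1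
      obtain ⟨m, hm, j, e⟩ := hW _ g1
      obtain ⟨b1, b2, b3⟩ := hb m (mem_union_right _ hm)
      have e1 : t * c.1 = m.2.1 + L * m.1 := congrArg Prod.fst e
      have e3 : t * c.2.2 = m.1 := congrArg (fun x : V => x.2.2) e
      refine ⟨fun h0 => g2 (by change t * c.2.2 = 0; rw [h0, mul_zero]),
        (abs_le_of_mul ht e3).trans b2, le_trans (mul_le_mul_of_nonneg_left
          (abs_le_of_mul ht (y := m.2.1) (by linear_combination e1 - L * e3)) (by positivity)) b1,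
        (abs_le_of_mul ht e1).trans b3⟩
  · intro c hc b hb' hd
    obtain ⟨m', hm', rfl⟩ := mem_image.mp hb'
    rw [Int.natAbs_dvd] at hd
    rcases mem_union.mp hc with h | h
    · obtain ⟨m, hm, h⟩ := mem_biUnion.mp h
      obtain ⟨i, -, -, rfl⟩ := mem_kids.mp h
      exact c44 m hm m' hm' hd
    · have hd' : m'.2.1 + L * m'.1 ∣ (L : ℤ) := by
        rcases hF _ h with ⟨e, -⟩ | ⟨e, -⟩ <;> rw [e] at hd
        · exact hd
        · exact (dvd_neg.mp hd)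
      have := Int.le_of_dvd (by exact_mod_cast hL0) ((abs_dvd _ _).mpr hd')
      linarith [(c41 m' (hXB m' hm')).2]
  · intro c hc
    obtain ⟨m, hm, h⟩ := mem_biUnion.mp hc
    obtain ⟨i, -, -, rfl⟩ := mem_kids.mp h
    exact mem_image.mpr ⟨m, hm, rfl⟩
  · intro b hb'
    obtain ⟨m, hm, rfl⟩ := mem_image.mp hb'
    have g1 := (c41 m (hXB m hm)).2
    have g2 := (hbX m (hXB m hm)).2.2
    rw [← Int.natCast_natAbs] at g1 g2
    omega
  · intro c hc c' hc' hne e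
    obtain ⟨m, hm, h⟩ := mem_biUnion.mp hc
    obtain ⟨m', hm', h'⟩ := mem_biUnion.mp hc'
    have : m = m' := by
      obtain ⟨i, -, -, rfl⟩ := mem_kids.mp h
      obtain ⟨i', -, -, rfl⟩ := mem_kids.mp h'
      exact c43 m (hXB m hm) m' (hXB m' hm') e
    subst this
    exact same m (hXB m hm) c h c' h' hne

end Crest.Agent.R81
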