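import Crest.Agent.R81.Defs

/-! # Row 81: conversion to the frozen conclusion -/

set_option autoImplicit false

open Finset MeasureTheory Filter Topology
open scoped ContDiff ComplexConjugate InnerProductSpace Classical
open Crest.AnalysisR.Torus3

namespace Crest.Agent.R81
namespace CONV

lemma isRe_iff (x : HH) : IsRe x ↔ Complex.imCLM.compLpL 2 (volume : Measure T3) x = 0 := by
  have h := Complex.imCLM.coeFn_compLpL (p := 2) (μ := (volume : Measure T3)) x
  rw [Lp.eq_zero_iff_ae_eq_zero]
  constructor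
  · intro h1
    filter_upwards [h, h1] with q hq h1q
    rw [hq]; simpa using h1q
  · intro h1
    filter_upwards [h, h1] with q hq h1q
    rw [hq] at h1q; simpa using h1q

lemma isRe_lim {x : ℕ → HH} {y : HH} (h : ∀ n, IsRe (x n)) (hl : Tendsto x atTop (𝓝 y)) :
    IsRe y := by
  rw [isRe_iff]
  have h1 := ((Complex.imCLM.compLpL 2 (volume : Measure T3)).continuous.tendsto y).comp hl
  have h2 : (Complex.imCLM.compLpL 2 (volume : Measure T3)) ∘ x = fun _ => 0 :=
    funext fun n => (isRe_iff _).1 (h n)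
  rw [h2] at h1
  exact tendsto_nhds_unique h1 tendsto_const_nhds

lemma eL_zero : (eL 0 : T3 → ℂ) =ᵐ[volume] fun _ => 1 := by
  have h := ContinuousMap.coeFn_toLp (p := 2) (μ := (volume : Measure T3)) (𝕜 := ℂ) (em 0)
  filter_upwards [h] with q hq
  rw [eL, hq, em]
  have : (![(0 : V).1, (0 : V).2.1, (0 : V).2.2] : Fin 3 → ℤ) = 0 := by
    funext i; fin_cases i <;> rfl
  rw [this, UnitAddTorus.mFourier_zero]; rfl

lemma inner_eL_zero (x : HH) : ⟪eL 0, x⟫_ℂ = ∫ q, (x : T3 → ℂ) q := by
  rw [L2.inner_def]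
  refine integral_congr_ae ?_
  filter_upwards [eL_zero] with q hq
  rw [hq]; simp

end CONV

open CONV in
theorem CONV_proof (hB : BasStmt) : ConvStmt := by
  intro T hT G x hsm hTs hon hstep hx hlim hcomp
  have hre : IsRe (G 0) := isRe_lim (fun n => (hx n).1) hlim
  have h0 : ⟪eL 0, G 0⟫_ℂ = 0 := by
    have h1 := (tendsto_const_nhds (x := eL 0)).inner (𝕜 := ℂ) hlim
    simp only [fun n => (hx n).2] at h1
    exact tendsto_nhds_unique h1 tendsto_const_nhds
  obtain ⟨g, hg⟩ : ∃ g : T3 → ℝ, g = fun q => ((G 0 : T3 → ℂ) q).re := ⟨_, rfl⟩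
  have hg0 : (G 0 : T3 → ℂ) =ᵐ[volume] fun q => (g q : ℂ) := by
    filter_upwards [hre] with q hq
    rw [hg]
    exact Complex.ext (by simp) (by simpa using hq)
  have hst : ∀ s : ℤ, (G (s + 1) : T3 → ℂ) =ᵐ[volume] fun q => (G s : T3 → ℂ) (T q) := by
    intro s
    rw [hstep s]
    exact Lp.coeFn_compMeasurePreserving (G s) hT
  have hG : ∀ s : ℤ, (G s : T3 → ℂ) =ᵐ[volume] fun q => (g ((T ^ s) q) : ℂ) := by
    intro s
    induction s using Int.induction_on with
    | zero => simpa using hg0
    | succ i ih =>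
      have h2 := hT.quasiMeasurePreserving.ae ih
      filter_upwards [hst i, h2] with q h1 h2
      rw [h1, h2, zpow_add_one]; rfl
    | pred i ih =>
      have h1 := hst (-(i : ℤ) - 1)
      rw [sub_add_cancel] at h1
      have h2 := hTs.quasiMeasurePreserving.ae (h1.symm.trans ih)
      filter_upwards [h2] with q h2
      simp only [Equiv.apply_symm_apply] at h2
      rw [h2, zpow_sub_one]; rfl
  have hgm : MemLp g 2 volume := by
    rw [hg]; exact (Lp.memLp (G 0)).re
  refine ⟨T, g, hsm, hT, hgm, ?_, ?_, ?_⟩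
  · rw [inner_eL_zero, integral_congr_ae hg0, integral_complex_ofReal] at h0
    exact_mod_cast h0
  · intro m n
    have h1 := (orthonormal_iff_ite.1 hon) m n
    rw [L2.inner_def] at h1
    have h2 : ∫ q, ⟪(G m : T3 → ℂ) q, (G n : T3 → ℂ) q⟫_ℂ =
        ∫ q, ((g ((T ^ m) q) * g ((T ^ n) q) : ℝ) : ℂ) := by
      refine integral_congr_ae ?_
      filter_upwards [hG m, hG n] with q h1 h2
      rw [h1, h2]; simp [mul_comm]
    rw [h2, integral_complex_ofReal] at h1
    have h3 : ((∫ q, g ((T ^ m) q) * g ((T ^ n) q) : ℝ) : ℂ) = ((if m = n then 1 else 0 : ℝ) : ℂ) := by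
      refine h1.trans ?_
      split_ifs <;> simp
    exact_mod_cast h3
  · intro h hm hint horth
    have hc := hm.coeFn_toLp
    have hz : hm.toLp h = 0 := by
      refine hB.2.1 _ fun k => ?_
      by_cases hk : k = 0
      · rw [hk, inner_eL_zero, integral_congr_ae hc, hint]
      · refine hcomp _ (fun s => ?_) k hk
        rw [L2.inner_def, ← horth s]
        refine integral_congr_ae ?_
        filter_upwards [hG s, hc] with q h1 h2
        rw [h1, h2]; simp
    rw [hz] at hc
    exact hc.symm.trans (Lp.coeFn_zero _ _ _)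

end Crest.Agent.R81
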