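import Crest.Agent.R81.Defs

/-! # Row 81, task DEC: plateaus and gaps -/

set_option autoImplicit false

open Finset MeasureTheory Filter Topology
open scoped ContDiff ComplexConjugate InnerProductSpace Classical
open Crest.AnalysisR.Torus3
open Crest.Agent.R75 (ee)

namespace Crest.Agent.R81

namespace DEC

lemma ee_add (x y : ℝ) : ee (x + y) = ee x * ee y := by
  simp only [ee]
  rw [← Complex.exp_add]
  congr 1
  push_cast
  ring

lemma norm_ee (x : ℝ) : ‖ee x‖ = 1 := by
  have : ee x = Complex.exp (((2 * Real.pi * x : ℝ) : ℂ) * Complex.I) := by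
    simp only [ee]
    congr 1
    push_cast
    ring
  rw [this, Complex.norm_exp_ofReal_mul_I]

lemma continuous_ee : Continuous ee := by
  unfold ee
  fun_prop

/-- The plateaus. -/
def S (Q : ℕ) (η : ℝ) : Set ℝ := {y | Int.fract ((Q : ℝ) * y) ∈ Set.Icc η (1 - η)}

lemma measurableSet_S (Q : ℕ) (η : ℝ) : MeasurableSet (S Q η) := by
  have h : Measurable fun y : ℝ => Int.fract ((Q : ℝ) * y) :=
    measurable_fract.comp (measurable_const.mul measurable_id)
  exact h measurableSet_Icc

lemma ii_ind {E : Type} [NormedAddCommGroup E] {g : ℝ → E} (hg : Continuous g) {T : Set ℝ}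
    (hT : MeasurableSet T) (a b : ℝ) : IntervalIntegrable (T.indicator g) volume a b :=
  ⟨(hg.intervalIntegrable a b).1.indicator hT, (hg.intervalIntegrable a b).2.indicator hT⟩

lemma split {E : Type} [NormedAddCommGroup E] [NormedSpace ℝ E] {Q : ℕ} {η : ℝ} (hQ : 0 < Q)
    (h0 : 0 < η) (h1 : η < 1 / 2) {g : ℝ → E} (hg : Continuous g) :
    ∫ y in (0 : ℝ)..1, (S Q η).indicator g y =
      ∑ i ∈ range Q, (Q : ℝ)⁻¹ • ∫ s in η..(1 - η), g (((i : ℝ) + s) / Q) := by
  have hQ' : (Q : ℝ) ≠ 0 := by positivity
  have hsum := intervalIntegral.sum_integral_adjacent_intervals (μ := volume)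
    (f := (S Q η).indicator g) (a := fun k : ℕ => (k : ℝ) / Q) (n := Q)
    (fun k _ => ii_ind hg (measurableSet_S Q η) _ _)
  simp only [Nat.cast_zero, zero_div, div_self hQ'] at hsum
  rw [← hsum]
  refine Finset.sum_congr rfl fun i _ => ?_
  have h2 := intervalIntegral.integral_comp_div_add (a := 0) (b := 1) ((S Q η).indicator g) hQ'
    ((i : ℝ) / Q)
  have e1 : (0 : ℝ) / Q + i / Q = i / Q := by simp
  have e2 : (1 : ℝ) / Q + i / Q = ((i + 1 : ℕ) : ℝ) / Q := by push_cast; ring
  rw [e1, e2] at h2
  have h3 : ∫ x in (0 : ℝ)..1, (S Q η).indicator g (x / Q + i / Q) =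
      ∫ s in η..(1 - η), g (((i : ℝ) + s) / Q) := by
    rw [intervalIntegral.integral_of_le zero_le_one, intervalIntegral.integral_of_le (by linarith),
      integral_Ioc_eq_integral_Ioo, ← integral_Icc_eq_integral_Ioc]
    have h4 : ∀ x ∈ Set.Ioo (0 : ℝ) 1, (S Q η).indicator g (x / Q + i / Q) =
        (Set.Icc η (1 - η)).indicator (fun s => g (((i : ℝ) + s) / Q)) x := by
      intro x hx
      have h5 : Int.fract ((Q : ℝ) * (x / Q + i / Q)) = x := by
        have : (Q : ℝ) * (x / Q + i / Q) = x + (i : ℕ) := by field_simp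
        rw [this, Int.fract_add_natCast, Int.fract_eq_self.mpr ⟨hx.1.le, hx.2⟩]
      have h6 : x / Q + i / Q = ((i : ℝ) + x) / Q := by ring
      by_cases hm : x ∈ Set.Icc η (1 - η)
      · rw [Set.indicator_of_mem hm, Set.indicator_of_mem (by simpa [S, h5] using hm), h6]
      · rw [Set.indicator_of_notMem hm, Set.indicator_of_notMem (by simpa [S, h5] using hm)]
    rw [setIntegral_congr_fun measurableSet_Ioo h4, setIntegral_indicator measurableSet_Icc]
    congr 2
    ext x
    simp only [Set.mem_inter_iff, Set.mem_Ioo, Set.mem_Icc]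
    constructor
    · exact fun h => h.2
    · exact fun h => ⟨⟨by linarith [h.1], by linarith [h.2]⟩, h⟩
  rw [← h3, h2, smul_smul, inv_mul_cancel₀ hQ', one_smul]

end DEC

open DEC in
theorem DEC_proof : DecStmt := by
  intro Q w η U v hQ h0 h1 hP lm a Γ
  have hQ' : (Q : ℝ) ≠ 0 := by positivity
  have hU : Continuous U := hP.sU.1.continuous
  have hv : Continuous v := hP.sv.1.continuous
  have hS := measurableSet_S Q η
  set g0 : ℝ → ℂ := fun y => ee (lm * Γ * U y + a * v y) with hg0
  have hg0c : Continuous g0 := continuous_ee.comp (by fun_prop)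
  set f : ℝ → ℂ := (S Q η)ᶜ.indicator g0 with hf
  have hL2 : MemLp f 2 (volume.restrict (Set.Ioc (0 : ℝ) 1)) := by
    refine MemLp.indicator hS.compl ?_
    refine MemLp.of_bound hg0c.aestronglyMeasurable 1 (Eventually.of_forall fun x => ?_)
    exact (norm_ee _).le
  have hpar := hasSum_sq_fourierCoeffOn zero_lt_one hL2
  have hint : ∫ x in (0 : ℝ)..1, ‖f x‖ ^ 2 = 2 * η := by
    have e : (fun x => ‖f x‖ ^ 2) = fun x => 1 - (S Q η).indicator (fun _ => (1 : ℝ)) x := by
      funext x
      by_cases hx : x ∈ S Q η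
      · simp [hf, hx]
      · simp [hf, hx, hg0, norm_ee]
    rw [e, intervalIntegral.integral_sub (by simp) (ii_ind continuous_const hS _ _),
      split hQ h0 h1 continuous_const]
    simp only [intervalIntegral.integral_const, sub_zero, smul_eq_mul, mul_one, Finset.sum_const,
      Finset.card_range, nsmul_eq_mul]
    field_simp
    ring
  rw [hint] at hpar
  refine ⟨fun j => fourierCoeffOn zero_lt_one f j, fun F => ?_, fun j => ?_⟩
  · have := sum_le_hasSum F (fun i _ => by positivity) hpar
    simpa using this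
  · set g : ℝ → ℂ := fun y => ee (lm * Γ * U y + a * v y - j * y) with hg
    have hgc : Continuous g := continuous_ee.comp (by fun_prop)
    have hgap : fourierCoeffOn zero_lt_one f j = ∫ y in (0 : ℝ)..1, (S Q η)ᶜ.indicator g y := by
      rw [fourierCoeffOn_eq_integral]
      simp only [sub_zero, div_one, one_smul]
      congr 1
      funext x
      rw [fourier_coe_apply]
      by_cases hx : x ∈ S Q η
      · simp [hf, hx]
      · rw [hf, Set.indicator_of_mem (by simpa using hx), Set.indicator_of_mem (by simpa using hx),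
          hg0, hg, smul_eq_mul]
        simp only [ee]
        rw [← Complex.exp_add]
        congr 1
        push_cast
        ring
    have hcf : cf lm a Γ U v j = (∫ y in (0 : ℝ)..1, (S Q η).indicator g y) +
        ∫ y in (0 : ℝ)..1, (S Q η)ᶜ.indicator g y := by
      rw [← intervalIntegral.integral_add (ii_ind hgc hS _ _) (ii_ind hgc hS.compl _ _)]
      simp only [Set.indicator_self_add_compl_apply]
      rfl
    beta_reduce
    rw [hcf, hgap, split hQ h0 h1 hgc]
    congr 1
    rw [dft, mul_assoc, Finset.sum_mul, Finset.mul_sum]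
    refine Finset.sum_congr rfl fun i _ => ?_
    rw [Complex.real_smul]
    congr 1
    · push_cast; rfl
    · rw [← intervalIntegral.integral_const_mul]
      refine intervalIntegral.integral_congr fun s hs => ?_
      rw [Set.uIcc_of_le (by linarith)] at hs
      have e1 := hP.eU i s hs.1 hs.2
      have e2 := hP.ev i s hs.1 hs.2
      simp only [Int.cast_natCast] at e1 e2
      simp only [hg]
      rw [e1, e2, ← ee_add]
      congr 1
      field_simp
      ring

end Crest.Agent.R81
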