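import Crest.Agent.R81.Defs

/-! R81, task DQ: smooth difference quotient. -/

set_option autoImplicit false

open Finset MeasureTheory Filter Topology
open scoped ContDiff ComplexConjugate InnerProductSpace Classical
open Crest.AnalysisR.Torus3
open Crest.Agent.R75 (ee)

namespace Crest.Agent.R81

namespace DQ

theorem key (n : ℕ) : ∀ (E : Type) [NormedAddCommGroup E] [NormedSpace ℝ E] [CompleteSpace E]
    (f : (ℝ × ℝ) × ℝ → E), ContDiff ℝ n f →
    ContDiff ℝ n (fun x : ℝ × ℝ => ∫ s in (0 : ℝ)..1, f (x, s)) := by
  induction n with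
  | zero =>
    intro E _ _ _ f hf
    have hc : Continuous f := hf.continuous
    simp only [CharP.cast_eq_zero, contDiff_zero]
    exact intervalIntegral.continuous_parametric_intervalIntegral_of_continuous'
      (f := fun x s => f (x, s)) hc 0 1
  | succ n ih =>
    intro E _ _ _ f hf
    set f' : (ℝ × ℝ) × ℝ → (ℝ × ℝ) →L[ℝ] E :=
      fun p => (fderiv ℝ f p).comp (ContinuousLinearMap.inl ℝ (ℝ × ℝ) ℝ) with hf'
    have hf1 : ContDiff ℝ n (fderiv ℝ f) := hf.fderiv_right (by push_cast; exact le_rfl)
    have hf'c : ContDiff ℝ n f' := hf1.clm_comp contDiff_const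
    have hdiff : Differentiable ℝ f := hf.differentiable (by simp)
    have hD : ∀ x₀ : ℝ × ℝ, HasFDerivAt (fun x : ℝ × ℝ => ∫ s in (0 : ℝ)..1, f (x, s))
        (∫ s in (0 : ℝ)..1, f' (x₀, s)) x₀ := by
      intro x₀
      obtain ⟨C, hC⟩ := ((isCompact_closedBall x₀ 1).prod (isCompact_uIcc (a := (0 : ℝ)) (b := 1))).exists_bound_of_continuousOn hf'c.continuous.continuousOn
      refine intervalIntegral.hasFDerivAt_integral_of_dominated_of_fderiv_le
        (F := fun x s => f (x, s)) (F' := fun x s => f' (x, s)) (bound := fun _ => C)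
        (s := Metric.closedBall x₀ 1) (Metric.closedBall_mem_nhds x₀ one_pos) ?_ ?_ ?_ ?_ ?_ ?_
      · exact Eventually.of_forall fun x =>
          (hf.continuous.comp (Continuous.prodMk_right x)).aestronglyMeasurable
      · exact (hf.continuous.comp (Continuous.prodMk_right x₀)).intervalIntegrable _ _
      · exact (hf'c.continuous.comp (Continuous.prodMk_right x₀)).aestronglyMeasurable
      · exact Eventually.of_forall fun t ht x hx => hC (x, t) ⟨hx, Set.uIoc_subset_uIcc ht⟩
      · exact intervalIntegrable_const
      · refine Eventually.of_forall fun t _ x _ => ?_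
        exact (hdiff (x, t)).hasFDerivAt.comp x (hasFDerivAt_prodMk_left x t)
    have hfd : fderiv ℝ (fun x : ℝ × ℝ => ∫ s in (0 : ℝ)..1, f (x, s)) =
        fun x₀ => ∫ s in (0 : ℝ)..1, f' (x₀, s) := funext fun x₀ => (hD x₀).fderiv
    push_cast
    rw [contDiff_succ_iff_fderiv]
    refine ⟨fun x => (hD x).differentiableAt, by simp, ?_⟩
    rw [hfd]
    exact ih _ f' hf'c

end DQ

theorem DQ_proof : DqStmt := by
  intro U hU
  have hU1 : ContDiff ℝ ∞ (deriv U) := hU.1.iterate_deriv 1
  have hdiff : Differentiable ℝ U := hU.1.differentiable (by simp)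
  have hper : Function.Periodic (deriv U) 1 := by
    intro y
    have : (fun x => U (x + 1)) = U := funext hU.2
    rw [← deriv_comp_add_const, this]
  refine ⟨fun x => ∫ s in (0 : ℝ)..1, deriv U (x.2 + s * x.1), ?_, ?_, ?_⟩
  · rw [contDiff_infty]
    intro n
    refine DQ.key n ℝ (fun p => deriv U (p.1.2 + p.2 * p.1.1)) ?_
    refine (hU1.of_le (by exact_mod_cast le_top)).comp ?_
    fun_prop
  · intro h y k
    refine intervalIntegral.integral_congr fun s _ => ?_
    have := hper.int_mul k (y + s * h)
    simp only [mul_one] at this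
    show deriv U (y + k + s * h) = deriv U (y + s * h)
    rw [← this]; congr 1; ring
  · intro h y
    show _ = h * ∫ s in (0 : ℝ)..1, deriv U (y + s * h)
    rw [← intervalIntegral.integral_const_mul]
    have := intervalIntegral.integral_eq_sub_of_hasDerivAt (a := (0 : ℝ)) (b := 1)
      (f := fun s => U (y + s * h)) (f' := fun s => h * deriv U (y + s * h)) (fun s _ => by
        have h1 : HasDerivAt (fun s : ℝ => y + s * h) h s := by
          simpa using ((hasDerivAt_id s).mul_const h).const_add y
        have h2 := (hdiff (y + s * h)).hasDerivAt.comp s h1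
        rw [mul_comm]; exact h2)
      ((continuous_const.mul (hU1.continuous.comp (by fun_prop))).intervalIntegrable _ _)
    rw [this]; simp

end Crest.Agent.R81
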