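import Crest.Agent.R81.Defs
import Crest.Agent.R81.TLA
import Crest.Agent.R75.Fin1

/-! Row 81, task EIG: the modes are eigenfunctions of the conjugated rotation. -/

set_option autoImplicit false

open Finset MeasureTheory Filter Topology
open scoped ContDiff ComplexConjugate InnerProductSpace Classical
open Crest.AnalysisR.Torus3
open Crest.Agent.R75 (ee)

namespace Crest.Agent.R81

namespace EIG

theorem tn_one (G Gi : R3 → R3) (τ N : ℕ) :
    Tn G Gi τ N 1 = (G ∘ fun p => p + beta τ N) ∘ Gi := by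
  funext p
  simp [Tn]

theorem tn_neg (G Gi : R3 → R3) (τ N : ℕ) :
    Tn G Gi τ N (-1) = G ∘ ((fun p => p + (-beta τ N)) ∘ Gi) := by
  funext p
  simp [Tn]

theorem kp_add (hB : BasStmt) (b : R3) (m : V) :
    kp (fun p => p + b) (eL m) = ee (m.1 * b 0 + m.2.1 * b 1 + m.2.2 * b 2) • eL m := by
  have h := (TLA.tl_add b).mf
  apply Lp.ext
  have h1 := TLA.kp_eL_coe h m
  have h2 := Lp.coeFn_smul (ee (m.1 * b 0 + m.2.1 * b 1 + m.2.2 * b 2)) (eL m)
  have h3 := TLA.eL_coe m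
  filter_upwards [h1, h2, h3] with q e1 e2 e3
  rw [e1, e2, Pi.smul_apply, e3, TLA.down_add]
  obtain ⟨p, rfl⟩ := TLA.proj_surj q
  simp only
  rw [← TLA.proj_add, hB.2.2.1, hB.2.2.1, smul_eq_mul, ← R75.Fin1.ee_add]
  congr 1
  simp only [Pi.add_apply]
  ring

end EIG

theorem EIG_proof (_hT : TlaStmt) (hB : BasStmt) : EigStmt := by
  intro G Gi τ N hG hτ
  have h1 : IsTL ((G ∘ fun p => p + beta τ N) ∘ Gi) (G ∘ ((fun p => p + (-beta τ N)) ∘ Gi)) :=
    TLA.tl_comp (TLA.tl_comp hG (TLA.tl_add (beta τ N))) (TLA.tl_symm hG)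
  refine ⟨by rw [EIG.tn_one, EIG.tn_neg]; exact h1, fun m => ?_⟩
  rw [EIG.tn_one, TLA.kp_kp (TLA.tl_symm hG) h1]
  have e : Gi ∘ ((G ∘ fun p => p + beta τ N) ∘ Gi) = (fun p => p + beta τ N) ∘ Gi := by
    funext p
    simp [hG.if']
  rw [e, ← TLA.kp_kp (TLA.tl_add (beta τ N)) (TLA.tl_symm hG), EIG.kp_add hB, map_smul]
  congr 2
  have : (τ : ℝ) ≠ 0 := by positivity
  simp [beta, pos]
  field_simp

end Crest.Agent.R81
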