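import Crest.Agent.R81.Defs
import Crest.Agent.R75.Osc1
import Crest.Agent.R75.Osc2

/-! Task FRES: lower bound for a truncated Fresnel integral. -/

set_option autoImplicit false

open Crest.Agent.R75 Crest.Agent.R75.Fin1

namespace Crest.Agent.R81

namespace FRES

theorem core {T a b : ℝ} (hT : 0 < T) (ha : a ≤ -T) (hb : T ≤ b) :
    1 - 2 / T ≤ ‖∫ u in a..b, ee (u ^ 2 / 2)‖ := by
  have hc : Continuous fun u : ℝ => ee (u ^ 2 / 2) := continuous_ee.comp (by fun_prop)
  have d1 : ∀ x : ℝ, HasDerivAt (fun u : ℝ => u ^ 2 / 2) x x := fun x => by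
    simpa using (hasDerivAt_pow 2 x).div_const 2
  have d2 : ∀ x : ℝ, HasDerivAt (fun u : ℝ => u) ((fun _ => (1 : ℝ)) x) x := fun x =>
    hasDerivAt_id x
  have h1 := A.fdt (φ' := fun u => u) ha hT d1 d2 continuous_const
    (Or.inl fun _ _ => zero_le_one) (Or.inr fun x hx => hx.2)
  have h2 := A.fdt (φ' := fun u => u) hb hT d1 d2 continuous_const
    (Or.inl fun _ _ => zero_le_one) (Or.inl fun x hx => hx.1)
  have h3 := A.fresnel hT
  have e : ee (1 / 8) = (∫ u in a..b, ee (u ^ 2 / 2)) - (∫ u in a..(-T), ee (u ^ 2 / 2))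
      - (∫ u in T..b, ee (u ^ 2 / 2)) - ((∫ u in (-T)..T, ee (u ^ 2 / 2)) - ee (1 / 8)) := by
    rw [← intervalIntegral.integral_add_adjacent_intervals (hc.intervalIntegrable a (-T))
      (hc.intervalIntegrable (-T) b), ← intervalIntegral.integral_add_adjacent_intervals
      (hc.intervalIntegrable (-T) T) (hc.intervalIntegrable T b)]
    ring
  have h4 := norm_ee (1 / 8)
  rw [e] at h4
  have h5 := (norm_sub_le _ _).trans (add_le_add ((norm_sub_le _ _).trans
    (add_le_add ((norm_sub_le (∫ u in a..b, ee (u ^ 2 / 2)) _).trans (add_le_add le_rfl h1)) h2)) h3)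
  rw [h4] at h5
  have e2 : 2 / T = 1 / (2 * T) + 1 / (2 * T) + 1 / T := by field_simp; norm_num
  linarith

theorem pos_case {η β t : ℝ} (hη : 0 < η) (hβ : 4 / η ^ 4 ≤ β) (ht : |t| ≤ (1 / 2 - 2 * η) * β) :
    (1 - η) / Real.sqrt β ≤ ‖∫ s in η..(1 - η), ee (β * (s - 1 / 2) ^ 2 / 2 - t * s)‖ := by
  have hβ0 : 0 < β := lt_of_lt_of_le (by positivity) hβ
  set r := Real.sqrt β with hr
  have hr0 : 0 < r := Real.sqrt_pos.mpr hβ0
  have hrr : r ^ 2 = β := Real.sq_sqrt hβ0.le
  have hr1 : 2 / η ^ 2 ≤ r := Real.le_sqrt_of_sq_le (by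
    rw [div_pow, ← pow_mul]; norm_num; exact hβ)
  have e1 : ∀ s : ℝ, ee (β * (s - 1 / 2) ^ 2 / 2 - t * s) =
      ee (-(t / 2) - t ^ 2 / (2 * β)) * ee ((r * s - r * (1 / 2 + t / β)) ^ 2 / 2) := by
    intro s
    rw [← ee_add, ← mul_sub, mul_pow, hrr]
    congr 1
    field_simp
    ring
  simp only [e1]
  rw [intervalIntegral.integral_const_mul, norm_mul, norm_ee, one_mul,
    intervalIntegral.integral_comp_mul_sub (fun u => ee (u ^ 2 / 2)) hr0.ne', norm_smul,
    Real.norm_eq_abs, abs_of_pos (inv_pos.mpr hr0), div_eq_inv_mul]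
  refine mul_le_mul_of_nonneg_left ?_ (inv_pos.mpr hr0).le
  have h1 : |t / β| ≤ 1 / 2 - 2 * η := by
    rw [abs_div, abs_of_pos hβ0, div_le_iff₀ hβ0]; exact ht
  obtain ⟨h2, h3⟩ := abs_le.mp h1
  refine le_trans ?_ (core (T := η * r) (by positivity) (by nlinarith) (by nlinarith))
  have : 2 / (η * r) ≤ η := by
    rw [div_le_iff₀ (by positivity)]
    rw [div_le_iff₀ (by positivity)] at hr1
    nlinarith
  linarith

end FRES

theorem FRES_proof : FresStmt := by
  intro η hη _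
  refine ⟨4 / η ^ 4, by positivity, fun β t hβ ht => ?_⟩
  rcases le_total 0 β with h | h
  · rw [abs_of_nonneg h] at hβ ht ⊢
    exact FRES.pos_case hη hβ ht
  · rw [abs_of_nonpos h] at hβ ht ⊢
    have h1 := FRES.pos_case (t := -t) hη hβ (by rwa [abs_neg])
    rw [← A.norm_integral_ee_neg] at h1
    refine h1.trans (le_of_eq ?_)
    congr 2
    funext s
    congr 1
    ring

end Crest.Agent.R81
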