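import Crest.Agent.R81.Defs

set_option autoImplicit false

open Finset MeasureTheory Filter Topology
open scoped ContDiff ComplexConjugate InnerProductSpace Classical
open Crest.AnalysisR.Torus3
open Crest.Agent.R75 (ee)

namespace Crest.Agent.R81

theorem FRESH_proof (hT : TlaStmt) (hB : BasStmt) : FreshStmt := by
  intro G Gi n δ hG hδ
  obtain ⟨-, -, -, -, -, -, -, -, -, tsymm, -, tinner, tnorm, -, -, tinv, t0, -⟩ := hT
  obtain ⟨hon, -, -, -, happ⟩ := hB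
  choose S hS1 hS2 using fun m₀ : V => happ (kp G (eL m₀)) δ hδ
  let box : Finset V := ((Finset.Icc (-(n : ℤ)) n) ×ˢ (Finset.Icc (-(n : ℤ)) n) ×ˢ
    (Finset.Icc (-(n : ℤ)) n)).erase 0
  refine ⟨box.biUnion S, ?_, ?_⟩
  · intro h
    obtain ⟨m₀, hm₀, h0⟩ := Finset.mem_biUnion.1 h
    have hne : m₀ ≠ 0 := (Finset.mem_erase.1 hm₀).1
    apply hS1 m₀ 0 h0
    conv_lhs => rw [← t0 G Gi hG]
    rw [tinner G Gi hG]
    exact hon.2 hne.symm
  · intro m₀ hne h1 h2 h3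
    have hm₀ : m₀ ∈ box := by
      refine Finset.mem_erase.2 ⟨hne, ?_⟩
      simp only [Finset.mem_product, Finset.mem_Icc]
      exact ⟨abs_le.1 h1, abs_le.1 h2, abs_le.1 h3⟩
    refine ⟨∑ m ∈ S m₀, ⟪eL m, kp G (eL m₀)⟫_ℂ • kp Gi (eL m), ?_, ?_⟩
    · refine Submodule.sum_mem _ fun m hm => Submodule.smul_mem _ _ (Submodule.subset_span ?_)
      exact ⟨m, Finset.mem_coe.2 (Finset.mem_biUnion.2 ⟨m₀, hm₀, hm⟩), rfl⟩
    · have e : eL m₀ - ∑ m ∈ S m₀, ⟪eL m, kp G (eL m₀)⟫_ℂ • kp Gi (eL m) =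
          kp Gi (kp G (eL m₀) - ∑ m ∈ S m₀, ⟪eL m, kp G (eL m₀)⟫_ℂ • eL m) := by
        rw [map_sub, tinv G Gi hG, map_sum]
        simp only [map_smul]
      rw [e, tnorm Gi G (tsymm G Gi hG)]
      exact hS2 m₀

end Crest.Agent.R81
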