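import Crest.Agent.R81.Defs

set_option autoImplicit false

open Finset MeasureTheory Filter Topology
open scoped ContDiff ComplexConjugate InnerProductSpace Classical
open Crest.AnalysisR.Torus3
open Crest.Agent.R75 (ee)

namespace Crest.Agent.R81

namespace FRQ

noncomputable abbrev mu : Measure UnitAddCircle := @AddCircle.haarAddCircle 1 ⟨one_pos⟩

def AA (τ : ℕ) (S : Finset ℤ) : Set UnitAddCircle := {θ | ⌊(τ : ℝ) * rep θ⌋ ∈ S}

lemma rep_meas : Measurable rep :=
  measurable_subtype_coe.comp (AddCircle.measurableEquivIco (1 : ℝ) 0).measurable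

lemma rep_mem (θ : UnitAddCircle) : 0 ≤ rep θ ∧ rep θ < 1 := by
  have := (AddCircle.equivIco (1 : ℝ) 0 θ).2
  simpa [rep] using this

lemma rep_coe {x : ℝ} (h0 : 0 ≤ x) (h1 : x < 1) : rep (x : UnitAddCircle) = x := by
  unfold rep
  rw [AddCircle.equivIco_coe_eq (show x ∈ Set.Ico (0 : ℝ) (0 + 1) from ⟨h0, by linarith⟩)]

lemma coe_rep (θ : UnitAddCircle) : ((rep θ : ℝ) : UnitAddCircle) = θ := AddCircle.coe_equivIco

lemma AA_meas (τ : ℕ) (S : Finset ℤ) : MeasurableSet (AA τ S) := by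
  have : Measurable fun θ : UnitAddCircle => ⌊(τ : ℝ) * rep θ⌋ :=
    (rep_meas.const_mul _).floor
  exact this (MeasurableSet.of_discrete (s := (S : Set ℤ)))

lemma ind_eq (τ : ℕ) (S : Finset ℤ) :
    ind τ S = indicatorConstLp 2 (AA_meas τ S) (measure_ne_top mu _) (1 : ℂ) := by
  unfold ind
  exact dif_pos (AA_meas τ S)

lemma mu_eq : mu = volume := by
  rw [AddCircle.volume_eq_smul_haarAddCircle]; simp

lemma mu_AA (τ : ℕ) (S : Finset ℤ) (hτ : 0 < τ) (hS : S ⊆ Finset.Ico (0 : ℤ) τ) :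
    mu.real (AA τ S) = (S.card : ℝ) / τ := by
  have hτ' : (0 : ℝ) < τ := by exact_mod_cast hτ
  have h1 : mu (AA τ S) = volume (⋃ k ∈ S, Set.Ico ((k : ℝ) / τ) ((k + 1) / τ)) := by
    rw [mu_eq, ← (UnitAddCircle.measurePreserving_mk 0).measure_preimage
      (AA_meas τ S).nullMeasurableSet, ← Measure.restrict_congr_set Ico_ae_eq_Ioc,
      Measure.restrict_apply' measurableSet_Ico]
    congr 1
    ext x
    simp only [Set.mem_inter_iff, Set.mem_preimage, AA, Set.mem_ofPred_eq, Set.mem_Ico, zero_add,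
      Set.mem_iUnion, exists_prop]
    constructor
    · rintro ⟨h, h0, h1⟩
      rw [rep_coe h0 h1] at h
      refine ⟨_, h, ?_, ?_⟩
      · rw [div_le_iff₀ hτ', mul_comm]; exact Int.floor_le _
      · rw [lt_div_iff₀ hτ', mul_comm]; exact Int.lt_floor_add_one _
    · rintro ⟨k, hk, ha, hb⟩
      have hk' := Finset.mem_Ico.1 (hS hk)
      rw [div_le_iff₀ hτ'] at ha
      rw [lt_div_iff₀ hτ'] at hb
      have hk0 : (0 : ℝ) ≤ k := by exact_mod_cast hk'.1
      have hk1 : (k : ℝ) + 1 ≤ τ := by exact_mod_cast hk'.2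
      have h0 : 0 ≤ x := by
        by_contra hx
        push Not at hx
        nlinarith
      have h1 : x < 1 := by
        by_contra hx
        push Not at hx
        nlinarith
      refine ⟨?_, h0, h1⟩
      rw [rep_coe h0 h1]
      have : ⌊(τ : ℝ) * x⌋ = k := by
        rw [Int.floor_eq_iff]; constructor <;> linarith
      rwa [this]
  rw [Measure.real, h1, measure_biUnion_finset]
  · have : ∀ k ∈ S, volume (Set.Ico ((k : ℝ) / τ) ((k + 1) / τ)) = ENNReal.ofReal (1 / τ) := by
      intro k _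
      rw [Real.volume_Ico]; congr 1; ring
    rw [Finset.sum_congr rfl this, Finset.sum_const, nsmul_eq_mul, ENNReal.toReal_mul,
      ENNReal.toReal_ofReal (by positivity)]
    simp [div_eq_mul_inv]
  · intro k _ k' _ hne
    refine Set.disjoint_left.2 fun x hx hx' => hne ?_
    obtain ⟨ha, hb⟩ := hx
    obtain ⟨ha', hb'⟩ := hx'
    rw [div_le_iff₀ hτ'] at ha ha'
    rw [lt_div_iff₀ hτ'] at hb hb'
    have e1 : k < k' + 1 := by exact_mod_cast (show (k : ℝ) < k' + 1 by linarith)
    have e2 : k' < k + 1 := by exact_mod_cast (show (k' : ℝ) < k + 1 by linarith)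
    omega
  · intro k _; exact measurableSet_Ico

lemma ee_add (x y : ℝ) : ee (x + y) = ee x * ee y := by
  unfold ee; rw [← Complex.exp_add]; congr 1; push_cast; ring

lemma ee_int (k : ℤ) : ee k = 1 := by
  unfold ee
  rw [show (2 * (Real.pi : ℂ) * Complex.I * ((k : ℝ) : ℂ)) = k * (2 * Real.pi * Complex.I) by
    push_cast; ring]
  exact Complex.exp_int_mul_two_pi_mul_I k

lemma ee_norm (x : ℝ) : ‖ee x‖ = 1 := by
  unfold ee
  rw [show (2 * (Real.pi : ℂ) * Complex.I * (x : ℂ)) = ((2 * Real.pi * x : ℝ) : ℂ) * Complex.I by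
    push_cast; ring]
  exact Complex.norm_exp_ofReal_mul_I _

lemma ee_sub (x y : ℝ) : ‖ee x - ee y‖ ≤ 2 * Real.pi * |x - y| := by
  have h : ee x - ee y = ee y * (ee (x - y) - 1) := by
    rw [mul_sub, ← ee_add]; simp
  rw [h, norm_mul, ee_norm, one_mul]
  have h2 : ee (x - y) = Complex.exp (Complex.I * ((2 * Real.pi * (x - y) : ℝ) : ℂ)) := by
    unfold ee; congr 1; push_cast; ring
  rw [h2]
  refine Real.norm_exp_I_mul_ofReal_sub_one_le.trans (le_of_eq ?_)
  rw [Real.norm_eq_abs, abs_mul, abs_of_pos (by positivity : 0 < 2 * Real.pi)]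

lemma cells_card (τ N : ℕ) (m : V) (hz : |m.2.2| ≤ τ) : ((cells τ N m).card : ℤ) = |m.2.2| := by
  unfold cells
  rw [Finset.card_image_of_injOn]
  · rw [Int.card_Ico]
    rcases le_total 0 m.2.2 with h | h
    · rw [min_eq_left (by linarith), max_eq_right (by linarith), abs_of_nonneg h]; omega
    · rw [min_eq_right (by linarith), max_eq_left (by linarith), abs_of_nonpos h]; omega
  · intro k hk k' hk' h
    simp only [Finset.coe_Ico, Set.mem_Ico] at hk hk'
    have hd : (τ : ℤ) ∣ k' - k := Int.ModEq.dvd h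
    have hlt : |k' - k| < τ := by
      rw [abs_lt]
      rcases le_total 0 m.2.2 with h | h
      · rw [min_eq_left (by linarith), max_eq_right (by linarith)] at hk hk'
        rw [abs_of_nonneg h] at hz; constructor <;> omega
      · rw [min_eq_right (by linarith), max_eq_left (by linarith)] at hk hk'
        rw [abs_of_nonpos h] at hz; constructor <;> omega
    have := Int.eq_zero_of_abs_lt_dvd hd hlt
    omega

lemma cells_sub (τ N : ℕ) (m : V) (hτ : 0 < τ) : cells τ N m ⊆ Finset.Ico (0 : ℤ) τ := by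
  intro x hx
  obtain ⟨k, -, rfl⟩ := Finset.mem_image.1 hx
  have : (0 : ℤ) < τ := by exact_mod_cast hτ
  exact Finset.mem_Ico.2 ⟨Int.emod_nonneg _ this.ne', Int.emod_lt_of_pos _ this⟩

end FRQ

open FRQ in
theorem FRQ_proof : FrqStmt := by
  refine ⟨fun τ S S' hτ hS => ?_, fun τ R S hτ hR => ?_, fun τ N m hτ hz =>
    ⟨cells_card τ N m hz, cells_sub τ N m hτ, fun s => ?_⟩⟩
  · rw [ind_eq, ind_eq, L2.inner_indicatorConstLp_one_indicatorConstLp_one]
    have : AA τ S ∩ AA τ S' = AA τ (S ∩ S') := by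
      ext θ; simp [AA]
    rw [this, mu_AA τ _ hτ (Finset.inter_subset_left.trans hS)]
    rfl
  · have hA : AA τ S = AA (τ * R) (refine τ R S) := by
      ext θ
      obtain ⟨h0, h1⟩ := rep_mem θ
      have hτ' : (0 : ℝ) < τ := by exact_mod_cast hτ
      have hR' : (0 : ℝ) < R := by exact_mod_cast hR
      have e : ⌊((τ * R : ℕ) : ℝ) * rep θ⌋ / R = ⌊(τ : ℝ) * rep θ⌋ := by
        rw [← Int.floor_div_natCast]; congr 1; push_cast; field_simp
      simp only [AA, refine, Set.mem_ofPred_eq, Finset.mem_filter, Finset.mem_Ico, e]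
      constructor
      · intro h
        refine ⟨⟨Int.floor_nonneg.2 (by positivity), ?_⟩, h⟩
        rw [Int.floor_lt]; push_cast
        have : 0 < (τ : ℝ) * R := by positivity
        nlinarith
      · exact fun h => h.2
    rw [ind_eq, ind_eq]
    simp only [hA]
  · have hτ' : (0 : ℝ) < τ := by exact_mod_cast hτ
    have hm : mu.real (AA τ (cells τ N m)) = |(m.2.2 : ℝ)| / τ := by
      rw [mu_AA τ _ hτ (cells_sub τ N m hτ)]
      congr 1
      have := cells_card τ N m hz
      exact_mod_cast this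
    rw [ind_eq, L2.inner_indicatorConstLp_one]
    have h1 : ∫ θ in AA τ (cells τ N m), (eK s : UnitAddCircle → ℂ) θ ∂mu =
        ∫ θ in AA τ (cells τ N m), (fourier s θ : ℂ) ∂mu :=
      integral_congr_ae (ae_restrict_of_ae (@coeFn_fourierLp 1 ⟨one_pos⟩ 2 _ s))
    have h2 : ee (s * pos N m / τ) * ((|(m.2.2 : ℝ)| / τ : ℝ) : ℂ) =
        ∫ _ in AA τ (cells τ N m), ee (s * pos N m / τ) ∂mu := by
      rw [setIntegral_const, hm, Complex.real_smul, mul_comm]
    have hi : IntegrableOn (fun θ : UnitAddCircle => (fourier s θ : ℂ)) (AA τ (cells τ N m)) mu :=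
      ((fourier s).continuous.integrable_of_hasCompactSupport
        (HasCompactSupport.of_compactSpace _)).integrableOn
    rw [h1, h2, ← integral_sub hi (integrable_const _)]
    refine (norm_setIntegral_le_of_norm_le_const (C := 2 * Real.pi * |(s : ℝ)| * (|(m.2.2 : ℝ)| / τ))
      (measure_lt_top _ _) fun θ hθ => ?_).trans (le_of_eq (by rw [hm]; ring))
    have hθ' : ⌊(τ : ℝ) * rep θ⌋ ∈ cells τ N m := hθ
    obtain ⟨k, hk, hk'⟩ := Finset.mem_image.1 hθ'
    have hf : (fourier s θ : ℂ) = ee (s * (rep θ + (k / (τ : ℤ) : ℤ))) := by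
      rw [show (s : ℝ) * (rep θ + (k / (τ : ℤ) : ℤ)) = s * rep θ + ((s * (k / (τ : ℤ)) : ℤ) : ℝ) by
        push_cast; ring, ee_add, ee_int, mul_one]
      conv_lhs => rw [← coe_rep θ]
      rw [fourier_coe_apply]
      unfold ee; congr 1; push_cast; ring
    rw [hf]
    refine (ee_sub _ _).trans ?_
    have hdm : ((k % (τ : ℤ) : ℤ) : ℝ) + τ * ((k / (τ : ℤ) : ℤ) : ℝ) = k := by
      exact_mod_cast Int.emod_add_mul_ediv k τ
    have ha := Int.floor_le ((τ : ℝ) * rep θ)
    have hb := Int.lt_floor_add_one ((τ : ℝ) * rep θ)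
    rw [← hk'] at ha hb
    have hkk : (pos N m : ℝ) - |(m.2.2 : ℝ)| ≤ k ∧ (k : ℝ) + 1 ≤ pos N m + |(m.2.2 : ℝ)| := by
      rw [Finset.mem_Ico] at hk
      have e1 : pos N m - |m.2.2| ≤ k ∧ k + 1 ≤ pos N m + |m.2.2| := by
        rcases le_total 0 m.2.2 with h | h
        · rw [min_eq_left (by linarith), max_eq_right (by linarith)] at hk
          rw [abs_of_nonneg h]; constructor <;> omega
        · rw [min_eq_right (by linarith), max_eq_left (by linarith)] at hk
          rw [abs_of_nonpos h]; constructor <;> omega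
      exact_mod_cast e1
    have e : (s : ℝ) * (rep θ + (k / (τ : ℤ) : ℤ)) - s * pos N m / τ =
        s * ((τ * rep θ + τ * ((k / (τ : ℤ) : ℤ) : ℝ) - pos N m) / τ) := by
      field_simp
    have hfin : |(τ : ℝ) * rep θ + τ * ((k / (τ : ℤ) : ℤ) : ℝ) - pos N m| ≤ |(m.2.2 : ℝ)| := by
      rw [abs_le]; constructor <;> linarith [hkk.1, hkk.2]
    rw [e, abs_mul, mul_assoc (2 * Real.pi), abs_div, abs_of_pos hτ']
    exact mul_le_mul_of_nonneg_left (mul_le_mul_of_nonneg_left
      (div_le_div_of_nonneg_right hfin hτ'.le) (abs_nonneg _)) (by positivity)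

end Crest.Agent.R81
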