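import Crest.Agent.R81.Defs
import Crest.Agent.R75.Fin1

set_option autoImplicit false

open Finset MeasureTheory Filter Topology
open scoped ContDiff ComplexConjugate InnerProductSpace Classical
open Crest.AnalysisR.Torus3
open Crest.Agent.R75 (ee)

namespace Crest.Agent.R81

namespace GS1

open Crest.Agent.R75.Fin1

lemma shift (f : ℕ → ℂ) (Q : ℕ) (hf : ∀ k, f (k + Q) = f k) (l : ℕ) :
    ∑ h ∈ range Q, f (l + h) = ∑ h ∈ range Q, f h := by
  induction l with
  | zero => simp
  | succ l ih =>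
    rw [← ih]
    have h1 := Finset.sum_range_succ (fun h => f (l + h)) Q
    have h2 := Finset.sum_range_succ' (fun h => f (l + h)) Q
    simp only [add_zero, hf] at h1 h2
    have h3 : ∑ h ∈ range Q, f (l + 1 + h) = ∑ h ∈ range Q, f (l + (h + 1)) :=
      sum_congr rfl fun h _ => by rw [add_assoc, add_comm 1 h]
    rw [h3]
    linear_combination h1 - h2

lemma ee_nat_mul (i : ℕ) (u : ℝ) : ee (i * u) = ee u ^ i := by
  rw [ee, ee, ← Complex.exp_nat_mul]; push_cast; congr 1; ring

lemma ee_zero : ee 0 = 1 := by simp [ee]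

lemma geom (Q : ℕ) (hQ : 0 < Q) (c : ℤ) :
    ∑ l ∈ range Q, ee (l * (c / Q)) = if (Q : ℤ) ∣ c then (Q : ℂ) else 0 := by
  have hQ' : (Q : ℝ) ≠ 0 := by positivity
  split_ifs with h
  · obtain ⟨d, rfl⟩ := h
    have : ∀ l ∈ range Q, ee (l * ((((Q : ℤ) * d : ℤ) : ℝ) / Q)) = 1 := by
      intro l _
      rw [← ee_int (l * d)]
      congr 1
      push_cast
      field_simp
    rw [sum_congr rfl this]
    simp
  · simp only [ee_nat_mul]
    have h1 : ee ((c : ℝ) / Q) ≠ 1 := by
      intro h1
      unfold ee at h1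
      rw [Complex.exp_eq_one_iff] at h1
      obtain ⟨n, hn⟩ := h1
      apply h
      refine ⟨n, ?_⟩
      have hpi : (2 * Real.pi * Complex.I : ℂ) ≠ 0 := by simp [Real.pi_ne_zero]
      have h2 : (((c : ℝ) / Q : ℝ) : ℂ) = n := by
        apply mul_left_cancel₀ hpi
        rw [hn]; ring
      have h3 : (c : ℝ) / Q = n := by exact_mod_cast h2
      rw [div_eq_iff hQ'] at h3
      have h4 : (c : ℝ) = ((Q : ℤ) * n : ℤ) := by rw [h3]; push_cast; ring
      exact_mod_cast h4
    rw [geom_sum_eq h1, ← ee_nat_mul]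
    have : (Q : ℝ) * (c / Q) = c := by field_simp
    rw [this, ee_int]
    simp

lemma gauss (n P : ℕ) (hn : 0 < n) (hP : 0 < P) (s i : ℤ) (hs : s = 1 ∨ s = -1) :
    ‖∑ k ∈ range (n * (2 * P)), ee (s * ((k : ℝ) ^ 2 - 2 * k * i) / (4 * P))‖ ^ 2 =
      (n * (2 * P) : ℕ) * (n : ℝ) := by
  have hP' : (P : ℝ) ≠ 0 := by positivity
  have hn' : (n : ℝ) ≠ 0 := by positivity
  set Q := n * (2 * P) with hQ
  have hQ0 : 0 < Q := by positivity
  set f : ℕ → ℂ := fun k => ee (s * ((k : ℝ) ^ 2 - 2 * k * i) / (4 * P)) with hf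
  have hper : ∀ k, f (k + Q) = f k := by
    intro k
    apply ee_congr (s * (k * n + n * n * P - n * i))
    rw [hQ]
    push_cast
    field_simp
    ring
  apply Complex.ofReal_injective
  rw [← Complex.normSq_eq_norm_sq, ← Complex.mul_conj, map_sum, Finset.mul_sum]
  have e1 : ∀ l ∈ range Q, (∑ k ∈ range Q, f k) * conj (f l) =
      ∑ h ∈ range Q, f h * ee (l * (((s * n * h : ℤ) : ℝ) / Q)) := by
    intro l _
    rw [← shift f Q hper l, Finset.sum_mul]
    refine sum_congr rfl fun h _ => ?_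
    simp only [hf]
    rw [← ee_neg, ← ee_add, ← ee_add]
    congr 1
    rw [hQ]
    push_cast
    field_simp
    ring
  rw [sum_congr rfl e1, Finset.sum_comm]
  simp only [← Finset.mul_sum, geom Q hQ0]
  have e2 : ∀ h ∈ range Q, f h * (if (Q : ℤ) ∣ s * n * h then (Q : ℂ) else 0) =
      if 2 * P ∣ h then (Q : ℂ) else 0 := by
    intro h _
    have hiff : (Q : ℤ) ∣ s * n * h ↔ 2 * P ∣ h := by
      have : (Q : ℤ) ∣ s * n * h ↔ (Q : ℤ) ∣ ((n * h : ℕ) : ℤ) := by
        rcases hs with rfl | rfl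
        · simp
        · rw [neg_mul, neg_mul, Int.dvd_neg]; simp
      rw [this, Int.natCast_dvd_natCast, hQ]
      exact Nat.mul_dvd_mul_iff_left hn
    by_cases hd : 2 * P ∣ h
    · rw [if_pos (hiff.mpr hd), if_pos hd]
      obtain ⟨j, rfl⟩ := hd
      have : f (2 * P * j) = 1 := by
        rw [← ee_int (s * (P * j * j - j * i))]
        simp only [hf]
        congr 1
        push_cast
        field_simp
        ring
      rw [this, one_mul]
    · rw [if_neg (fun h' => hd (hiff.mp h')), if_neg hd, mul_zero]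
  rw [sum_congr rfl e2, ← Finset.sum_filter, sum_const]
  have e3 : ((range Q).filter (fun h => 2 * P ∣ h)).card = n := by
    have : (range Q).filter (fun h => 2 * P ∣ h) = (range n).image (fun j => 2 * P * j) := by
      ext h
      simp only [mem_filter, mem_range, mem_image]
      constructor
      · rintro ⟨h1, j, rfl⟩
        refine ⟨j, ?_, rfl⟩
        rw [hQ, mul_comm n] at h1
        exact lt_of_mul_lt_mul_left h1 (Nat.zero_le _)
      · rintro ⟨j, hj, rfl⟩
        refine ⟨?_, j, rfl⟩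
        rw [hQ, mul_comm n]
        exact Nat.mul_lt_mul_of_pos_left hj (by positivity)
    rw [this, card_image_of_injective _ (fun a b hab => Nat.eq_of_mul_eq_mul_left (by positivity) hab),
      card_range]
  rw [e3]
  push_cast
  simp [mul_comm]

end GS1

theorem GS1_proof : Gs1Stmt := by
  intro A
  refine ⟨2 * A.factorial, fun i => ((i % (2 * A.factorial : ℕ) : ℤ) : ℝ) ^ 2 / (2 * (2 * A.factorial : ℕ)),
    by positivity, ?_, ?_⟩
  · intro i
    simp only [Int.add_emod_right]
  · intro a i ha hA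
    have hn : 0 < a.natAbs := Int.natAbs_pos.mpr ha
    have hle : a.natAbs ≤ A := by
      rw [Int.abs_eq_natAbs] at hA
      exact_mod_cast hA
    obtain ⟨P, hP⟩ := Nat.dvd_factorial hn hle
    have hP0 : 0 < P := by
      rcases Nat.eq_zero_or_pos P with h | h
      · rw [h, mul_zero] at hP
        exact absurd hP A.factorial_ne_zero
      · exact h
    have hQ : 2 * A.factorial = a.natAbs * (2 * P) := by rw [hP]; ring
    rw [hQ]
    obtain ⟨s, hs, hsa⟩ : ∃ s : ℤ, (s = 1 ∨ s = -1) ∧ a = s * a.natAbs := by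
      rcases Int.natAbs_eq a with h | h
      · exact ⟨1, Or.inl rfl, by rw [one_mul]; exact h⟩
      · exact ⟨-1, Or.inr rfl, by rw [neg_one_mul]; exact h⟩
    have habs : |(a : ℝ)| = a.natAbs := by
      rw [← Int.cast_abs, Int.abs_eq_natAbs]; simp
    generalize a.natAbs = n at *
    have hP' : (P : ℝ) ≠ 0 := by positivity
    have hn' : (n : ℝ) ≠ 0 := by positivity
    have key := GS1.gauss n P hn hP0 s i hs
    unfold dft
    rw [norm_mul, mul_pow, norm_inv, Complex.norm_natCast, habs]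
    have e : ∀ k ∈ range (n * (2 * P)),
        ee (a * ((((k : ℤ) % (n * (2 * P) : ℕ) : ℤ) : ℝ) ^ 2 / (2 * (n * (2 * P) : ℕ))) -
          (k : ℝ) * ((a * i : ℤ) : ℝ) / (n * (2 * P) : ℕ)) =
        ee (s * ((k : ℝ) ^ 2 - 2 * k * i) / (4 * P)) := by
      intro k hk
      rw [mem_range] at hk
      rw [Int.emod_eq_of_lt (Int.natCast_nonneg k) (by exact_mod_cast hk), hsa]
      congr 1
      push_cast
      field_simp
      ring
    rw [sum_congr rfl e, key]
    push_cast
    field_simp

end Crest.Agent.R81
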