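import Crest.Agent.R81.Defs
import Crest.Agent.R75.Fin1

/-! Task GS2: jitter from a multiplicative character. -/

set_option autoImplicit false

open Finset Crest.Agent.R75 Crest.Agent.R75.Fin1
open scoped Classical

namespace Crest.Agent.R81

namespace GS2

theorem ee_arg {z : ℂ} (hz : ‖z‖ = 1) (a : ℤ) : ee (a * (Complex.arg z / (2 * Real.pi))) = z ^ a := by
  have h := Complex.norm_mul_exp_arg_mul_I z
  rw [hz, Complex.ofReal_one, one_mul] at h
  conv_rhs => rw [← h, ← Complex.exp_int_mul]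
  unfold ee
  congr 1
  have : (Real.pi : ℂ) ≠ 0 := by exact_mod_cast Real.pi_ne_zero
  push_cast
  field_simp

theorem ee_div (q : ℕ) [NeZero q] (k : ℤ) : ee (k / q) = ZMod.stdAddChar (k : ZMod q) := by
  rw [ZMod.stdAddChar_coe]
  unfold ee
  congr 1
  push_cast
  ring

theorem sum_zmod (q : ℕ) [NeZero q] (f : ZMod q → ℂ) : ∑ i ∈ range q, f i = ∑ x, f x :=
  sum_nbij' (fun i => (i : ZMod q)) ZMod.val (fun _ _ => mem_univ _)
    (fun x _ => mem_range.mpr (ZMod.val_lt x)) (fun _ h => ZMod.val_cast_of_lt (mem_range.mp h))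
    (fun x _ => ZMod.natCast_zmod_val x) fun _ _ => rfl

theorem norm_gauss (q : ℕ) [Fact q.Prime] {χ : MulChar (ZMod q) ℂ} (hχ : χ ≠ 1)
    {ψ : AddChar (ZMod q) ℂ} (hψ : ψ ≠ 1) : ‖gaussSum χ ψ‖ = Real.sqrt q := by
  have h := gaussSum_mul_gaussSum_eq_card hχ (AddChar.IsPrimitive.of_ne_one hψ)
  rw [← star_gaussSum_eq, ZMod.card] at h
  have h2 := congrArg norm h
  rw [norm_mul, norm_star, Complex.norm_natCast] at h2
  rw [← h2, Real.sqrt_mul_self (norm_nonneg _)]

end GS2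

theorem GS2_proof : Gs2Stmt := by
  intro b Wd ρ hb
  obtain ⟨q, hq, hW, hqb⟩ := Nat.exists_prime_gt_modEq_one Wd hb.ne'
  haveI := Fact.mk hq
  obtain ⟨χ, hχ⟩ := MulChar.exists_mulChar_orderOf (ZMod q) (n := b)
    (by rw [ZMod.card]; exact (Nat.modEq_iff_dvd' hq.one_le).mp hqb.symm)
    (Complex.isPrimitiveRoot_exp b hb.ne')
  set c : ZMod q → ℂ := fun x => if x = 0 then 1 else χ x with hc
  have cb : ∀ x, c x ^ b = 1 := fun x => by
    simp only [hc]
    split_ifs with h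
    · simp
    · rw [← MulChar.pow_apply' _ hb.ne', ← hχ, pow_orderOf_eq_one,
        MulChar.one_apply (isUnit_iff_ne_zero.mpr h)]
  have cn : ∀ x, ‖c x‖ = 1 := fun x => Complex.norm_eq_one_of_pow_eq_one (cb x) hb.ne'
  have c0 : ∀ x, c x ≠ 0 := fun x h => by have := cn x; rw [h] at this; simp at this
  have hq0 : (q : ℂ) ≠ 0 := by exact_mod_cast hq.ne_zero
  refine ⟨q, fun i : ℤ => Complex.arg (c (i : ZMod q) * ZMod.stdAddChar ((ρ : ZMod q) * (i : ZMod q)))
    / (2 * Real.pi), hq, hW, fun i => by simp, fun a i ha => ?_⟩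
  have e : dft q (fun i : ℤ => Complex.arg (c (i : ZMod q) * ZMod.stdAddChar ((ρ : ZMod q) * (i : ZMod q)))
      / (2 * Real.pi)) a (a * i) =
      (q : ℂ)⁻¹ * ∑ x : ZMod q, c x ^ a * ZMod.stdAddChar (((a * (ρ - i) : ℤ) : ZMod q) * x) := by
    unfold dft
    rw [← GS2.sum_zmod]
    congr 1
    refine sum_congr rfl fun k _ => ?_
    rw [sub_eq_add_neg, ee_add, GS2.ee_arg (by rw [norm_mul, cn, AddChar.norm_apply, one_mul]),
      show -((k : ℝ) * ((a * i : ℤ) : ℝ) / q) = ((-(k * (a * i)) : ℤ) : ℝ) / q by push_cast; ring,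
      GS2.ee_div, mul_zpow, ← AddChar.map_zsmul_eq_zpow, mul_assoc, ← AddChar.map_add_eq_mul]
    simp only [Int.cast_natCast, zsmul_eq_mul]
    congr 2
    push_cast
    ring
  rw [e]
  refine ⟨fun hba hi => ?_, fun hba hi => ?_⟩
  · obtain ⟨k, rfl⟩ := hba
    have h0 : ((b * k * (ρ - i) : ℤ) : ZMod q) = 0 := by
      push_cast
      rw [(ZMod.intCast_eq_intCast_iff _ _ _).mpr hi]; simp
    simp only [h0, zero_mul, AddChar.map_zero_eq_one, zpow_mul, zpow_natCast, cb, one_zpow, mul_one,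
      sum_const, card_univ, ZMod.card, nsmul_eq_mul, inv_mul_cancel₀ hq0, norm_one]
  · have hb' : (0 : ℤ) < b := by exact_mod_cast hb
    obtain ⟨n, hn⟩ := Int.eq_ofNat_of_zero_le (Int.emod_nonneg a hb'.ne')
    have hn0 : n ≠ 0 := fun h => hba (Int.dvd_of_emod_eq_zero (by rw [hn, h]; rfl))
    have hnb : n < b := by have := Int.emod_lt_of_pos a hb'; omega
    have ca : ∀ x, c x ^ a = c x ^ n := fun x => by
      conv_lhs => rw [← Int.emod_add_mul_ediv a b, zpow_add₀ (c0 x), hn, zpow_mul, zpow_natCast,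
        zpow_natCast, cb, one_zpow, mul_one]
    have hs : ((a * (ρ - i) : ℤ) : ZMod q) ≠ 0 := by
      rw [Ne, ZMod.intCast_zmod_eq_zero_iff_dvd]
      intro h
      rcases (Int.prime_iff_natAbs_prime.mpr (by simpa using hq)).dvd_or_dvd h with h | h
      · exact ha h
      · exact hi (Int.modEq_iff_dvd.mpr h)
    have hg := GS2.norm_gauss q (χ := χ ^ n) (pow_ne_one_of_lt_orderOf hn0 (by rwa [hχ]))
      (ZMod.isPrimitive_stdAddChar q hs)
    have e2 : ∑ x : ZMod q, c x ^ a * ZMod.stdAddChar (((a * (ρ - i) : ℤ) : ZMod q) * x) =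
        gaussSum (χ ^ n) (ZMod.stdAddChar.mulShift ((a * (ρ - i) : ℤ) : ZMod q)) + 1 := by
      have : (1 : ℂ) = ∑ x : ZMod q, if x = 0 then 1 else 0 := by simp
      rw [gaussSum, this, ← sum_add_distrib]
      refine sum_congr rfl fun x _ => ?_
      rw [ca, AddChar.mulShift_apply, MulChar.pow_apply' _ hn0]
      by_cases h : x = 0
      · simp [h, hc, hn0, MulChar.map_zero]
      · simp [h, hc]
    rw [e2, norm_mul, norm_inv, Complex.norm_natCast, div_eq_inv_mul]
    refine mul_le_mul_of_nonneg_left ?_ (by positivity)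
    have := norm_sub_le (gaussSum (χ ^ n) (ZMod.stdAddChar.mulShift ((a * (ρ - i) : ℤ) : ZMod q)) + 1) 1
    rw [add_sub_cancel_right, hg, norm_one] at this
    linarith

end Crest.Agent.R81
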