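import Crest.Agent.R81.Defs

set_option autoImplicit false

open Finset MeasureTheory Filter Topology
open scoped ContDiff ComplexConjugate InnerProductSpace Classical
open Crest.AnalysisR.Torus3
open Crest.Agent.R75 (ee)

namespace Crest.Agent.R81

namespace INIT

def M0 : Finset V := {(512, 0, 1), (-512, 0, -1)}

theorem mem_M0 (m : V) : m ∈ M0 ↔ m = (512, 0, 1) ∨ m = (-512, 0, -1) := by
  simp [M0]

theorem cells1 : cells 2 0 (512, 0, 1) = {0} := by
  have : Finset.Ico (0 : ℤ) 1 = {0} := by decide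
  simp [cells, pos, this]

theorem cells2 : cells 2 0 (-512, 0, -1) = {1} := by
  have : Finset.Ico (-1 : ℤ) 0 = {-1} := by decide
  simp [cells, pos, this]

theorem cl (t : ℤ) (m : V) (h : t • m ∈ M0) : m ∈ M0 := by
  obtain ⟨a, y, z⟩ := m
  rw [mem_M0] at h ⊢
  simp only [Prod.smul_mk, smul_eq_mul, Prod.mk.injEq] at h ⊢
  rcases h with ⟨h1, h2, h3⟩ | ⟨h1, h2, h3⟩
  · rcases Int.eq_one_or_neg_one_of_mul_eq_one' h3 with ⟨rfl, rfl⟩ | ⟨rfl, rfl⟩ <;> omega
  · rcases Int.eq_one_or_neg_one_of_mul_eq_neg_one' h3 with ⟨rfl, rfl⟩ | ⟨rfl, rfl⟩ <;> omega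

theorem inv0 : Inv 2 0 512 256 1 512 M0 ∅ ∅ ∅ where
  τpos := by norm_num
  Zle := by norm_num
  DZ := by norm_num
  LD := by norm_num
  ZA := by norm_num
  symM := by
    intro m hm
    rw [mem_M0] at hm ⊢
    rcases hm with rfl | rfl <;> simp
  symP := by simp
  clMP := by
    intro t m _ h
    simp only [Finset.union_empty] at h ⊢
    exact cl t m h
  clX := by
    intro t m _ h
    simp only [Finset.union_empty] at h ⊢
    exact cl t m h
  disB := by simp
  lac := by
    intro m hm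
    simp only [Finset.union_empty] at hm
    rw [mem_M0] at hm
    rcases hm with rfl | rfl <;> simp
  old := by simp
  new := by simp
  bB := by simp
  part :=
    { disj := by
        intro m hm m' hm' hne
        rw [mem_M0] at hm hm'
        rcases hm with rfl | rfl <;> rcases hm' with rfl | rfl
        · exact absurd rfl hne
        · rw [cells1, cells2]; simp
        · rw [cells1, cells2]; simp
        · exact absurd rfl hne
      cover := by
        intro x hx
        have hx' := Finset.mem_Ico.1 hx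
        have : x = 0 ∨ x = 1 := by
          have h1 := hx'.1
          have h2 := hx'.2
          push_cast at h2
          omega
        rcases this with rfl | rfl
        · exact ⟨_, (mem_M0 _).2 (Or.inl rfl), by rw [cells1]; simp⟩
        · exact ⟨_, (mem_M0 _).2 (Or.inr rfl), by rw [cells2]; simp⟩
      len := by
        intro m hm
        rw [mem_M0] at hm
        rcases hm with rfl | rfl <;> simp }
  sib := by simp

theorem Tn_smooth (G Gi : R3 → R3) (hG : ContDiff ℝ ∞ G) (hGi : ContDiff ℝ ∞ Gi) (τ N : ℕ)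
    (σ : ℝ) : ContDiff ℝ ∞ (Tn G Gi τ N σ) :=
  hG.comp (hGi.add contDiff_const)

end INIT

open INIT in
theorem INIT_proof (hT : TlaStmt) (hI : InnStmt) (hJ : JitStmt) (hP : PrfStmt) : InitStmt := by
  have hk : kap 0 ^ 2 = 1 / 256 := by norm_num [kap]
  obtain ⟨Q, N₀, w, 𝓘, hj⟩ := hJ 512 ∅ (kap 0 ^ 2) (by rw [hk]; norm_num) (by rw [hk]; norm_num)
    (by simp)
  obtain ⟨U, v, hp⟩ := hP Q w (kap 0 ^ 2) hj.Qpos hj.per (by rw [hk]; norm_num)
    (by rw [hk]; norm_num)
  refine ⟨⟨2, 0, 512, 256, 1, 512, Q, N₀, M0, ∅, ∅, ∅, ∅, w, 𝓘, U, v, id, id, fun _ => 1⟩,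
    inv0, hj, hp, ?_, ?_, hT.2.2.2.2.2.2.2.1, ?_, ?_, ?_⟩
  · rw [hk]; norm_num
  · norm_num
  · intro m; simp
  · intro m; simp
  · intro L R N' zz Γ σ _ hL _ _ _ _
    have hL0 : 0 < L := lt_of_lt_of_le (by norm_num) hL
    have htl := (hI L Γ U v hL0 hp.sU hp.sv).1
    have h1 : ContDiff ℝ ∞ (Tn id id 2 0 σ) := Tn_smooth _ _ contDiff_id contDiff_id _ _ _
    have h2 : ContDiff ℝ ∞ (Tn (id ∘ gg L Γ U v) (ggI L Γ U v ∘ id) (2 * R) N' σ) :=
      Tn_smooth _ _ htl.sf htl.si _ _ _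
    refine ⟨fun p => Tn (id ∘ gg L Γ U v) (ggI L Γ U v ∘ id) (2 * R) N' σ p - Tn id id 2 0 σ p,
      h2.sub h1, fun k hk => absurd hk (Nat.not_lt_zero k), fun p => ?_⟩
    simp only [add_sub_cancel]

end Crest.Agent.R81
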