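import Crest.Agent.R81.Defs

set_option autoImplicit false

open Finset MeasureTheory Filter Topology
open scoped ContDiff ComplexConjugate InnerProductSpace Classical
open Crest.AnalysisR.Torus3
open Crest.Agent.R75 (ee)

namespace Crest.Agent.R81

namespace INN

lemma ee_add (x y : ℝ) : ee (x + y) = ee x * ee y := by
  unfold ee; rw [← Complex.exp_add]; congr 1; push_cast; ring

lemma ee_neg (x : ℝ) : conj (ee x) = ee (-x) := by
  unfold ee; rw [← Complex.exp_conj]; congr 1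
  simp only [map_mul, Complex.conj_ofReal, Complex.conj_I, map_ofNat]; push_cast; ring

lemma ee_half : ee (1 / 2) = -1 := by
  unfold ee
  rw [show (2 * (Real.pi : ℂ) * Complex.I * ((1 / 2 : ℝ) : ℂ)) = Real.pi * Complex.I by push_cast; ring]
  exact Complex.exp_pi_mul_I

lemma ee_zero : ee 0 = 1 := by simp [ee]

lemma int_ee (z : ℤ) (hz : z ≠ 0) : ∫ y in (0 : ℝ)..1, ee (z * y) = 0 := by
  have hc : (2 * (Real.pi : ℂ) * Complex.I * z) ≠ 0 := by
    have : (z : ℂ) ≠ 0 := by exact_mod_cast hz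
    have hp : (Real.pi : ℂ) ≠ 0 := by exact_mod_cast Real.pi_ne_zero
    simp [this, hp, Complex.I_ne_zero]
  have h : (fun y : ℝ => ee (z * y)) =
      fun y : ℝ => Complex.exp ((2 * (Real.pi : ℂ) * Complex.I * z) * y) := by
    funext y; unfold ee; congr 1; push_cast; ring
  rw [h, integral_exp_mul_complex hc]
  have h1 : Complex.exp ((2 * (Real.pi : ℂ) * Complex.I * z) * ((1 : ℝ) : ℂ)) = 1 := by
    rw [show (2 * (Real.pi : ℂ) * Complex.I * z) * ((1 : ℝ) : ℂ) = z * (2 * Real.pi * Complex.I) by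
      push_cast; ring]
    exact Complex.exp_int_mul_two_pi_mul_I z
  rw [h1]; simp

lemma key (hT : TlaStmt) (f : T3 → ℂ) (hf : Continuous f) (α γ : ℤ) (g : ℝ → ℝ)
    (h : ∀ p : R3, f (proj p) = ee (α * p 0 + γ * p 2 + g (p 1))) :
    ∫ q, f q = if α = 0 ∧ γ = 0 then ∫ y in (0 : ℝ)..1, ee (g y) else 0 := by
  obtain ⟨hs, hadd, -⟩ := hT
  have hsurj : ∀ q : T3, ∃ p, proj p = q := fun q => ⟨_, hs q⟩
  split_ifs with h0
  · obtain ⟨rfl, rfl⟩ := h0
    have hG : ∀ q : T3, f q = (fun θ : UnitAddCircle => f (fun _ => θ)) (q 1) := by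
      intro q
      obtain ⟨p, rfl⟩ := hsurj q
      have : (fun _ : Fin 3 => proj p 1) = proj (fun _ => p 1) := rfl
      simp only [this, h]; simp
    have hc : Continuous (fun θ : UnitAddCircle => f (fun _ => θ)) :=
      hf.comp (continuous_pi fun _ => continuous_id)
    have : IsProbabilityMeasure (volume : Measure UnitAddCircle) := ⟨by simp⟩
    have hmp : MeasurePreserving (fun q : T3 => q 1) volume volume :=
      measurePreserving_eval (fun _ : Fin 3 => (volume : Measure UnitAddCircle)) 1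
    rw [show f = fun q => (fun θ : UnitAddCircle => f (fun _ => θ)) (q 1) from funext hG]
    rw [← integral_map (μ := (volume : Measure T3)) (φ := fun q : T3 => q 1)
      hmp.measurable.aemeasurable hc.aestronglyMeasurable, hmp.map_eq,
      ← UnitAddCircle.intervalIntegral_preimage 0, zero_add]
    refine intervalIntegral.integral_congr fun y _ => ?_
    have : (fun _ : Fin 3 => ((y : ℝ) : UnitAddCircle)) = proj (fun _ => y) := rfl
    simp only [this, h]; simp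
  · by_cases hα : α = 0
    · have hγ : γ ≠ 0 := fun hγ => h0 ⟨hα, hγ⟩
      have hγ' : (γ : ℝ) ≠ 0 := by exact_mod_cast hγ
      refine integral_eq_zero_of_add_right_eq_neg (g := proj ![0, 0, 1 / (2 * γ)]) fun q => ?_
      obtain ⟨p, rfl⟩ := hsurj q
      rw [← hadd, h, h]
      have : (α : ℝ) * (p + ![0, 0, 1 / (2 * (γ : ℝ))]) 0 + γ * (p + ![0, 0, 1 / (2 * (γ : ℝ))]) 2 +
          g ((p + ![0, 0, 1 / (2 * (γ : ℝ))]) 1) = (α * p 0 + γ * p 2 + g (p 1)) + 1 / 2 := by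
        simp; field_simp; ring
      rw [this, ee_add, ee_half]; ring
    · have hα' : (α : ℝ) ≠ 0 := by exact_mod_cast hα
      refine integral_eq_zero_of_add_right_eq_neg (g := proj ![1 / (2 * α), 0, 0]) fun q => ?_
      obtain ⟨p, rfl⟩ := hsurj q
      rw [← hadd, h, h]
      have : (α : ℝ) * (p + ![1 / (2 * (α : ℝ)), 0, 0]) 0 + γ * (p + ![1 / (2 * (α : ℝ)), 0, 0]) 2 +
          g ((p + ![1 / (2 * (α : ℝ)), 0, 0]) 1) = (α * p 0 + γ * p 2 + g (p 1)) + 1 / 2 := by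
        simp; field_simp; ring
      rw [this, ee_add, ee_half]; ring

lemma per_int {U : ℝ → ℝ} (hU : SmPer U) (y : ℝ) (k : ℤ) : U (y + k) = U y := by
  have := hU.2.int_mul k y
  simpa using this

lemma sm_gg (L : ℕ) (Γ : ℝ) {U v : ℝ → ℝ} (hU : SmPer U) (hv : SmPer v) :
    ContDiff ℝ ∞ (gg L Γ U v) := by
  have h1 := hU.1
  have h2 := hv.1
  rw [contDiff_pi]
  intro i
  fin_cases i <;> simp [gg, lam, hh] <;> fun_prop

lemma sm_ggI (L : ℕ) (Γ : ℝ) {U v : ℝ → ℝ} (hU : SmPer U) (hv : SmPer v) :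
    ContDiff ℝ ∞ (ggI L Γ U v) := by
  have h1 := hU.1
  have h2 := hv.1
  rw [contDiff_pi]
  intro i
  fin_cases i <;> simp [ggI, lamI, hh] <;> fun_prop

lemma eqv_gg (L : ℕ) (Γ : ℝ) {U v : ℝ → ℝ} (hU : SmPer U) (hv : SmPer v) : Eqv (gg L Γ U v) := by
  refine ⟨fun κ => ![κ 2 + L * κ 0, κ 0, κ 1], fun p κ => ?_⟩
  funext i
  fin_cases i <;> simp [gg, lam, hh, zc, per_int hU, per_int hv] <;> ring

lemma eqv_ggI (L : ℕ) (Γ : ℝ) {U v : ℝ → ℝ} (hU : SmPer U) (hv : SmPer v) : Eqv (ggI L Γ U v) := by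
  refine ⟨fun κ => ![κ 1, κ 2, κ 0 - L * κ 1], fun p κ => ?_⟩
  funext i
  fin_cases i <;> simp [ggI, lamI, hh, zc, per_int hU, per_int hv] <;> ring

lemma gg_ggI (L : ℕ) (Γ : ℝ) (U v : ℝ → ℝ) (p : R3) : gg L Γ U v (ggI L Γ U v p) = p := by
  funext i
  fin_cases i <;> simp [gg, ggI, lam, lamI, hh]

lemma ggI_gg (L : ℕ) (Γ : ℝ) (U v : ℝ → ℝ) (p : R3) : ggI L Γ U v (gg L Γ U v p) = p := by
  funext i
  fin_cases i <;> simp [gg, ggI, lam, lamI, hh]

lemma main (hT : TlaStmt) (hB : BasStmt) (L : ℕ) (Γ : ℝ) {U v : ℝ → ℝ} (hL : 0 < L) (hU : SmPer U)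
    (hv : SmPer v) (m m' : V) :
    ∫ q, conj (em m' q) * em m (down (gg L Γ U v) q) =
      if m.2.1 + L * m.1 - m'.1 = 0 ∧ m.1 - m'.2.2 = 0 then coef L Γ U v m (m'.2.1 - m.2.2) else 0 := by
  have hE := eqv_gg L Γ hU hv
  have hc : Continuous (down (gg L Γ U v)) := hT.2.2.2.2.1 _ hE (sm_gg L Γ hU hv).continuous
  have hL' : (L : ℝ) ≠ 0 := by exact_mod_cast hL.ne'
  rw [key hT (fun q => conj (em m' q) * em m (down (gg L Γ U v) q))
    ((Complex.continuous_conj.comp (em m').continuous).mul ((em m).continuous.comp hc))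
    (m.2.1 + L * m.1 - m'.1) (m.1 - m'.2.2)
    (fun y => (m.1 + m.2.1 / L) * Γ * U y + m.1 * v y - ((m'.2.1 - m.2.2 : ℤ) : ℝ) * y)]
  · rfl
  · intro p
    rw [hT.2.2.2.1 _ hE, hB.2.2.1, hB.2.2.1, ee_neg, ← ee_add]
    congr 1
    simp [gg, lam, hh]
    field_simp
    ring

end INN

open INN in
theorem INN_proof (hT : TlaStmt) (hB : BasStmt) : InnStmt := by
  intro L Γ U v hL hU hv
  have hE := eqv_gg L Γ hU hv
  have hc : Continuous (down (gg L Γ U v)) := hT.2.2.2.2.1 _ hE (sm_gg L Γ hU hv).continuous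
  have h4 : ∀ (m : V) (j : ℤ), m.1 = 0 → m.2.1 = 0 →
      coef L Γ U v m j = ∫ y in (0 : ℝ)..1, ee (((-j : ℤ) : ℝ) * y) := by
    intro m j h1 h2
    simp [coef, cf, h1, h2]
  have hmp : MeasurePreserving (down (gg L Γ U v)) volume volume := by
    refine hB.2.2.2.1 _ hc fun m => ?_
    have h := main hT hB L Γ hL hU hv m 0
    have h0 : ∀ q : T3, em 0 q = 1 := by
      intro q
      rw [← hT.1 q, hB.2.2.1]; simp [ee_zero]
    simp only [h0, map_one, one_mul] at h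
    rw [h]
    obtain ⟨a, y, z⟩ := m
    simp only [Prod.fst_zero, Prod.snd_zero, sub_zero, zero_sub, Prod.mk_eq_zero]
    by_cases ha : a = 0
    · subst ha
      by_cases hy : y = 0
      · subst hy
        rw [if_pos (by simp), h4 _ _ rfl rfl]
        by_cases hz : z = 0
        · subst hz; simp [ee_zero]
        · rw [int_ee _ (by simpa using hz), if_neg (by simp [hz])]
      · rw [if_neg (by simp [hy]), if_neg (by simp [hy])]
    · rw [if_neg (by simp [ha]), if_neg (by simp [ha])]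
  have hTL : IsTL (gg L Γ U v) (ggI L Γ U v) :=
    hT.2.2.2.2.2.2.1 _ _ (sm_gg L Γ hU hv) (sm_ggI L Γ hU hv) hE (eqv_ggI L Γ hU hv)
      (gg_ggI L Γ U v) (ggI_gg L Γ U v) hmp
  have hin := hT.2.2.2.2.2.2.2.2.2.2.2.2.2.2.2.2.2 _ _ hTL
  refine ⟨hTL, fun m j => ?_, fun m m' hne => ?_, fun m j h1 h2 hj => ?_⟩
  · rw [hin, main hT hB L Γ hL hU hv, if_pos (by simp [line])]
    simp [line]
  · rw [hin, main hT hB L Γ hL hU hv, if_neg]
    rintro ⟨h1, h2⟩
    refine hne (m'.2.1 - m.2.2) ?_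
    obtain ⟨a', y', z'⟩ := m'
    simp only [line, Prod.mk.injEq] at h1 h2 ⊢
    refine ⟨by linarith, by ring, by linarith⟩
  · rw [h4 m j h1 h2, int_ee _ (by simpa using hj)]

end Crest.Agent.R81
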