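import Crest.Agent.R81.Defs

set_option autoImplicit false

open Finset MeasureTheory Filter Topology
open scoped ContDiff ComplexConjugate InnerProductSpace Classical
open Crest.AnalysisR.Torus3
open Crest.Agent.R75 (ee)

namespace Crest.Agent.R81

namespace JIT

def G2 (b q : ℕ) (ρ : ℤ) (w : ℤ → ℝ) : Prop :=
  ∀ a i : ℤ, ¬ (q : ℤ) ∣ a →
    ((b : ℤ) ∣ a → i ≡ ρ [ZMOD q] → ‖dft q w a (a * i)‖ = 1) ∧
    (¬ (b : ℤ) ∣ a → ¬ i ≡ ρ [ZMOD q] → (Real.sqrt q - 1) / q ≤ ‖dft q w a (a * i)‖)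

theorem build (h2 : Gs2Stmt) (hP : ProdStmt) (Q₁ : ℕ) (w₁ : ℤ → ℝ) (hQ : 0 < Q₁)
    (hw : PerZ Q₁ w₁) (Wd : ℕ) (ρ : ℤ) (𝓑 : Finset ℕ) (hB : ∀ b ∈ 𝓑, 0 < b) :
    ∃ (om : ℕ → ℕ) (ws : ℕ → ℤ → ℝ) (w : ℤ → ℝ),
      (∀ b ∈ 𝓑, (om b).Prime ∧ Wd < om b ∧ G2 b (om b) ρ (ws b)) ∧
      (∀ b ∈ 𝓑, ∀ b' ∈ 𝓑, b ≠ b' → om b ≠ om b') ∧
      PerZ (Q₁ * ∏ b ∈ 𝓑, om b) w ∧
      ∀ a r, dft (Q₁ * ∏ b ∈ 𝓑, om b) w a r = dft Q₁ w₁ a r * ∏ b ∈ 𝓑, dft (om b) (ws b) a r := by
  induction 𝓑 using Finset.induction_on with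
  | empty =>
    refine ⟨fun _ => 1, fun _ _ => 0, w₁, by simp, by simp, by simpa using hw, by simp⟩
  | insert b 𝓑 hb ih =>
    obtain ⟨om, ws, w, h1, h2', h3, h4⟩ := ih (fun c hc => hB c (Finset.mem_insert_of_mem hc))
    set Q := Q₁ * ∏ c ∈ 𝓑, om c with hQdef
    have hprod : 0 < ∏ c ∈ 𝓑, om c := Finset.prod_pos (fun c hc => (h1 c hc).1.pos)
    have hQpos : 0 < Q := Nat.mul_pos hQ hprod
    obtain ⟨q, wq, hq, hqW, hqper, hqG⟩ :=
      h2 b (max Wd Q) ρ (hB b (Finset.mem_insert_self _ _))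
    have hqQ : Q < q := lt_of_le_of_lt (le_max_right _ _) hqW
    have hcop : Nat.Coprime Q q := (Nat.coprime_of_lt_prime hQpos.ne' hqQ hq).symm
    obtain ⟨w', hw'1, hw'2⟩ := hP Q q w wq hQpos hq.pos hcop h3 hqper
    have homlt : ∀ c ∈ 𝓑, om c < q := by
      intro c hc
      have h5 : om c ∣ Q := Dvd.dvd.mul_left (Finset.dvd_prod_of_mem om hc) Q₁
      exact lt_of_le_of_lt (Nat.le_of_dvd hQpos h5) hqQ
    have hne : ∀ c ∈ 𝓑, c ≠ b := fun c hc h => hb (h ▸ hc)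
    have homc : ∀ c ∈ 𝓑, Function.update om b q c = om c := fun c hc =>
      Function.update_of_ne (hne c hc) _ _
    have hwc : ∀ c ∈ 𝓑, Function.update ws b wq c = ws c := fun c hc =>
      Function.update_of_ne (hne c hc) _ _
    have hQeq : Q₁ * ∏ c ∈ insert b 𝓑, Function.update om b q c = Q * q := by
      rw [Finset.prod_insert hb, Function.update_self, Finset.prod_congr rfl homc, hQdef]
      ring
    refine ⟨Function.update om b q, Function.update ws b wq, w', ?_, ?_, ?_, ?_⟩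
    · intro c hc
      rcases Finset.mem_insert.1 hc with rfl | hc
      · rw [Function.update_self, Function.update_self]
        exact ⟨hq, lt_of_le_of_lt (le_max_left _ _) hqW, hqG⟩
      · rw [homc c hc, hwc c hc]; exact h1 c hc
    · intro c hc c' hc' hcc
      rcases Finset.mem_insert.1 hc with h | h
      · rcases Finset.mem_insert.1 hc' with h' | h'
        · exact absurd (h.trans h'.symm) hcc
        · rw [h, Function.update_self, homc c' h']; exact (homlt c' h').ne'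
      · rcases Finset.mem_insert.1 hc' with h' | h'
        · rw [h', Function.update_self, homc c h]; exact (homlt c h).ne
        · rw [homc c h, homc c' h']; exact h2' c h c' h' hcc
    · rw [hQeq]; exact hw'1
    · intro a r
      rw [hQeq, hw'2, h4, Finset.prod_insert hb, Function.update_self, Function.update_self]
      rw [Finset.prod_congr rfl (fun c hc => by rw [homc c hc, hwc c hc] :
        ∀ c ∈ 𝓑, dft (Function.update om b q c) (Function.update ws b wq c) a r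
          = dft (om c) (ws c) a r)]
      ring

theorem cnt_bounds (I : ℕ) (r v : ℤ) (hr : 0 < r) :
    (2 * I : ℝ) / r - 1 ≤ (((Finset.Ico (-(I : ℤ)) I).filter (fun i => i ≡ v [ZMOD r])).card : ℝ) ∧
    (((Finset.Ico (-(I : ℤ)) I).filter (fun i => i ≡ v [ZMOD r])).card : ℝ) ≤ (2 * I : ℝ) / r + 1 := by
  have h := Int.Ico_filter_modEq_card (-(I : ℤ)) I hr v
  have hr' : (0 : ℚ) < r := by exact_mod_cast hr
  set u : ℚ := ((I : ℤ) - v : ℚ) / r with hu
  set u' : ℚ := ((-(I : ℤ) : ℤ) - v : ℚ) / r with hu'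
  have huu : u - u' = (2 * I : ℚ) / r := by
    rw [hu, hu']; push_cast; field_simp; ring
  have h1 := Int.le_ceil u
  have h2 := Int.ceil_lt_add_one u
  have h3 := Int.le_ceil u'
  have h4 := Int.ceil_lt_add_one u'
  have hnn : (0 : ℚ) ≤ (2 * I : ℚ) / r := by positivity
  have hq1 : (2 * I : ℚ) / r - 1 ≤
      (((Finset.Ico (-(I : ℤ)) I).filter (fun i => i ≡ v [ZMOD r])).card : ℚ) := by
    have : ((⌈u⌉ - ⌈u'⌉ : ℤ) : ℚ) ≤
        ((((Finset.Ico (-(I : ℤ)) I).filter (fun i => i ≡ v [ZMOD r])).card : ℤ) : ℚ) := by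
      rw [h]; exact_mod_cast le_max_left _ _
    push_cast at this
    linarith
  have hq2 : (((Finset.Ico (-(I : ℤ)) I).filter (fun i => i ≡ v [ZMOD r])).card : ℚ) ≤
      (2 * I : ℚ) / r + 1 := by
    have : ((((Finset.Ico (-(I : ℤ)) I).filter (fun i => i ≡ v [ZMOD r])).card : ℤ) : ℚ) ≤
        (2 * I : ℚ) / r + 1 := by
      rw [h]
      push_cast
      refine max_le ?_ (by linarith)
      linarith
    exact_mod_cast this
  constructor
  · have := (Rat.cast_le (K := ℝ)).2 hq1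
    push_cast at this
    exact this
  · have := (Rat.cast_le (K := ℝ)).2 hq2
    push_cast at this
    exact this

theorem cnt_upper (I : ℕ) (r : ℤ) (hr : 0 < r) (S : Finset ℤ) (hS : S ⊆ Finset.Ico (-(I : ℤ)) I)
    (hd : ∀ i ∈ S, ∀ j ∈ S, r ∣ i - j) : (S.card : ℝ) ≤ (2 * I : ℝ) / r + 1 := by
  rcases S.eq_empty_or_nonempty with rfl | ⟨v, hv⟩
  · have hr' : (0 : ℝ) < r := by exact_mod_cast hr
    simp only [Finset.card_empty, Nat.cast_zero]
    positivity
  · refine le_trans ?_ (cnt_bounds I r v hr).2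
    have : S ⊆ (Finset.Ico (-(I : ℤ)) I).filter (fun i => i ≡ v [ZMOD r]) := by
      intro i hi
      exact Finset.mem_filter.2 ⟨hS hi, (Int.modEq_iff_dvd.2 (hd v hv i hi))⟩
    exact_mod_cast Finset.card_le_card this

theorem sq_bound (q θ : ℝ) (hθ : 0 < θ) (hq : 4 / θ ^ 2 ≤ q) :
    (1 - θ) / q ≤ ((Real.sqrt q - 1) / q) ^ 2 := by
  have hq0 : 0 < q := lt_of_lt_of_le (by positivity) hq
  have hs : Real.sqrt q ^ 2 = q := Real.sq_sqrt hq0.le
  have hs0 : 0 < Real.sqrt q := Real.sqrt_pos.2 hq0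
  have h2 : 2 ≤ θ * Real.sqrt q := by
    have h3 : (2 / θ) ≤ Real.sqrt q := by
      apply Real.le_sqrt_of_sq_le
      rw [div_pow]; norm_num; linarith
    rw [div_le_iff₀ hθ] at h3
    linarith
  rw [div_pow, div_le_div_iff₀ hq0 (by positivity)]
  set s := Real.sqrt q
  have : (1 - θ) * q ≤ (s - 1) ^ 2 := by
    rw [← hs]; nlinarith
  nlinarith

theorem dft_bound (Q₁ : ℕ) (w₁ : ℤ → ℝ) (hQ : 0 < Q₁) (ρ : ℤ) (𝓑 : Finset ℕ)
    (om : ℕ → ℕ) (ws : ℕ → ℤ → ℝ) (η : ℝ) (hη : 0 < η) (hη1 : η ≤ 1) (a i : ℤ)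
    (h1 : ‖dft Q₁ w₁ a (a * i)‖ ^ 2 = (|a| : ℝ) / Q₁)
    (hG : ∀ b ∈ 𝓑, G2 b (om b) ρ (ws b)) (hpos : ∀ b ∈ 𝓑, 0 < om b)
    (hnd : ∀ b ∈ 𝓑, ¬ (om b : ℤ) ∣ a)
    (hbig : ∀ b ∈ 𝓑, 4 / (η / (𝓑.card + 1)) ^ 2 ≤ (om b : ℝ))
    (hi1 : ∀ b ∈ 𝓑, (b : ℤ) ∣ a → i ≡ ρ [ZMOD om b])
    (hi2 : ∀ b ∈ 𝓑, ¬ (b : ℤ) ∣ a → ¬ i ≡ ρ [ZMOD om b]) :
    (1 - η) * (|a| : ℝ) * ((∏ b ∈ 𝓑.filter (fun b : ℕ => (b : ℤ) ∣ a), om b : ℕ) : ℝ) /
        ((Q₁ * ∏ b ∈ 𝓑, om b : ℕ) : ℝ) ≤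
      ‖dft Q₁ w₁ a (a * i) * ∏ b ∈ 𝓑, dft (om b) (ws b) a (a * i)‖ ^ 2 := by
  set θ : ℝ := η / (𝓑.card + 1) with hθ
  have hc0 : (0 : ℝ) < 𝓑.card + 1 := by positivity
  have hθ0 : 0 < θ := by positivity
  have hθ1 : θ ≤ 1 := by
    rw [hθ, div_le_one hc0]
    have : (0 : ℝ) ≤ 𝓑.card := by positivity
    linarith
  set B₁ := 𝓑.filter (fun b : ℕ => (b : ℤ) ∣ a) with hB₁
  set B₂ := 𝓑.filter (fun b : ℕ => ¬ (b : ℤ) ∣ a) with hB₂
  have hsplit : ∀ f : ℕ → ℝ, ∏ b ∈ 𝓑, f b = (∏ b ∈ B₁, f b) * ∏ b ∈ B₂, f b := fun f =>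
    (Finset.prod_filter_mul_prod_filter_not 𝓑 _ f).symm
  have hn : ‖dft Q₁ w₁ a (a * i) * ∏ b ∈ 𝓑, dft (om b) (ws b) a (a * i)‖ ^ 2 =
      (|a| : ℝ) / Q₁ * ∏ b ∈ B₂, ‖dft (om b) (ws b) a (a * i)‖ ^ 2 := by
    rw [norm_mul, mul_pow, h1, norm_prod, ← Finset.prod_pow, hsplit]
    have : ∏ b ∈ B₁, ‖dft (om b) (ws b) a (a * i)‖ ^ 2 = 1 := by
      apply Finset.prod_eq_one
      intro b hb
      obtain ⟨hb1, hb2⟩ := Finset.mem_filter.1 hb
      rw [(hG b hb1 a i (hnd b hb1)).1 hb2 (hi1 b hb1 hb2)]; norm_num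
    rw [this, one_mul]
  have hlow : ∏ b ∈ B₂, ((1 - θ) / (om b : ℝ)) ≤ ∏ b ∈ B₂, ‖dft (om b) (ws b) a (a * i)‖ ^ 2 := by
    apply Finset.prod_le_prod
    · intro b _
      have : 0 ≤ 1 - θ := by linarith
      positivity
    · intro b hb
      obtain ⟨hb1, hb2⟩ := Finset.mem_filter.1 hb
      refine le_trans (sq_bound _ θ hθ0 (hbig b hb1)) ?_
      have h3 := (hG b hb1 a i (hnd b hb1)).2 hb2 (hi2 b hb1 hb2)
      have h4 : (1 : ℝ) ≤ Real.sqrt (om b) := by
        apply Real.le_sqrt_of_sq_le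
        have : (1 : ℝ) ≤ om b := by exact_mod_cast hpos b hb1
        linarith
      apply pow_le_pow_left₀ _ h3
      have : 0 ≤ Real.sqrt (om b) - 1 := by linarith
      positivity
  have hP2 : (0 : ℝ) < ∏ b ∈ B₂, (om b : ℝ) :=
    Finset.prod_pos (fun b hb => by exact_mod_cast hpos b (Finset.mem_filter.1 hb).1)
  have hP1 : (0 : ℝ) < ∏ b ∈ B₁, (om b : ℝ) :=
    Finset.prod_pos (fun b hb => by exact_mod_cast hpos b (Finset.mem_filter.1 hb).1)
  have hber : 1 - η ≤ (1 - θ) ^ B₂.card := by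
    have h5 := one_add_mul_le_pow (a := -θ) (by linarith) B₂.card
    have h6 : (B₂.card : ℝ) ≤ 𝓑.card := by exact_mod_cast Finset.card_filter_le _ _
    have h7 : θ * (𝓑.card + 1) = η := by rw [hθ]; field_simp
    have h8 : (B₂.card : ℝ) * θ ≤ η := by nlinarith
    have : 1 + -θ = 1 - θ := by ring
    rw [this] at h5
    linarith
  rw [hn]
  rw [Finset.prod_div_distrib, Finset.prod_const] at hlow
  have hQ' : (0 : ℝ) < Q₁ := by exact_mod_cast hQ
  have hab : (0 : ℝ) ≤ |(a : ℝ)| := abs_nonneg _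
  calc (1 - η) * (|a| : ℝ) * ((∏ b ∈ B₁, om b : ℕ) : ℝ) / ((Q₁ * ∏ b ∈ 𝓑, om b : ℕ) : ℝ)
      = (|a| : ℝ) / Q₁ * ((1 - η) / ∏ b ∈ B₂, (om b : ℝ)) := by
        push_cast
        rw [hsplit]
        field_simp
    _ ≤ (|a| : ℝ) / Q₁ * ((1 - θ) ^ B₂.card / ∏ b ∈ B₂, (om b : ℝ)) := by
        gcongr
    _ ≤ _ := by gcongr

end JIT

open JIT in
theorem JIT_proof (h1 : Gs1Stmt) (h2 : Gs2Stmt) (hP : ProdStmt) : JitStmt := by
  intro A 𝓑 η hη hη1 hB
  obtain ⟨Q₁, w₁, hQ₁, hw₁, hd₁⟩ := h1 A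
  set ρ : ℤ := 8 * A + 1 with hρ
  set Y : ℕ := A * (8 * A + 1) + 4 * A with hY
  set K : ℕ := 𝓑.card * ((2 * A + 1) * (2 * Y + 1)) with hK
  obtain ⟨Wd, hW1, hW2, hW3⟩ : ∃ Wd : ℕ, 2 * K / η ≤ Wd ∧ 4 / (η / (𝓑.card + 1)) ^ 2 ≤ (Wd : ℝ) ∧
      2 * A * (8 * A + 1) + 4 * A ≤ Wd := by
    refine ⟨⌈2 * K / η⌉₊ + ⌈4 / (η / (𝓑.card + 1)) ^ 2⌉₊ + (2 * A * (8 * A + 1) + 4 * A),
      ?_, ?_, by omega⟩
    · have := Nat.le_ceil (2 * K / η)
      push_cast
      have h3 : (0 : ℝ) ≤ ⌈4 / (η / (𝓑.card + 1)) ^ 2⌉₊ := by positivity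
      have h4 : (0 : ℝ) ≤ 2 * A * (8 * A + 1) + 4 * A := by positivity
      linarith
    · have := Nat.le_ceil (4 / (η / (𝓑.card + 1)) ^ 2)
      push_cast
      have h3 : (0 : ℝ) ≤ ⌈2 * K / η⌉₊ := by positivity
      have h4 : (0 : ℝ) ≤ 2 * A * (8 * A + 1) + 4 * A := by positivity
      linarith
  obtain ⟨om, ws, w, hom, hdis, hper, hdft⟩ :=
    build h2 hP Q₁ w₁ hQ₁ hw₁ Wd ρ 𝓑 (fun b hb => (hB b hb).1)
  set Q := Q₁ * ∏ b ∈ 𝓑, om b with hQdef
  have hprod : 0 < ∏ c ∈ 𝓑, om c := Finset.prod_pos (fun c hc => (hom c hc).1.pos)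
  have hQpos : 0 < Q := Nat.mul_pos hQ₁ hprod
  have hnd : ∀ b ∈ 𝓑, ∀ z : ℤ, z ≠ 0 → |z| ≤ 2 * A * (8 * A + 1) + 4 * A → ¬ (om b : ℤ) ∣ z := by
    intro b hb z hz hzb hdv
    have h3 := Int.le_of_dvd (abs_pos.2 hz) ((dvd_abs _ _).2 hdv)
    have h4 : (Wd : ℤ) < om b := by exact_mod_cast (hom b hb).2.1
    have h5 : (2 * A * (8 * A + 1) + 4 * A : ℤ) ≤ Wd := by exact_mod_cast hW3
    linarith
  have hA0 : (0 : ℤ) ≤ A := by positivity
  have hndA : ∀ b ∈ 𝓑, ∀ z : ℤ, z ≠ 0 → |z| ≤ A → ¬ (om b : ℤ) ∣ z := by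
    intro b hb z hz hzb
    apply hnd b hb z hz
    nlinarith
  refine ⟨Q, ⌈Q * (1 + K) / η⌉₊, w, fun a i => ∀ b ∈ 𝓑, i ≡ ρ [ZMOD om b] ∨
    (¬ (b : ℤ) ∣ a ∧ ∀ a' y : ℤ, a' ≠ 0 → |a'| ≤ A → |y| ≤ Y → ¬ (om b : ℤ) ∣ a' * i + y),
    hQpos, hper, ?_, ?_, ?_⟩
  · intro a t i _ h b hb
    rcases h b hb with h | h
    · exact Or.inl h
    · exact Or.inr ⟨fun hd => h.1 (Dvd.dvd.mul_left hd t), h.2⟩
  · intro a a' i i' x ha haA ha' haa hi hi' hx hdv
    set b := a'.natAbs with hb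
    have hba : (b : ℤ) ∣ a' := Int.natAbs_dvd.2 dvd_rfl
    have ha'A : |a'| ≤ A := by
      have := (hB b ha').2
      rw [← Int.natCast_natAbs]; exact_mod_cast this
    have hdv' : (om b : ℤ) ∣ a * i - a' * i' + x := by
      refine Dvd.dvd.trans ?_ hdv
      exact_mod_cast Dvd.dvd.mul_left (Finset.dvd_prod_of_mem om ha') Q₁
    have hi'ρ : (om b : ℤ) ∣ ρ - i' := by
      rcases hi' b ha' with h | h
      · exact h.dvd
      · exact absurd hba h.1
    have hxb := abs_le.1 hx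
    have hab := abs_le.1 haA
    have ha'b := abs_le.1 ha'A
    rcases hi b ha' with h | h
    · have h3 : (om b : ℤ) ∣ (a - a') * ρ + x := by
        have : (a - a') * ρ + x = (a * i - a' * i' + x) + a * (ρ - i) - a' * (ρ - i') := by ring
        rw [this]
        exact Dvd.dvd.sub (Dvd.dvd.add hdv' (Dvd.dvd.mul_left h.dvd _)) (Dvd.dvd.mul_left hi'ρ _)
      refine hnd b ha' _ ?_ ?_ h3
      · rcases lt_or_gt_of_ne haa with h4 | h4
        · have : (a - a') * ρ ≤ -ρ := by rw [hρ]; nlinarith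
          omega
        · have : ρ ≤ (a - a') * ρ := by rw [hρ]; nlinarith
          omega
      · rw [abs_le, hρ]; constructor <;> nlinarith
    · refine h.2 a (x - a' * ρ) ha haA ?_ ?_
      · rw [abs_le, hρ, hY]; push_cast; constructor <;> nlinarith
      · have : a * i + (x - a' * ρ) = (a * i - a' * i' + x) - a' * (ρ - i') := by ring
        rw [this]
        exact Dvd.dvd.sub hdv' (Dvd.dvd.mul_left hi'ρ _)
  · intro a ha haA
    set B₁ := 𝓑.filter (fun b : ℕ => (b : ℤ) ∣ a) with hB₁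
    set B₂ := 𝓑.filter (fun b : ℕ => ¬ (b : ℤ) ∣ a) with hB₂
    set d : ℕ := ∏ b ∈ B₁, om b with hd
    have hdpos : 0 < d :=
      Finset.prod_pos (fun c hc => (hom c (Finset.mem_filter.1 hc).1).1.pos)
    have hdQ : d ≤ Q := by
      apply Nat.le_of_dvd hQpos
      exact Dvd.dvd.mul_left (Finset.prod_dvd_prod_of_subset _ _ _ (Finset.filter_subset _ _)) Q₁
    have hA1 : (1 : ℤ) ≤ A := le_trans (Int.one_le_abs ha) haA
    refine ⟨d, hdpos, ?_, ?_⟩
    · intro h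
      have : B₁ = ∅ := Finset.filter_eq_empty_iff.2 (fun b hb => h b hb)
      rw [hd, this, Finset.prod_empty]
    · intro I hI
      set C := (Finset.Ico (-(I : ℤ)) I).filter (fun i => i ≡ ρ [ZMOD (d : ℤ)]) with hC
      set Ks := C.filter (fun i => ∀ b ∈ B₂, ∀ a' y : ℤ, a' ≠ 0 → |a'| ≤ A → |y| ≤ Y →
        ¬ (om b : ℤ) ∣ a' * i + y) with hKs
      refine ⟨Ks, ?_, ?_⟩
      · intro i hi
        obtain ⟨hiC, hi2⟩ := Finset.mem_filter.1 hi
        obtain ⟨hiI, hi1⟩ := Finset.mem_filter.1 hiC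
        have hi1' : ∀ b ∈ 𝓑, (b : ℤ) ∣ a → i ≡ ρ [ZMOD om b] := by
          intro b hb hba
          refine hi1.of_dvd ?_
          exact_mod_cast Finset.dvd_prod_of_mem om (Finset.mem_filter.2 ⟨hb, hba⟩ : b ∈ B₁)
        have hi2' : ∀ b ∈ 𝓑, ¬ (b : ℤ) ∣ a → ¬ i ≡ ρ [ZMOD om b] := by
          intro b hb hba hmod
          refine hi2 b (Finset.mem_filter.2 ⟨hb, hba⟩) 1 (-ρ) one_ne_zero (by simpa using hA1) ?_ ?_
          · rw [abs_le, hρ, hY]; push_cast; constructor <;> nlinarith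
          · have := hmod.symm.dvd
            rwa [one_mul, ← sub_eq_add_neg]
        refine ⟨?_, ?_, ?_⟩
        · have := Finset.mem_Ico.1 hiI
          rw [abs_le]; constructor <;> linarith [this.1, this.2]
        · intro b hb
          by_cases hba : (b : ℤ) ∣ a
          · exact Or.inl (hi1' b hb hba)
          · exact Or.inr ⟨hba, hi2 b (Finset.mem_filter.2 ⟨hb, hba⟩)⟩
        · rw [hdft]
          refine dft_bound Q₁ w₁ hQ₁ ρ 𝓑 om ws η hη hη1 a i (hd₁ a i ha haA)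
            (fun b hb => (hom b hb).2.2) (fun b hb => (hom b hb).1.pos)
            (fun b hb => hndA b hb a ha haA) ?_ hi1' hi2'
          intro b hb
          have : (Wd : ℝ) ≤ om b := by exact_mod_cast (hom b hb).2.1.le
          linarith
      · set T : Finset (ℕ × ℤ × ℤ) :=
          B₂ ×ˢ ((Finset.Icc (-(A : ℤ)) A).erase 0 ×ˢ Finset.Icc (-(Y : ℤ)) Y) with hT
        set S : ℕ × ℤ × ℤ → Finset ℤ := fun t =>
          C.filter (fun i => (om t.1 : ℤ) ∣ t.2.1 * i + t.2.2) with hS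
        have hsub : C ⊆ Ks ∪ T.biUnion S := by
          intro i hi
          by_cases hk : i ∈ Ks
          · exact Finset.mem_union_left _ hk
          · apply Finset.mem_union_right
            have hk' : ¬ ∀ b ∈ B₂, ∀ a' y : ℤ, a' ≠ 0 → |a'| ≤ A → |y| ≤ Y →
                ¬ (om b : ℤ) ∣ a' * i + y := fun h => hk (Finset.mem_filter.2 ⟨hi, h⟩)
            push Not at hk'
            obtain ⟨b, hb, a', y, h3, h4, h5, h6⟩ := hk'
            refine Finset.mem_biUnion.2 ⟨(b, a', y), ?_, Finset.mem_filter.2 ⟨hi, h6⟩⟩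
            refine Finset.mem_product.2 ⟨hb, Finset.mem_product.2 ⟨?_, ?_⟩⟩
            · exact Finset.mem_erase.2 ⟨h3, Finset.mem_Icc.2 (abs_le.1 h4)⟩
            · exact Finset.mem_Icc.2 (abs_le.1 h5)
        have hd' : (0 : ℝ) < d := by exact_mod_cast hdpos
        have hTK : T.card ≤ K := by
          rw [hT, Finset.card_product, Finset.card_product, hK]
          apply Nat.mul_le_mul (Finset.card_filter_le _ _)
          apply Nat.mul_le_mul
          · refine le_trans (Finset.card_erase_le) ?_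
            rw [Int.card_Icc]; omega
          · rw [Int.card_Icc]; omega
        have hSc : ∀ t ∈ T, ((S t).card : ℝ) ≤ (2 * I : ℝ) / (d * (Wd + 1)) + 1 := by
          rintro ⟨b, a', y⟩ ht
          obtain ⟨hb, ht2⟩ := Finset.mem_product.1 ht
          obtain ⟨ht3, _⟩ := Finset.mem_product.1 ht2
          obtain ⟨hb1, hb2⟩ := Finset.mem_filter.1 hb
          obtain ⟨ha'0, ha'A⟩ := Finset.mem_erase.1 ht3
          simp only at hb1 hb2 ha'0 ha'A
          have hpr := (hom b hb1).1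
          have hcop : Nat.Coprime d (om b) := by
            rw [hd]
            apply Nat.Coprime.prod_left
            intro c hc
            obtain ⟨hc1, hc2⟩ := Finset.mem_filter.1 hc
            exact (Nat.coprime_primes (hom c hc1).1 hpr).2
              (hdis c hc1 b hb1 (fun h => hb2 (h ▸ hc2)))
          have h3 := cnt_upper I ((d : ℤ) * om b)
            (by have := hpr.pos; positivity) (S (b, a', y))
            (fun i hi => (Finset.mem_filter.1 (Finset.mem_filter.1 hi).1).1) (by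
              intro i hi j hj
              obtain ⟨hiC, hi2⟩ := Finset.mem_filter.1 hi
              obtain ⟨hjC, hj2⟩ := Finset.mem_filter.1 hj
              have hi1 := (Finset.mem_filter.1 hiC).2
              have hj1 := (Finset.mem_filter.1 hjC).2
              simp only at hi2 hj2
              apply IsCoprime.mul_dvd (Nat.isCoprime_iff_coprime.2 hcop)
              · exact (hj1.trans hi1.symm).dvd
              · have h4 : (om b : ℤ) ∣ a' * (i - j) := by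
                  have : a' * (i - j) = (a' * i + y) - (a' * j + y) := by ring
                  rw [this]; exact Dvd.dvd.sub hi2 hj2
                rcases (Nat.prime_iff_prime_int.1 hpr).dvd_or_dvd h4 with h5 | h5
                · exact absurd h5 (hndA b hb1 a' ha'0 (abs_le.2 (Finset.mem_Icc.1 ha'A)))
                · exact h5)
          refine le_trans h3 ?_
          have h6 : (Wd : ℝ) + 1 ≤ om b := by exact_mod_cast (hom b hb1).2.1
          push_cast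
          gcongr
        have hCc := (cnt_bounds I d ρ (by exact_mod_cast hdpos)).1
        have hcard : (C.card : ℝ) ≤ Ks.card + K * ((2 * I : ℝ) / (d * (Wd + 1)) + 1) := by
          have h3 : C.card ≤ Ks.card + ∑ t ∈ T, (S t).card :=
            le_trans (Finset.card_le_card hsub)
              (le_trans (Finset.card_union_le _ _) (Nat.add_le_add_left Finset.card_biUnion_le _))
          have h4 : (C.card : ℝ) ≤ Ks.card + ∑ t ∈ T, ((S t).card : ℝ) := by exact_mod_cast h3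
          have h5 : ∑ t ∈ T, ((S t).card : ℝ) ≤ T.card • ((2 * I : ℝ) / (d * (Wd + 1)) + 1) :=
            Finset.sum_le_card_nsmul _ _ _ hSc
          rw [nsmul_eq_mul] at h5
          have h6 : (T.card : ℝ) ≤ K := by exact_mod_cast hTK
          have h7 : (T.card : ℝ) * ((2 * I : ℝ) / (d * (Wd + 1)) + 1) ≤
              K * ((2 * I : ℝ) / (d * (Wd + 1)) + 1) := by gcongr
          linarith
        have hI' : (Q : ℝ) * (1 + K) / η ≤ I := le_trans (Nat.le_ceil _) (by exact_mod_cast hI)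
        have hdQ' : (d : ℝ) ≤ Q := by exact_mod_cast hdQ
        have hu : (1 + K : ℝ) ≤ η * I / d := by
          rw [le_div_iff₀ hd']
          rw [div_le_iff₀ hη] at hI'
          have : (1 + K : ℝ) * d ≤ (1 + K) * Q := by gcongr
          linarith
        have hv : (K : ℝ) * ((2 * I : ℝ) / (d * (Wd + 1))) ≤ η * I / d := by
          rw [div_le_iff₀ hη] at hW1
          have hW0 : (0 : ℝ) < Wd + 1 := by positivity
          have : (K : ℝ) * ((2 * I : ℝ) / (d * (Wd + 1))) = (2 * K / (Wd + 1)) * I / d := by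
            field_simp
          rw [this]
          have h8 : 2 * K / (Wd + 1 : ℝ) ≤ η := by
            rw [div_le_iff₀ hW0]; nlinarith
          gcongr
        have hfin : (1 - η) * (2 * I) / d = (2 * I : ℝ) / d - 2 * (η * I / d) := by
          field_simp
        rw [hfin]
        have hCc' : (2 * I : ℝ) / d - 1 ≤ C.card := by
          rw [Int.cast_natCast] at hCc; exact hCc
        linarith

end Crest.Agent.R81
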