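import Crest.Agent.R81.Defs

/-! Row 81, task LIM: the limit diffeomorphism. -/

set_option autoImplicit false

open Finset MeasureTheory Filter Topology
open scoped ContDiff ComplexConjugate InnerProductSpace Classical
open Crest.AnalysisR.Torus3
open Crest.Agent.R75 (ee)

namespace Crest.Agent.R81

namespace LIM

theorem proj_add (p p' : R3) : proj (p + p') = proj p + proj p' := by
  funext i; simp [proj]

theorem dist_proj (x y : R3) : dist (proj x) (proj y) ≤ ‖x - y‖ := by
  rw [dist_pi_le_iff (norm_nonneg _)]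
  intro i
  have h1 : dist (proj x i) (proj y i) = ‖(((x - y) i : ℝ) : UnitAddCircle)‖ := by
    rw [dist_eq_norm]; simp [proj]
  rw [h1]
  exact (QuotientAddGroup.norm_mk_le_norm).trans (norm_le_pi_norm (x - y) i)

theorem mp_limit (T : ℕ → T3 → T3) (T₀ : T3 → T3) (hc : Continuous T₀)
    (hm : ∀ n, MeasurePreserving (T n) volume volume)
    (hl : ∀ q, Tendsto (fun n => T n q) atTop (𝓝 (T₀ q))) :
    MeasurePreserving T₀ volume volume := by
  refine ⟨hc.measurable, ?_⟩
  apply ext_of_forall_integral_eq_of_IsFiniteMeasure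
  intro f
  rw [integral_map hc.measurable.aemeasurable f.continuous.aestronglyMeasurable]
  have h1 : ∀ n, ∫ q, f (T n q) = ∫ q, f q := by
    intro n
    have := integral_map (μ := (volume : Measure T3)) (φ := T n) (f := fun q => f q)
      (hm n).measurable.aemeasurable f.continuous.aestronglyMeasurable
    rw [(hm n).map_eq] at this
    exact this.symm
  have h2 : Tendsto (fun n => ∫ q, f (T n q)) atTop (𝓝 (∫ q, f (T₀ q))) := by
    refine tendsto_integral_of_dominated_convergence (fun _ => ‖f‖) ?_ (integrable_const _) ?_ ?_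
    · intro n
      exact (f.continuous.measurable.comp (hm n).measurable).aestronglyMeasurable
    · intro n
      exact Eventually.of_forall fun q => f.norm_coe_le_norm _
    · exact Eventually.of_forall fun q => (f.continuous.tendsto _).comp (hl q)
  simp only [h1] at h2
  exact (tendsto_nhds_unique tendsto_const_nhds h2).symm

theorem one (hT : TlaStmt) (A : ℕ → R3 → R3) (hs : ∀ n, ContDiff ℝ ∞ (A n)) (he : ∀ n, Eqv (A n))
    (hc : ∀ n, Close n (A n) (A (n + 1))) :
    ∃ F : R3 → R3, ContDiff ℝ ∞ F ∧ (∀ p, down F (proj p) = proj (F p)) ∧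
      TendstoUniformly (fun n => down (A n)) (down F) atTop := by
  obtain ⟨h1, -, -, h4, -⟩ := hT
  choose D hD1 hD2 hD3 using hc
  have hb : ∀ i, 1 ≤ i → ∀ p, ‖D i p‖ ≤ (1 / 2 : ℝ) ^ i := by
    intro i hi p
    have := hD2 i 0 (by omega) p
    rwa [norm_iteratedFDeriv_zero] at this
  have hgeo : Summable (fun i : ℕ => (1 / 2 : ℝ) ^ i) := summable_geometric_two
  have hsum : ∀ p, Summable (fun i => D i p) := by
    intro p
    refine Summable.of_norm_bounded_eventually_nat hgeo ?_
    filter_upwards [eventually_ge_atTop 1] with i hi using hb i hi p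
  have hS : ∀ n p, proj (A n p) = proj (A 0 p + ∑ i ∈ range n, D i p) := by
    intro n p
    induction n with
    | zero => simp
    | succ n ih => rw [hD3, proj_add, ih, sum_range_succ, ← add_assoc, proj_add (_ + _)]
  let F : R3 → R3 := fun p => A 0 p + ∑' i, D i p
  have hd : ∀ n, 1 ≤ n → ∀ p, dist (proj (F p)) (proj (A n p)) ≤ 2 * (1 / 2 : ℝ) ^ n := by
    intro n hn p
    rw [hS n p]
    refine (dist_proj _ _).trans ?_
    have e : F p - (A 0 p + ∑ i ∈ range n, D i p) = ∑' i, D (i + n) p := by
      simp only [F]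
      rw [← (hsum p).sum_add_tsum_nat_add n]
      abel
    rw [e]
    have hs2 : HasSum (fun i : ℕ => (1 / 2 : ℝ) ^ (i + n)) (2 * (1 / 2 : ℝ) ^ n) := by
      simp only [pow_add]
      exact hasSum_geometric_two.mul_right _
    exact tsum_of_norm_bounded hs2 (fun i => hb _ (by omega) p)
  have hz : Tendsto (fun n : ℕ => 2 * (1 / 2 : ℝ) ^ n) atTop (𝓝 0) := by
    have := (tendsto_pow_atTop_nhds_zero_of_lt_one (r := (1 / 2 : ℝ)) (by norm_num)
      (by norm_num)).const_mul 2
    simpa using this
  have hpt : ∀ p, Tendsto (fun n => proj (A n p)) atTop (𝓝 (proj (F p))) := by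
    intro p
    rw [tendsto_iff_dist_tendsto_zero]
    refine squeeze_zero' (Eventually.of_forall fun _ => dist_nonneg) ?_ hz
    filter_upwards [eventually_ge_atTop 1] with n hn
    rw [dist_comm]; exact hd n hn p
  refine ⟨F, ?_, ?_, ?_⟩
  · refine (hs 0).add ?_
    refine contDiff_tsum_of_eventually (N := (⊤ : ℕ∞)) (v := fun _ i => (1 / 2 : ℝ) ^ i) hD1
      (fun _ _ => hgeo) ?_
    intro k _
    rw [Nat.cofinite_eq_atTop]
    filter_upwards [eventually_gt_atTop k] with i hi using hD2 i k hi
  · intro p
    have e : ∀ n, proj (A n fun i => rep (proj p i)) = proj (A n p) := fun n => h4 _ (he n) p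
    have := hpt (fun i => rep (proj p i))
    simp only [e] at this
    exact tendsto_nhds_unique this (hpt p)
  · rw [Metric.tendstoUniformly_iff]
    intro ε hε
    filter_upwards [eventually_ge_atTop 1, hz.eventually (gt_mem_nhds hε)] with n hn hn' q
    exact (hd n hn _).trans_lt hn'

end LIM

theorem LIM_proof (hT : TlaStmt) (_hB : BasStmt) : LimStmt := by
  intro A B hAB hA hB
  obtain ⟨F, hF, hF1, hFu⟩ := LIM.one hT A (fun n => (hAB n).sf) (fun n => (hAB n).ef) hA
  obtain ⟨G, hG, hG1, hGu⟩ := LIM.one hT B (fun n => (hAB n).si) (fun n => (hAB n).ei) hB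
  obtain ⟨h1, -, -, h4, h5, -⟩ := hT
  have cA : ∀ n, Continuous (down (A n)) := fun n => h5 _ (hAB n).ef (hAB n).sf.continuous
  have cB : ∀ n, Continuous (down (B n)) := fun n => h5 _ (hAB n).ei (hAB n).si.continuous
  have cF : Continuous (down F) := hFu.continuous (Frequently.of_forall cA)
  have cG : Continuous (down G) := hGu.continuous (Frequently.of_forall cB)
  have hFG : ∀ q, down F (down G q) = q := by
    intro q
    have h := hFu.tendsto_comp cF.continuousAt (hGu.tendsto_at q)
    have e : ∀ n, down (A n) (down (B n) q) = q := by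
      intro n
      show down (A n) (proj _) = q
      rw [h4 _ (hAB n).ef, (hAB n).fi, h1]
    simp only [e] at h
    exact (tendsto_nhds_unique tendsto_const_nhds h).symm
  have hGF : ∀ q, down G (down F q) = q := by
    intro q
    have h := hGu.tendsto_comp cG.continuousAt (hFu.tendsto_at q)
    have e : ∀ n, down (B n) (down (A n) q) = q := by
      intro n
      show down (B n) (proj _) = q
      rw [h4 _ (hAB n).ei, (hAB n).if', h1]
    simp only [e] at h
    exact (tendsto_nhds_unique tendsto_const_nhds h).symm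
  have mF : MeasurePreserving (down F) volume volume :=
    LIM.mp_limit _ _ cF (fun n => (hAB n).mf) hFu.tendsto_at
  have mG : MeasurePreserving (down G) volume volume :=
    LIM.mp_limit _ _ cG (fun n => (hAB n).mi) hGu.tendsto_at
  refine ⟨⟨down F, down G, hGF, hFG⟩, ⟨⟨F, hF, hF1⟩, ⟨G, hG, hG1⟩⟩, mF, mG, ?_⟩
  intro x
  have hl : Tendsto (fun n => (⟨down (A n), cA n⟩ : C(T3, T3))) atTop (𝓝 ⟨down F, cF⟩) := by
    rw [ContinuousMap.tendsto_iff_tendstoUniformly]
    exact hFu
  have := Filter.Tendsto.compMeasurePreservingLp (p := 2) (E := ℂ) (f := fun _ : ℕ => x) (f₀ := x)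
    tendsto_const_nhds hl (fun n => (hAB n).mf) mF (by norm_num)
  refine this.congr ?_
  intro n
  simp only [kp, dif_pos (hAB n).mf]
  rfl

end Crest.Agent.R81
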