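import Crest.Agent.R81.Defs

/-! Row 81, task ORT: orthogonal errors. -/

set_option autoImplicit false

open Finset MeasureTheory Filter Topology
open scoped ContDiff ComplexConjugate InnerProductSpace Classical
open Crest.AnalysisR.Torus3
open Crest.Agent.R75 (ee)

namespace Crest.Agent.R81

namespace ORT

theorem pyth {E : Type} [NormedAddCommGroup E] [InnerProductSpace ℂ E] (X : Finset V) (e : V → E)
    (h : ∀ m ∈ X, ∀ m' ∈ X, m ≠ m' → ⟪e m, e m'⟫_ℂ = 0) :
    ‖∑ m ∈ X, e m‖ ^ 2 = ∑ m ∈ X, ‖e m‖ ^ 2 := by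
  induction X using Finset.induction_on with
  | empty => simp
  | insert a s ha ih =>
    rw [sum_insert ha, sum_insert ha, ← ih (fun m hm m' hm' =>
      h m (mem_insert_of_mem hm) m' (mem_insert_of_mem hm'))]
    have h0 : ⟪e a, ∑ m ∈ s, e m⟫_ℂ = 0 := by
      rw [inner_sum]
      refine sum_eq_zero fun m hm => h a (mem_insert_self _ _) m (mem_insert_of_mem hm) ?_
      rintro rfl; exact ha hm
    have := norm_add_sq_eq_norm_sq_add_norm_sq_of_inner_eq_zero (𝕜 := ℂ) _ _ h0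
    simpa only [sq] using this

end ORT

theorem ORT_proof : OrtStmt := by
  intro E _ _ X Y x y C t δ hδ hx hy hCY hdis hort herr c
  have hx' : ∀ m ∈ X, ∀ m' ∈ X, m ≠ m' → ⟪x m, x m'⟫_ℂ = 0 := fun m hm m' hm' hne =>
    hx.2 (i := ⟨m, hm⟩) (j := ⟨m', hm'⟩) (fun h => hne (congrArg Subtype.val h))
  have hy' : ∀ m ∈ Y, ∀ m' ∈ Y, m ≠ m' → ⟪y m, y m'⟫_ℂ = 0 := fun m hm m' hm' hne =>
    hy.2 (i := ⟨m, hm⟩) (j := ⟨m', hm'⟩) (fun h => hne (congrArg Subtype.val h))
  constructor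
  · have e1 : ∑ k ∈ Y, (∑ m ∈ X, if k ∈ C m then c m * t m k else 0) • y k =
        ∑ m ∈ X, c m • ∑ k ∈ C m, t m k • y k := by
      simp only [sum_smul]
      rw [sum_comm]
      refine sum_congr rfl fun m hm => ?_
      rw [smul_sum]
      simp only [ite_smul, zero_smul]
      rw [← sum_filter, filter_mem_eq_inter, inter_eq_right.2 (hCY m hm)]
      simp only [mul_smul]
    rw [e1, ← sum_sub_distrib]
    simp only [← smul_sub]
    have h2 := ORT.pyth X (fun m => c m • (x m - ∑ k ∈ C m, t m k • y k)) (by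
      intro m hm m' hm' hne
      rw [inner_smul_left, inner_smul_right]
      refine mul_eq_zero_of_right _ (mul_eq_zero_of_right _ ?_)
      simp only [inner_smul_left, inner_smul_right, inner_sub_left, inner_sub_right, inner_sum,
        sum_inner]
      have a1 : ∑ k ∈ C m, conj (t m k) * ⟪y k, x m'⟫_ℂ = 0 :=
        sum_eq_zero fun k hk => by rw [hort m hm m' hm' hne k hk, mul_zero]
      have a2 : ∑ k' ∈ C m', t m' k' * (⟪x m, y k'⟫_ℂ - ∑ k ∈ C m, conj (t m k) * ⟪y k, y k'⟫_ℂ) = 0 := by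
        refine sum_eq_zero fun k' hk' => ?_
        have b1 : ⟪x m, y k'⟫_ℂ = 0 := by
          rw [inner_eq_zero_symm]; exact hort m' hm' m hm hne.symm k' hk'
        have b2 : ∑ k ∈ C m, conj (t m k) * ⟪y k, y k'⟫_ℂ = 0 := by
          refine sum_eq_zero fun k hk => ?_
          rw [hy' k (hCY m hm hk) k' (hCY m' hm' hk'), mul_zero]
          rintro rfl
          exact Finset.disjoint_left.1 (hdis m hm m' hm' hne) hk hk'
        rw [b1, b2]; simp
      rw [hx' m hm m' hm' hne, a1, a2]; simp)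
    have h3 : ‖∑ m ∈ X, c m • (x m - ∑ k ∈ C m, t m k • y k)‖ ^ 2 ≤ δ ^ 2 * ∑ m ∈ X, ‖c m‖ ^ 2 := by
      rw [h2, mul_sum]
      refine sum_le_sum fun m hm => ?_
      rw [norm_smul, mul_pow, mul_comm]
      gcongr
      exact herr m hm
    have h4 : (0 : ℝ) ≤ ∑ m ∈ X, ‖c m‖ ^ 2 := sum_nonneg fun _ _ => sq_nonneg _
    refine (pow_le_pow_iff_left₀ (norm_nonneg _) (by positivity) two_ne_zero).1 ?_
    rw [mul_pow, Real.sq_sqrt h4]
    exact h3
  · intro ht
    have e1 : ∀ k, ‖∑ m ∈ X, if k ∈ C m then c m * t m k else 0‖ ^ 2 =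
        ∑ m ∈ X, if k ∈ C m then ‖c m‖ ^ 2 * ‖t m k‖ ^ 2 else 0 := by
      intro k
      by_cases hk : ∃ m ∈ X, k ∈ C m
      · obtain ⟨m, hm, hk⟩ := hk
        have hn : ∀ m' ∈ X, m' ≠ m → k ∉ C m' := fun m' hm' hne hk' =>
          Finset.disjoint_left.1 (hdis m' hm' m hm hne) hk' hk
        rw [sum_eq_single_of_mem m hm (fun m' hm' hne => if_neg (hn m' hm' hne)),
          sum_eq_single_of_mem m hm (fun m' hm' hne => if_neg (hn m' hm' hne)), if_pos hk, if_pos hk,
          norm_mul, mul_pow]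
      · push Not at hk
        rw [sum_eq_zero (fun m hm => if_neg (hk m hm)), sum_eq_zero (fun m hm => if_neg (hk m hm))]
        simp
    simp only [e1]
    rw [sum_comm]
    refine sum_le_sum fun m hm => ?_
    rw [← sum_filter, filter_mem_eq_inter, inter_eq_right.2 (hCY m hm), ← mul_sum]
    have := ht m hm
    have h0 : 0 ≤ ‖c m‖ ^ 2 := sq_nonneg _
    nlinarith

end Crest.Agent.R81
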