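import Crest.Agent.R81.Defs

/-! Row 81, task PRF: smooth periodic profiles. -/

set_option autoImplicit false

open Finset MeasureTheory Filter Topology
open scoped ContDiff

namespace Crest.Agent.R81

theorem PRF.smooth (g : ℤ → ℝ → ℝ) (δ : ℝ) (hδ : 0 < δ) (hδ1 : δ < 1)
    (hg : ∀ i, ContDiff ℝ ∞ (g i)) (h0 : ∀ i s, s ≤ δ ∨ 1 - δ ≤ s → g i s = 0) :
    ContDiff ℝ ∞ (fun x : ℝ => g ⌊x⌋ (Int.fract x)) := by
  rw [contDiff_iff_contDiffAt]
  intro x
  rcases (Int.floor_le x).eq_or_lt with e | e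
  · refine (contDiffAt_const (c := (0 : ℝ))).congr_of_eventuallyEq ?_
    filter_upwards [Ioo_mem_nhds (show x - δ < x by linarith) (show x < x + δ by linarith)]
      with y hy
    refine h0 _ _ ?_
    rcases le_or_gt x y with h | h
    · have : ⌊y⌋ = ⌊x⌋ := Int.floor_eq_iff.2 ⟨by linarith, by linarith [hy.2]⟩
      left; rw [Int.fract, this]; linarith [hy.2]
    · have : ⌊y⌋ = ⌊x⌋ - 1 :=
        Int.floor_eq_iff.2 ⟨by push_cast; linarith [hy.1], by push_cast; linarith⟩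
      right; rw [Int.fract, this]; push_cast; linarith [hy.1]
  · have h1 : ContDiffAt ℝ ∞ (fun y : ℝ => g ⌊x⌋ (y - ⌊x⌋)) x :=
      ((hg _).comp (contDiff_id.sub contDiff_const)).contDiffAt
    refine h1.congr_of_eventuallyEq ?_
    filter_upwards [Ioo_mem_nhds e (Int.lt_floor_add_one x)] with y hy
    have : ⌊y⌋ = ⌊x⌋ := Int.floor_eq_iff.2 ⟨hy.1.le, hy.2⟩
    rw [Int.fract, this]

theorem PRF_proof : PrfStmt := by
  intro Q w η hQ hw h0 h1
  let χ : ContDiffBump (1 / 2 : ℝ) := ⟨1 / 2 - η, 1 / 2 - η / 2, by linarith, by linarith⟩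
  have c0 : ∀ s : ℝ, s ≤ η / 2 ∨ 1 - η / 2 ≤ s → χ s = 0 := fun s hs =>
    χ.zero_of_le_dist (by
      rw [Real.dist_eq, le_abs]
      show 1 / 2 - η / 2 ≤ _ ∨ 1 / 2 - η / 2 ≤ _
      rcases hs with h | h
      · right; linarith
      · left; linarith)
  have c1 : ∀ s : ℝ, η ≤ s → s ≤ 1 - η → χ s = 1 := fun s a b =>
    χ.one_of_mem_closedBall (by
      rw [Metric.mem_closedBall, Real.dist_eq, abs_le]
      show -(1 / 2 - η) ≤ _ ∧ _ ≤ 1 / 2 - η
      constructor <;> linarith)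
  have hQ' : (Q : ℝ) ≠ 0 := by positivity
  have key : ∀ g : ℤ → ℝ → ℝ, (∀ i, ContDiff ℝ ∞ (g i)) → (∀ i, g (i + Q) = g i) →
      ∃ F, SmPer F ∧ ∀ (i : ℤ) (s : ℝ), η ≤ s → s ≤ 1 - η → F ((i + s) / Q) = g i s := by
    intro g hg hp
    refine ⟨fun y => χ (Int.fract (Q * y)) * g ⌊Q * y⌋ (Int.fract (Q * y)), ⟨?_, fun y => ?_⟩,
      fun i s a b => ?_⟩
    · exact (PRF.smooth (fun i s => χ s * g i s) (η / 2) (by linarith) (by linarith)
        (fun i => χ.contDiff.mul (hg i)) (fun i s hs => by rw [c0 s hs, zero_mul])).comp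
        (contDiff_const.mul contDiff_id)
    · simp only [mul_add, mul_one, Int.fract_add_natCast, Int.floor_add_natCast, hp]
    · have e : (Q : ℝ) * ((i + s) / Q) = i + s := by field_simp
      have e1 : ⌊(i : ℝ) + s⌋ = i := Int.floor_eq_iff.2 ⟨by linarith, by linarith⟩
      simp only [e, Int.fract, e1, add_sub_cancel_left, c1 s a b, one_mul]
  obtain ⟨U, hU, eU⟩ := key (fun _ s => (s - 1 / 2) ^ 2 / (2 * Q)) (fun _ => by fun_prop)
    (fun _ => rfl)
  obtain ⟨v, hv, ev⟩ := key (fun i _ => w i) (fun _ => contDiff_const)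
    (fun i => by simp only [hw i])
  exact ⟨U, v, hU, hv, eU, ev⟩

end Crest.Agent.R81
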