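import Crest.Agent.R81.Defs

/-! Row 81, task REAL: real functions. -/

set_option autoImplicit false

open Finset MeasureTheory Filter Topology
open scoped ContDiff ComplexConjugate InnerProductSpace Classical
open Crest.AnalysisR.Torus3
open Crest.Agent.R75 (ee)

namespace Crest.Agent.R81

namespace REAL

theorem em_neg (m : V) (q : T3) : em (-m) q = conj (em m q) := by
  have : (![(-m).1, (-m).2.1, (-m).2.2] : Fin 3 → ℤ) = -![m.1, m.2.1, m.2.2] := by
    funext i; fin_cases i <;> rfl
  simp only [em, this, UnitAddTorus.mFourier_neg]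

theorem kp_ae (hT : TlaStmt) (G Gi : R3 → R3) (h : IsTL G Gi) (m : V) :
    (kp Gi (eL m) : T3 → ℂ) =ᵐ[volume] fun q => em m (down Gi q) := by
  obtain ⟨-, -, -, -, -, -, -, -, -, h10, -, -, -, h14, -⟩ := hT
  refine (h14 Gi G (h10 G Gi h) (eL m)).trans ?_
  have h1 : (eL m : T3 → ℂ) =ᵐ[volume] em m := ContinuousMap.coeFn_toLp (𝕜 := ℂ) volume (em m)
  exact h.mi.quasiMeasurePreserving.ae_eq_comp h1

theorem sum_ae (M : Finset V) (x : V → HH) (f : V → T3 → ℂ)
    (h : ∀ m, (x m : T3 → ℂ) =ᵐ[volume] f m) (γ : V → ℂ) :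
    ((∑ m ∈ M, γ m • x m : HH) : T3 → ℂ) =ᵐ[volume] fun q => ∑ m ∈ M, γ m * f m q := by
  induction M using Finset.induction_on with
  | empty =>
    simp only [sum_empty]
    exact Lp.coeFn_zero ℂ 2 (volume : Measure T3)
  | insert a s ha ih =>
    simp only [sum_insert ha]
    filter_upwards [Lp.coeFn_add (γ a • x a) (∑ m ∈ s, γ m • x m), Lp.coeFn_smul (γ a) (x a), h a, ih]
      with q h1 h2 h3 h4
    rw [h1, Pi.add_apply, h2, h4, Pi.smul_apply, h3, smul_eq_mul]

end REAL

theorem REAL_proof (hT : TlaStmt) (_hB : BasStmt) : RealStmt := by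
  intro G Gi h
  constructor
  · intro M γ hM hγ
    filter_upwards [REAL.sum_ae M _ _ (REAL.kp_ae hT G Gi h) γ] with q hq
    rw [hq, ← Complex.conj_eq_iff_im, map_sum]
    refine sum_nbij' (fun m => -m) (fun m => -m) hM hM (fun m _ => neg_neg m) (fun m _ => neg_neg m) ?_
    intro m hm
    rw [map_mul, hγ m hm, REAL.em_neg]
  · intro x hx m
    rw [L2.inner_def, L2.inner_def, ← integral_conj]
    refine integral_congr_ae ?_
    filter_upwards [REAL.kp_ae hT G Gi h m, REAL.kp_ae hT G Gi h (-m), hx] with q h1 h2 h3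
    rw [h1, h2, REAL.em_neg]
    have := Complex.conj_eq_iff_im.2 h3
    simp only [RCLike.inner_apply, map_mul, this]

end Crest.Agent.R81
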