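import Crest.Agent.R81.Defs

set_option autoImplicit false

open Finset MeasureTheory Filter Topology
open scoped ContDiff ComplexConjugate InnerProductSpace Classical
open Crest.AnalysisR.Torus3
open Crest.Agent.R75 (ee)

namespace Crest.Agent.R81

namespace SM

noncomputable def Wf (D' : ℝ × ℝ → ℝ) (v : ℝ → ℝ) (s : ℝ × ℝ × ℝ) (q : R3) : ℝ :=
  D' (s.2.1, q 2 - v (q 1)) + 1 / 2

noncomputable def Phi (a e l : ℝ) (D D' : ℝ × ℝ → ℝ) (v v' : ℝ → ℝ) (s : ℝ × ℝ × ℝ) (q : R3) : R3 :=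
  ![q 0 + a + s.1 * l * Wf D' v s q + v' (q 2 - v (q 1) + s.2.1) - v' (q 2 - v (q 1))
      + e * (1 + s.2.2 * Wf D' v s q * l) * D (s.1 + s.2.2 * (s.1 * l * Wf D' v s q), q 1) * l,
    q 1 + (s.1 + s.2.2 * (s.1 * l * Wf D' v s q)),
    q 2 - v (q 1) + s.2.1 + v (q 1 + (s.1 + s.2.2 * (s.1 * l * Wf D' v s q)))]

noncomputable def Phi0 (a e l : ℝ) (D : ℝ × ℝ → ℝ) (v : ℝ → ℝ) (t : ℝ) (q : R3) : R3 :=
  ![q 0 + a + e * D (t, q 1) * l, q 1 + t, q 2 - v (q 1) + v (q 1 + t)]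

theorem per {U : ℝ → ℝ} (h : SmPer U) (y : ℝ) (k : ℤ) : U (y + k) = U y := by
  simpa using (h.2.int_mul k) y

theorem Phi_smooth (a e l : ℝ) {D D' : ℝ × ℝ → ℝ} {v v' : ℝ → ℝ} (hD : ContDiff ℝ ∞ D)
    (hD' : ContDiff ℝ ∞ D') (hv : ContDiff ℝ ∞ v) (hv' : ContDiff ℝ ∞ v') :
    ContDiff ℝ ∞ fun x : (ℝ × ℝ × ℝ) × R3 => Phi a e l D D' v v' x.1 x.2 := by
  rw [contDiff_pi]
  intro i
  fin_cases i <;> simp only [Phi, Wf, Fin.zero_eta, Fin.mk_one, Fin.reduceFinMk, Matrix.cons_val] <;>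
    fun_prop

theorem Phi0_smooth (a e l : ℝ) {D : ℝ × ℝ → ℝ} {v : ℝ → ℝ} (hD : ContDiff ℝ ∞ D)
    (hv : ContDiff ℝ ∞ v) :
    ContDiff ℝ ∞ fun x : (ℝ × ℝ × ℝ) × R3 => Phi0 a e l D v x.1.1 x.2 := by
  rw [contDiff_pi]
  intro i
  fin_cases i <;> simp only [Phi0, Fin.zero_eta, Fin.mk_one, Fin.reduceFinMk, Matrix.cons_val] <;>
    fun_prop

theorem Phi_per (a e l : ℝ) {D D' : ℝ × ℝ → ℝ} {v v' : ℝ → ℝ}
    (hD : ∀ (h y : ℝ) (k : ℤ), D (h, y + k) = D (h, y))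
    (hD' : ∀ (h y : ℝ) (k : ℤ), D' (h, y + k) = D' (h, y)) (hv : SmPer v) (hv' : SmPer v')
    (s : ℝ × ℝ × ℝ) (q : R3) (κ : Fin 3 → ℤ) :
    Phi a e l D D' v v' s (q + zc κ) = Phi a e l D D' v v' s q + zc κ := by
  have e1 : q 2 + κ 2 - v (q 1 + κ 1) = q 2 - v (q 1) + κ 2 := by rw [per hv]; ring
  have hW : Wf D' v s (q + zc κ) = Wf D' v s q := by
    simp only [Wf, Pi.add_apply, zc, e1, hD']
  have e2 : ∀ t : ℝ, v' (q 2 - v (q 1) + κ 2 + t) = v' (q 2 - v (q 1) + t) := fun t => by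
    rw [add_right_comm, per hv']
  have e3 : ∀ t : ℝ, v (q 1 + κ 1 + t) = v (q 1 + t) := fun t => by
    rw [add_right_comm, per hv]
  ext i
  fin_cases i <;> simp only [Phi, hW, Pi.add_apply, zc, e1, e2, e3, hD, per hv', Fin.zero_eta,
    Fin.mk_one, Fin.reduceFinMk, Matrix.cons_val] <;> ring

theorem Phi0_per (a e l : ℝ) {D : ℝ × ℝ → ℝ} {v : ℝ → ℝ}
    (hD : ∀ (h y : ℝ) (k : ℤ), D (h, y + k) = D (h, y)) (hv : SmPer v)
    (t : ℝ) (q : R3) (κ : Fin 3 → ℤ) :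
    Phi0 a e l D v t (q + zc κ) = Phi0 a e l D v t q + zc κ := by
  have e3 : ∀ t : ℝ, v (q 1 + κ 1 + t) = v (q 1 + t) := fun t => by
    rw [add_right_comm, per hv]
  ext i
  fin_cases i <;> simp only [Phi0, Pi.add_apply, zc, e3, hD, per hv, Fin.zero_eta,
    Fin.mk_one, Fin.reduceFinMk, Matrix.cons_val] <;> ring

theorem Phi_zero (a e l : ℝ) (D D' : ℝ × ℝ → ℝ) (v v' : ℝ → ℝ) (q : R3) :
    Phi a e l D D' v v' 0 q = Phi0 a e l D v 0 q := by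
  ext i
  fin_cases i <;> simp [Phi, Phi0]

theorem lam_eqv (L : ℕ) : Eqv (lam L) :=
  ⟨fun κ => ![κ 2 + L * κ 0, κ 0, κ 1], fun p κ => by
    ext i
    fin_cases i <;> simp [lam, zc]
    ring⟩

theorem lamI_eqv (L : ℕ) : Eqv (lamI L) :=
  ⟨fun κ => ![κ 1, κ 2, κ 0 - L * κ 1], fun p κ => by
    ext i
    fin_cases i <;> simp [lamI, zc]
    ring⟩

theorem lam_smooth (L : ℝ) : ContDiff ℝ ∞ (lam L) := by
  rw [contDiff_pi]
  intro i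
  fin_cases i <;> simp only [lam, Fin.zero_eta, Fin.mk_one, Fin.reduceFinMk, Matrix.cons_val] <;>
    fun_prop

theorem lamI_smooth (L : ℝ) : ContDiff ℝ ∞ (lamI L) := by
  rw [contDiff_pi]
  intro i
  fin_cases i <;> simp only [lamI, Fin.zero_eta, Fin.mk_one, Fin.reduceFinMk, Matrix.cons_val] <;>
    fun_prop

theorem id0 {c a e l t : ℝ} {D : ℝ × ℝ → ℝ} {U v : ℝ → ℝ}
    (hD : ∀ h y, U (y + h) - U y = h * D (h, y)) (hc : c * t = e * l) (q : R3) :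
    hh c U v (hh (-c) U (fun y => -v y) q + ![a, t, 0]) = Phi0 a e l D v t q := by
  ext i
  fin_cases i <;> simp only [hh, Phi0, Pi.add_apply, Fin.zero_eta, Fin.mk_one, Fin.reduceFinMk,
    Matrix.cons_val]
  · linear_combination c * hD t (q 1) + D (t, q 1) * hc
  · ring

theorem id1 {c c₂ a a₂ e l t t' μ L₂ : ℝ} {k : ℤ} {D D' : ℝ × ℝ → ℝ} {U v U' v' : ℝ → ℝ}
    (hD : ∀ h y, U (y + h) - U y = h * D (h, y)) (hD' : ∀ h y, U' (y + h) - U' y = h * D' (h, y))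
    (hc : c * t = e * l) (hc₂ : c₂ * t' = μ * (t * l)) (ha₂ : a₂ = t + μ * (t * l) / 2)
    (hμ : L₂ * μ = 1) (hL : L₂ * t = k + a) (q : R3) :
    hh c U v (lam L₂ (hh c₂ U' v' (hh (-c₂) U' (fun y => -v' y)
      (lamI L₂ (hh (-c) U (fun y => -v y) q)) + ![a₂, t', 0]))) =
      Phi a e l D D' v v' (t, t', μ) q + zc ![k, 0, 0] := by
  have hy : q 1 + -c₂ * U' (q 2 + -v (q 1)) + a₂ + c₂ * U' (q 2 + -v (q 1) + t') =
      q 1 + (t + μ * (t * l * Wf D' v (t, t', μ) q)) := by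
    simp only [Wf, ← sub_eq_add_neg]
    linear_combination c₂ * hD' t' (q 2 - v (q 1)) + D' (t', q 2 - v (q 1)) * hc₂ + ha₂
  ext i
  fin_cases i <;> simp only [hh, lam, lamI, Phi, zc, Pi.add_apply, Fin.zero_eta, Fin.mk_one,
    Fin.reduceFinMk, Matrix.cons_val, hy]
  · set W := Wf D' v (t, t', μ) q
    simp only [← sub_eq_add_neg]
    linear_combination c * hD (t + μ * (t * l * W)) (q 1)
      + (1 + μ * W * l) * D (t + μ * (t * l * W), q 1) * hc + hL + t * l * W * hμ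
  · simp
  · simp only [← sub_eq_add_neg]
    simp

end SM

open SM in
theorem SM_proof (hD : DqStmt) (hS : SoftStmt) (hT : TlaStmt) : SmStmt := by
  intro n G Gi τ Lp L U v U' v' hG hτ hLp hL hU hv hU' hv'
  obtain ⟨D, D1, D2, D3⟩ := hD U hU
  obtain ⟨D', D1', D2', D3'⟩ := hD U' hU'
  obtain ⟨B, hB⟩ := (hT.2.2.2.2.2.1 G (lam L) hG.ef (lam_eqv L)).1
  obtain ⟨Bi, hBi⟩ := (hT.2.2.2.2.2.1 (lamI L) Gi (lamI_eqv L) hG.ei).1
  set K : R3 → R3 := G ∘ lam L with hK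
  set Ki : R3 → R3 := lamI L ∘ Gi with hKi
  have sK : ContDiff ℝ ∞ K := hG.sf.comp (lam_smooth L)
  have sKi : ContDiff ℝ ∞ Ki := (lamI_smooth L).comp hG.si
  set ξ : ℝ := 1 / τ + 1 / (2 * Lp * L * τ) with hξ
  set e₀ : ℝ := 1 / (τ * Lp) with he₀
  set F : ℝ → (ℝ × ℝ × ℝ) × R3 → R3 := fun σ x =>
    K (Phi (σ * ξ) (σ * e₀) (1 / L) D D' v v' x.1 (Ki x.2))
      - K (Phi0 (σ * ξ) (σ * e₀) (1 / L) D v x.1.1 (Ki x.2)) with hF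
  have sF : ∀ σ, ContDiff ℝ ∞ (F σ) := fun σ => by
    have h0 : ContDiff ℝ ∞ fun x : (ℝ × ℝ × ℝ) × R3 => (x.1, Ki x.2) :=
      contDiff_fst.prodMk (sKi.comp contDiff_snd)
    exact (sK.comp ((Phi_smooth _ _ _ D1 D1' hv.1 hv'.1).comp h0)).sub
      (sK.comp ((Phi0_smooth _ _ _ D1 hv.1).comp h0))
  have key : ∀ σ, ∃ ρ : ℝ, 0 < ρ ∧ ∀ s, ‖s‖ ≤ ρ → ∀ k < n, ∀ p,
      ‖iteratedFDeriv ℝ k (fun p => F σ (s, p)) p‖ ≤ (1 / 2 : ℝ) ^ n := fun σ =>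
    hS (F σ) (sF σ) (fun s p κ => by
      simp only [hF]
      rw [hBi, Phi_per _ _ _ D2 D2' hv hv', Phi0_per _ _ _ D2 hv, hB, hB]
      abel) (fun p => by simp only [hF]; rw [Phi_zero]; exact sub_self _) n _ (by positivity)
  obtain ⟨ρ₁, r1, k1⟩ := key 1
  obtain ⟨ρ₂, r2, k2⟩ := key (-1)
  refine ⟨⌈1 / min ρ₁ ρ₂⌉₊ + 1, fun R N' Γ hR hΓ hN' L₂ R₂ N₂ zz Γ₂ σ hσ hτL hL₂ hR₂ hΓ₂ hN₂ => ?_⟩
  have hm : 0 < min ρ₁ ρ₂ := lt_min r1 r2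
  have R0 : 0 < R := by omega
  have tR : 0 < τ * R := Nat.mul_pos hτ R0
  have cτ : (0 : ℝ) < τ := by exact_mod_cast hτ
  have cLp : (0 : ℝ) < Lp := by exact_mod_cast hLp
  have cL : (0 : ℝ) < L := by exact_mod_cast hL
  have cR : (0 : ℝ) < R := by exact_mod_cast R0
  have cR₂ : (0 : ℝ) < R₂ := by exact_mod_cast hR₂
  have cL₂ : (0 : ℝ) < L₂ := by exact_mod_cast tR.trans_le hτL
  have small : ∀ x : ℕ, R ≤ x → 1 / (x : ℝ) ≤ min ρ₁ ρ₂ := fun x hx => by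
    have h1 : 1 / min ρ₁ ρ₂ ≤ x := (Nat.le_ceil _).trans (Nat.cast_le.2 (by omega))
    exact (one_div_le (cR.trans_le (Nat.cast_le.2 hx)) hm).2 h1
  have hRt : R ≤ τ * R := Nat.le_mul_of_pos_left _ hτ
  have hσ1 : |σ| = 1 := by rcases hσ with rfl | rfl <;> simp
  set s : ℝ × ℝ × ℝ := (σ / (τ * R : ℕ), σ / (τ * R * R₂ : ℕ), 1 / L₂) with hs
  have ns : ‖s‖ ≤ min ρ₁ ρ₂ := by
    simp only [hs, Prod.norm_mk, Real.norm_eq_abs, max_le_iff, abs_div, hσ1, Nat.abs_cast, abs_one]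
    exact ⟨small _ hRt, small _ (hRt.trans (Nat.le_mul_of_pos_right _ hR₂)), small _ (hRt.trans hτL)⟩
  obtain ⟨σ', hσ'⟩ : ∃ σ' : ℤ, (σ' : ℝ) = σ := by
    rcases hσ with rfl | rfl
    · exact ⟨1, by simp⟩
    · exact ⟨-1, by simp⟩
  have hc : Γ / L * (σ / (τ * R : ℕ)) = σ * e₀ * (1 / L) := by
    rw [hΓ, he₀]; push_cast; field_simp
  have hx : (N' : ℝ) / (τ * R : ℕ) = ξ := by
    rw [hN', hΓ, hξ]; push_cast; field_simp
  refine ⟨fun p => F σ (s, p), (sF σ).comp (contDiff_const.prodMk contDiff_id), ?_, fun p => ?_⟩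
  · rcases hσ with rfl | rfl
    · exact k1 s (ns.trans (min_le_left _ _))
    · exact k2 s (ns.trans (min_le_right _ _))
  have b1 : σ • beta (τ * R) N' = ![σ * ξ, σ / (τ * R : ℕ), 0] := by
    ext i
    fin_cases i <;> simp [beta, ← hx, div_eq_mul_inv]
  have b2 : σ • beta (τ * R * R₂) N₂ =
      ![σ * ((N₂ : ℝ) / (τ * R * R₂ : ℕ)), σ / (τ * R * R₂ : ℕ), 0] := by
    ext i
    fin_cases i <;> simp [beta, div_eq_mul_inv]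
  have A0 : Tn (G ∘ gg L Γ U v) (ggI L Γ U v ∘ Gi) (τ * R) N' σ p =
      K (Phi0 (σ * ξ) (σ * e₀) (1 / L) D v s.1 (Ki p)) := by
    rw [← id0 D3 hc (Ki p), ← b1]
    rfl
  have A1 : Tn ((G ∘ gg L Γ U v) ∘ gg L₂ Γ₂ U' v') (ggI L₂ Γ₂ U' v' ∘ ggI L Γ U v ∘ Gi)
      (τ * R * R₂) N₂ σ p =
      K (Phi (σ * ξ) (σ * e₀) (1 / L) D D' v v' s (Ki p) + zc ![σ' * zz, 0, 0]) := by
    rw [hs, ← id1 (c₂ := Γ₂ / L₂) (L₂ := L₂) (a₂ := σ * ((N₂ : ℝ) / (τ * R * R₂ : ℕ))) D3 D3' hc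
      ?_ ?_ ?_ ?_ (Ki p), ← b2]
    · rfl
    · rw [hΓ₂]; push_cast; field_simp
    · rw [hN₂, hΓ₂]; push_cast; field_simp
    · field_simp
    · rw [← hx, hL₂]; push_cast; rw [hσ']; field_simp
  rw [A0, A1, hB, hT.2.2.1]
  simp only [hF]
  rw [add_sub_cancel]

end Crest.Agent.R81
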