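import Crest.Agent.R81.Defs

set_option autoImplicit false

open Finset MeasureTheory Filter Topology
open scoped ContDiff ComplexConjugate InnerProductSpace Classical
open Crest.AnalysisR.Torus3
open Crest.Agent.R75 (ee)

namespace Crest.Agent.R81

namespace SOFT

abbrev S3 : Type := ℝ × ℝ × ℝ

lemma eq_comp (F : S3 × R3 → R3) (hF : ContDiff ℝ ∞ F) (k : ℕ) (s : S3) (p : R3) :
    iteratedFDeriv ℝ k (fun p => F (s, p)) p =
      (iteratedFDeriv ℝ k F (s, p)).compContinuousLinearMap
        (fun _ => ContinuousLinearMap.inr ℝ S3 R3) := by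
  have h1 : (fun p : R3 => F (s, p)) =
      (fun z : S3 × R3 => F ((s, 0) + z)) ∘ (ContinuousLinearMap.inr ℝ S3 R3) := by
    funext q; simp
  have h2 : ContDiff ℝ ∞ (fun z : S3 × R3 => F ((s, 0) + z)) :=
    hF.comp (contDiff_const.add contDiff_id)
  rw [h1, ContinuousLinearMap.iteratedFDeriv_comp_right _ h2 _ (mod_cast le_top),
    iteratedFDeriv_comp_add_left]
  simp

lemma cont (F : S3 × R3 → R3) (hF : ContDiff ℝ ∞ F) (k : ℕ) :
    Continuous (fun z : S3 × R3 => iteratedFDeriv ℝ k (fun p => F (z.1, p)) z.2) := by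
  have : (fun z : S3 × R3 => iteratedFDeriv ℝ k (fun p => F (z.1, p)) z.2) =
      fun z => ContinuousMultilinearMap.compContinuousLinearMapL
        (fun _ : Fin k => ContinuousLinearMap.inr ℝ S3 R3) (iteratedFDeriv ℝ k F z) := by
    funext z; rw [eq_comp F hF]; rfl
  rw [this]
  exact (map_continuous _).comp (hF.continuous_iteratedFDeriv (mod_cast le_top))

end SOFT

theorem SOFT_proof : SoftStmt := by
  intro F hF hper h0 n ε hε
  have hK : IsCompact (Set.Icc (0 : R3) 1) := isCompact_Icc
  have key : ∀ᶠ s in 𝓝 (0 : SOFT.S3), ∀ k ∈ range n, ∀ p ∈ Set.Icc (0 : R3) 1,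
      ‖iteratedFDeriv ℝ k (fun p => F (s, p)) p‖ < ε := by
    rw [Filter.eventually_all_finset]
    intro k _
    refine hK.eventually_forall_of_forall_eventually
      (P := fun s p => ‖iteratedFDeriv ℝ k (fun p => F (s, p)) p‖ < ε) ?_
    intro y _
    have hc := (SOFT.cont F hF k).norm
    have : ‖iteratedFDeriv ℝ k (fun p => F (((0 : SOFT.S3), y).1, p)) ((0 : SOFT.S3), y).2‖ < ε := by
      have e : (fun p => F ((0 : SOFT.S3), p)) = fun _ => (0 : R3) := funext h0
      simp only [e, iteratedFDeriv_fun_zero]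
      simpa using hε
    exact hc.continuousAt.eventually_lt continuousAt_const this
  obtain ⟨r, hr, hball⟩ := Metric.eventually_nhds_iff.1 key
  refine ⟨r / 2, by positivity, fun s hs k hk p => ?_⟩
  have hs' : dist s 0 < r := by rw [dist_zero_right]; linarith
  have h1 := hball hs' k (mem_range.2 hk) (fun i => Int.fract (p i))
    ⟨fun i => Int.fract_nonneg _, fun i => (Int.fract_lt_one _).le⟩
  have e : p = (fun i => Int.fract (p i)) + zc (fun i => ⌊p i⌋) := by
    funext i; simp [zc]
  have e2 : iteratedFDeriv ℝ k (fun p => F (s, p)) p =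
      iteratedFDeriv ℝ k (fun p => F (s, p)) (fun i => Int.fract (p i)) := by
    conv_lhs => rw [e]
    rw [← iteratedFDeriv_comp_add_right k (zc fun i => ⌊p i⌋)]
    simp only [hper]
  rw [e2]; exact h1.le

end Crest.Agent.R81
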