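import Crest.Agent.R81.Defs

/-! Row 81, task TRK. -/

set_option autoImplicit false

open Finset MeasureTheory Filter Topology
open scoped ContDiff ComplexConjugate InnerProductSpace Classical
open Crest.AnalysisR.Torus3
open Crest.Agent.R75 (ee)

namespace Crest.Agent.R81

namespace TRK

theorem zero_of {L : ℕ} {a y : ℤ} (hy : |y| < L) (h : y + L * a = 0) : a = 0 ∧ y = 0 := by
  have ha : a = 0 := by
    by_contra hne
    have h1 : 1 ≤ |a| := Int.one_le_abs hne
    have h2 : y = -(L * a) := by linarith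
    rw [h2, abs_neg, abs_mul, abs_of_nonneg (by positivity : (0 : ℤ) ≤ L)] at hy
    nlinarith [(by positivity : (0 : ℤ) ≤ L)]
  refine ⟨ha, ?_⟩
  rw [ha] at h
  simpa using h

theorem gd {L : ℕ} {m : V} {j : ℤ} (hy : |m.2.1| < L) (hj : m.1 = 0 → m.2.1 = 0 → j = 0) {k : ℕ}
    (hk : k < 3) (h : Gd k m) : Gd (k + 1) (line L m j) := by
  obtain ⟨a, y, z⟩ := m
  simp only at hy hj
  interval_cases k
  · show ¬ (y + L * a = 0 ∧ z + j = 0)
    rintro ⟨h1, h2⟩
    obtain ⟨ha, hy0⟩ := zero_of hy h1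
    have := hj ha hy0
    apply (show (a, y, z) ≠ 0 from h)
    rw [ha, hy0, show z = 0 by linarith]
    rfl
  · show y + L * a ≠ 0
    intro h1
    exact (show ¬ (a = 0 ∧ y = 0) from h) (zero_of hy h1)
  · exact h

end TRK

open TRK

theorem TRK_proof (hT : TlaStmt) (hB : BasStmt) (hI : InnStmt) : TrkStmt := by
  intro G Gi L Γ δ U v W₀ hG hL hU hv hδ hW
  obtain ⟨-, -, -, -, -, -, -, -, -, hsym, hcomp, hinn, hnorm, -, hkk, hinv, -, -⟩ := hT
  obtain ⟨hon, -, -, -, hap⟩ := hB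
  obtain ⟨hg, hc1, hc2, hc3⟩ := hI L Γ U v hL hU hv
  have hε : 0 < δ / (W₀.card + 1) := by positivity
  choose S hS1 hS2 using fun m : V => hap (kp (gg L Γ U v) (eL m)) _ hε
  have hline : ∀ m, ∀ c ∈ S m, ∃ j, c = line L m j ∧ (m.1 = 0 → m.2.1 = 0 → j = 0) := by
    intro m c hc
    have h0 := hS1 m c hc
    have : ∃ j, c = line L m j := by
      by_contra hn
      exact h0 (hc2 m c fun j hj => hn ⟨j, hj⟩)
    obtain ⟨j, rfl⟩ := this
    refine ⟨j, rfl, fun h1 h2 => ?_⟩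
    by_contra hj
    exact h0 (by rw [hc1, hc3 m j h1 h2 hj])
  have hGi := hsym _ _ hG
  have hgi := hsym _ _ hg
  have hK := hcomp _ _ _ _ hgi hGi
  have hE : ∀ m, kp Gi (eL m) = kp (ggI L Γ U v ∘ Gi) (kp (gg L Γ U v) (eL m)) := by
    intro m
    rw [← hkk _ _ _ _ hgi hGi, hinv _ _ hg]
  refine ⟨W₀.biUnion S, fun c hc => ?_, fun k hk y hy => ?_⟩
  · obtain ⟨m, hm, hc⟩ := mem_biUnion.1 hc
    obtain ⟨j, hj, -⟩ := hline m c hc
    exact ⟨m, hm, j, hj⟩
  · have e : {m | m ∈ W₀ ∧ Gd k m} = ↑(W₀.filter (Gd k)) := by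
      ext m; simp
    rw [e, Submodule.mem_span_image_finset_iff_exists_fun'] at hy
    obtain ⟨c, hc⟩ := hy
    have hon' : Orthonormal ℂ fun m => kp Gi (eL m) := by
      rw [orthonormal_iff_ite] at hon ⊢
      intro i j
      rw [hinn _ _ hGi, hon]
    have hcm : ∀ m ∈ W₀.filter (Gd k), ‖c m‖ ≤ ‖y‖ := by
      intro m hm
      have h1 : ⟪kp Gi (eL m), y⟫_ℂ = c m := by
        rw [← hc]; exact hon'.inner_right_sum c hm
      rw [← h1]
      refine (norm_inner_le_norm _ _).trans ?_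
      rw [hon'.1 m, one_mul]
    refine ⟨∑ m ∈ W₀.filter (Gd k), c m • kp (ggI L Γ U v ∘ Gi)
      (∑ m' ∈ S m, ⟪eL m', kp (gg L Γ U v) (eL m)⟫_ℂ • eL m'), ?_, ?_⟩
    · refine Submodule.sum_mem _ fun m hm => Submodule.smul_mem _ _ ?_
      rw [map_sum]
      refine Submodule.sum_mem _ fun m' hm' => ?_
      rw [map_smul]
      refine Submodule.smul_mem _ _ (Submodule.subset_span ⟨m', ⟨?_, ?_⟩, rfl⟩)
      · exact mem_biUnion.2 ⟨m, (mem_filter.1 hm).1, hm'⟩
      · obtain ⟨j, rfl, hj⟩ := hline m m' hm'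
        exact gd (hW m (mem_filter.1 hm).1) hj hk (mem_filter.1 hm).2
    · conv_lhs => rw [← hc]
      rw [← sum_sub_distrib]
      refine (norm_sum_le _ _).trans ?_
      calc _ ≤ ∑ _m ∈ W₀.filter (Gd k), ‖y‖ * (δ / (W₀.card + 1)) := by
            refine sum_le_sum fun m hm => ?_
            rw [← smul_sub, norm_smul, hE m, ← map_sub, hnorm _ _ hK]
            exact mul_le_mul (hcm m hm) (hS2 m) (norm_nonneg _) (norm_nonneg _)
        _ ≤ (W₀.card + 1) * (‖y‖ * (δ / (W₀.card + 1))) := by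
            rw [sum_const, nsmul_eq_mul]
            refine mul_le_mul_of_nonneg_right ?_ (by positivity)
            have : ((W₀.filter (Gd k)).card : ℝ) ≤ W₀.card := by
              exact_mod_cast card_filter_le _ _
            linarith
        _ = δ * ‖y‖ := by field_simp

end Crest.Agent.R81
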