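import Crest.Agent.R81.FIN
import Crest.Agent.R81.SM
import Crest.Agent.R81.CMB
import Crest.Agent.R81.JIT
import Crest.Agent.R81.ABS
import Crest.Agent.R81.INN
import Crest.Agent.R81.LIM
import Crest.Agent.R81.TLA
import Crest.Agent.R81.BAS
import Crest.Agent.R81.CHIRP
import Crest.Agent.R81.DEC
import Crest.Agent.R81.FRES
import Crest.Agent.R81.FRQ
import Crest.Agent.R81.CM1
import Crest.Agent.R81.CM3
import Crest.Agent.R81.CM4
import Crest.Agent.R81.GS1
import Crest.Agent.R81.GS2
import Crest.Agent.R81.PROD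
import Crest.Agent.R81.PRF
import Crest.Agent.R81.DQ
import Crest.Agent.R81.SOFT
import Crest.Agent.R81.A34
import Crest.Agent.R81.ORT
import Crest.Agent.R81.REAL
import Crest.Agent.R81.CONV
import Crest.Agent.R81.A2K
import Crest.Agent.R81.A2H
import Crest.Agent.R81.APX
import Crest.Agent.R81.FRESH
import Crest.Agent.R81.TRK
import Crest.Agent.R81.INIT
import Crest.Agent.R81.CHAIN
import Crest.Agent.R81.EIG

/-! # Row 81: everything together -/

namespace Crest.Agent.R81

theorem goal : Goal :=
  have hT := TLA_proof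
  have hB := BAS_proof
  have hI := INN_proof hT hB
  have hJ := JIT_proof GS1_proof GS2_proof PROD_proof
  have hA := A34_proof FRQ_proof
  have hR := REAL_proof hT hB
  FIN_proof hT hB (INIT_proof hT hI hJ PRF_proof)
    (STEP_proof hT hB hI (SM_proof DQ_proof SOFT_proof hT) hJ PRF_proof
      (CHIRP_proof FRES_proof DEC_proof) CM4_proof (CMB_proof CM1_proof CM3_proof CM4_proof) hA
      ORT_proof hR (A2K_proof FRQ_proof hA) (A2H_proof hT hB hI) (APX_proof hT hB hI ORT_proof)
      (FRESH_proof hT hB) (TRK_proof hT hB hI))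
    (EIG_proof hT hB) (LIM_proof hT hB) ABS_proof hA hR (CHAIN_proof hT hB) (CONV_proof hB)

end Crest.Agent.R81
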