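import Mathlib
import Crest.Prelude.Def_Torus3
import Crest.Agent.R75.Defs

/-!
# Row 81 (Banach's problem: simple Lebesgue spectrum, smooth on `T³`): interface

**Construction.** Anosov-Katok: `T_n = G_n ∘ (· + β_n) ∘ G_n⁻¹`, `β_n = (N_n/τ_n, 1/τ_n, 0)`,
`G_{n+1} = G_n ∘ gg L Γ U v`, `gg (x,y,z) = (z + v y + L x + Γ U y, x + Γ U y / L, y)`.
A mode `m = (a,y,z)` gives the eigenfunction `E m = em m ∘ G_n⁻¹` of `T_n`, eigenvalue `ee (pos m / τ)`,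
`pos m = N a + y`; it owns the frequency band between `pos m` and `pos m + z` (cells of `ℤ/τ`).
`em m ∘ gg = ∑_j coef m j • em (line L m j)`, `line L (a,y,z) j = (y + L a, z + j, a)`.
`U` is `Q` repeated quadratic chirps, `v` is a Gauss-sum jitter, constant on the `Q` plateaus, so the
coefficients live on `j = a i` and are flat: the children `line L m (a i)`, `|i| ≤ I ≈ Γ/2`, have bands of
length `|a|` tiling the band of `m` refined by `R = Γ L_prev`. The old set `M` always tiles the circle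
exactly (gaps are filled with the modes `±(L, j, 1)`). New modes wait in `B`, then `P`; the jitter contains a
character of order `b = |class|` modulo a huge prime `ω_b`, trivial on the new class, so the children of `P`
are sparse (`i ≡ ρ mod ω_b`) and are inserted into `M` at negligible cost.
The isometries `J_n : φ_m ↦ ψ_m` (normalised band indicator ↦ phase • eigenfunction) converge to a unitary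
`L²(circle) → L²_0(T³)` intertwining `e(θ)` with `T`. Smoothness: `T_{n+1} - T_n` is a smooth function of
`(1/τ_n, 1/τ_{n+1}, 1/L_{n+1}, p)` vanishing at `0`, everything else being chosen before `τ_n`.

Every task: one file `Crest/Agent/R81/<X>.lean` importing `Crest.Agent.R81.Defs` (and R75 files if useful),
`theorem X_proof (hyps) : XStmt`.
-/

set_option autoImplicit false

open Finset MeasureTheory Filter Topology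
open scoped ContDiff ComplexConjugate InnerProductSpace Classical
open Crest.AnalysisR.Torus3
open Crest.Agent.R75 (ee)

namespace Crest.Agent.R81

abbrev V : Type := ℤ × ℤ × ℤ
abbrev R3 : Type := Fin 3 → ℝ
abbrev HH : Type := Lp ℂ 2 (volume : Measure T3)
abbrev KK : Type := Lp ℂ 2 (@AddCircle.haarAddCircle 1 ⟨one_pos⟩)

/-! ## Torus maps and Koopman operators -/

/-- The character `e(a x + y y' + z z')`. -/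
noncomputable def em (m : V) : C(T3, ℂ) := UnitAddTorus.mFourier ![m.1, m.2.1, m.2.2]
noncomputable def eL (m : V) : HH := ContinuousMap.toLp 2 (volume : Measure T3) ℂ (em m)
noncomputable def eK (s : ℤ) : KK := @fourierLp 1 ⟨one_pos⟩ 2 _ s

def zc (κ : Fin 3 → ℤ) : R3 := fun i => (κ i : ℝ)
def Eqv (F : R3 → R3) : Prop :=
  ∃ B : (Fin 3 → ℤ) → (Fin 3 → ℤ), ∀ p κ, F (p + zc κ) = F p + zc (B κ)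
noncomputable def rep (θ : UnitAddCircle) : ℝ :=
  ((AddCircle.equivIco (1 : ℝ) 0 θ : Set.Ico (0 : ℝ) (0 + 1)) : ℝ)
noncomputable def down (F : R3 → R3) (q : T3) : T3 := proj (F fun i => rep (q i))

/-- A pair of mutually inverse smooth lifts of a volume preserving torus diffeomorphism. -/
structure IsTL (F Fi : R3 → R3) : Prop where
  sf : ContDiff ℝ ∞ F
  si : ContDiff ℝ ∞ Fi
  ef : Eqv F
  ei : Eqv Fi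
  fi : ∀ p, F (Fi p) = p
  if' : ∀ p, Fi (F p) = p
  mf : MeasurePreserving (down F) volume volume
  mi : MeasurePreserving (down Fi) volume volume

/-- Koopman operator `x ↦ x ∘ down F`. -/
noncomputable def kp (F : R3 → R3) : HH →L[ℂ] HH :=
  if h : MeasurePreserving (down F) volume volume then
    (Lp.compMeasurePreservingₗᵢ ℂ (down F) h).toContinuousLinearMap else 0

def IsRe (x : HH) : Prop := ∀ᵐ q : T3, ((x : T3 → ℂ) q).im = 0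

/-- BAS. Characters. Bridge `volume` on `UnitAddCircle` with `haarAddCircle`
(`AddCircle.volume_eq_smul_haarAddCircle`, `T = 1`) and use `UnitAddTorus.mFourierBasis`,
`span_mFourier_closure_eq_top`, `ext_of_forall_integral_eq_of_IsFiniteMeasure`. For the last item take the
finite partial sums of the `HasSum` and filter out the zero coefficients. -/
def BasStmt : Prop :=
  Orthonormal ℂ eL ∧
  (∀ x : HH, (∀ m, ⟪eL m, x⟫_ℂ = 0) → x = 0) ∧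
  (∀ (m : V) (p : R3), em m (proj p) = ee (m.1 * p 0 + m.2.1 * p 1 + m.2.2 * p 2)) ∧
  (∀ f : T3 → T3, Continuous f → (∀ m : V, ∫ q, em m (f q) = if m = 0 then 1 else 0) →
    MeasurePreserving f volume volume) ∧
  (∀ (x : HH) (ε : ℝ), 0 < ε → ∃ S : Finset V, (∀ m ∈ S, ⟪eL m, x⟫_ℂ ≠ 0) ∧
    ‖x - ∑ m ∈ S, ⟪eL m, x⟫_ℂ • eL m‖ ≤ ε)

/-- TLA. Basic API for `down`, `IsTL`, `kp`. (`proj` is a surjective open quotient map; `proj p = proj p'`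
iff `p' = p + zc κ`.) -/
def TlaStmt : Prop :=
  (∀ q : T3, proj (fun i => rep (q i)) = q) ∧
  (∀ p p' : R3, proj (p + p') = proj p + proj p') ∧
  (∀ (p : R3) (κ : Fin 3 → ℤ), proj (p + zc κ) = proj p) ∧
  (∀ F, Eqv F → ∀ p, down F (proj p) = proj (F p)) ∧
  (∀ F, Eqv F → Continuous F → Continuous (down F)) ∧
  (∀ F F', Eqv F → Eqv F' → Eqv (F ∘ F') ∧ down (F ∘ F') = down F ∘ down F') ∧
  (∀ F Fi, ContDiff ℝ ∞ F → ContDiff ℝ ∞ Fi → Eqv F → Eqv Fi → (∀ p, F (Fi p) = p) →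
    (∀ p, Fi (F p) = p) → MeasurePreserving (down F) volume volume → IsTL F Fi) ∧
  IsTL id id ∧
  (∀ b : R3, IsTL (fun p => p + b) (fun p => p + (-b))) ∧
  (∀ F Fi, IsTL F Fi → IsTL Fi F) ∧
  (∀ F Fi F' Fi', IsTL F Fi → IsTL F' Fi' → IsTL (F ∘ F') (Fi' ∘ Fi)) ∧
  (∀ F Fi, IsTL F Fi → ∀ x y : HH, ⟪kp F x, kp F y⟫_ℂ = ⟪x, y⟫_ℂ) ∧
  (∀ F Fi, IsTL F Fi → ∀ x : HH, ‖kp F x‖ = ‖x‖) ∧
  (∀ F Fi, IsTL F Fi → ∀ x : HH, (kp F x : T3 → ℂ) =ᵐ[volume] fun q => (x : T3 → ℂ) (down F q)) ∧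
  (∀ F Fi F' Fi', IsTL F Fi → IsTL F' Fi' → ∀ x : HH, kp F' (kp F x) = kp (F ∘ F') x) ∧
  (∀ F Fi, IsTL F Fi → ∀ x : HH, kp Fi (kp F x) = x) ∧
  (∀ F Fi, IsTL F Fi → kp F (eL 0) = eL 0) ∧
  (∀ F Fi, IsTL F Fi → ∀ m m' : V,
    ⟪eL m', kp F (eL m)⟫_ℂ = ∫ q, conj (em m' q) * em m (down F q))

/-! ## The level maps -/

def lam (L : ℝ) (p : R3) : R3 := ![p 2 + L * p 0, p 0, p 1]
def lamI (L : ℝ) (p : R3) : R3 := ![p 1, p 2, p 0 - L * p 1]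
def hh (c : ℝ) (U v : ℝ → ℝ) (p : R3) : R3 := ![p 0 + c * U (p 1), p 1, p 2 + v (p 1)]
noncomputable def gg (L : ℕ) (Γ : ℝ) (U v : ℝ → ℝ) (p : R3) : R3 := lam L (hh (Γ / L) U v p)
noncomputable def ggI (L : ℕ) (Γ : ℝ) (U v : ℝ → ℝ) (p : R3) : R3 :=
  hh (-(Γ / L)) U (fun y => -v y) (lamI L p)

def line (L : ℕ) (m : V) (j : ℤ) : V := (m.2.1 + L * m.1, m.2.2 + j, m.1)

noncomputable def cf (lm : ℝ) (a : ℤ) (Γ : ℝ) (U v : ℝ → ℝ) (j : ℤ) : ℂ :=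
  ∫ y in (0 : ℝ)..1, ee (lm * Γ * U y + a * v y - j * y)
noncomputable def coef (L : ℕ) (Γ : ℝ) (U v : ℝ → ℝ) (m : V) (j : ℤ) : ℂ :=
  cf (m.1 + m.2.1 / L) m.1 Γ U v j

def SmPer (U : ℝ → ℝ) : Prop := ContDiff ℝ ∞ U ∧ Function.Periodic U 1

/-- INN. `em (a,y,z) (gg p) = ee ((y + L a) p₀ + z p₁ + a p₂ + (a + y/L) Γ U p₁ + a v p₁)`.
The integral of `conj (em m') * em m ∘ down gg` vanishes unless the first and third frequencies cancel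
(translate the coordinate `0` or `2`: `integral_add_right_eq_self`, the integrand is multiplied by a constant
`≠ 1`); otherwise it only depends on coordinate `1` (`measurePreserving_eval`,
`AddCircle.intervalIntegral_preimage`). Measure preservation: `m' = 0` and BAS item 4. -/
def InnStmt : Prop :=
  ∀ (L : ℕ) (Γ : ℝ) (U v : ℝ → ℝ), 0 < L → SmPer U → SmPer v →
    IsTL (gg L Γ U v) (ggI L Γ U v) ∧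
    (∀ m j, ⟪eL (line L m j), kp (gg L Γ U v) (eL m)⟫_ℂ = coef L Γ U v m j) ∧
    (∀ m m', (∀ j, m' ≠ line L m j) → ⟪eL m', kp (gg L Γ U v) (eL m)⟫_ℂ = 0) ∧
    (∀ (m : V) (j : ℤ), m.1 = 0 → m.2.1 = 0 → j ≠ 0 → coef L Γ U v m j = 0)

/-! ## Smoothness -/

noncomputable def beta (τ N : ℕ) : R3 := ![(N : ℝ) / τ, 1 / τ, 0]
noncomputable def Tn (G Gi : R3 → R3) (τ N : ℕ) (σ : ℝ) (p : R3) : R3 := G (Gi p + σ • beta τ N)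

/-- `A'` is `A` plus a smooth map which is `C^k`-small for `k < n`, modulo `ℤ³`. -/
def Close (n : ℕ) (A A' : R3 → R3) : Prop :=
  ∃ Dd : R3 → R3, ContDiff ℝ ∞ Dd ∧
    (∀ k < n, ∀ p, ‖iteratedFDeriv ℝ k Dd p‖ ≤ (1 / 2 : ℝ) ^ n) ∧
    ∀ p, proj (A' p) = proj (A p + Dd p)

def Promise (n : ℕ) (G Gi : R3 → R3) (τ N Lp : ℕ) (U v : ℝ → ℝ) : Prop :=
  ∀ (L R N' zz : ℕ) (Γ σ : ℝ), (σ = 1 ∨ σ = -1) → τ ≤ L → L = zz * τ + N → 0 < R →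
    Γ = (R : ℝ) / Lp → (N' : ℝ) = R + Γ / (2 * L) →
    Close n (Tn G Gi τ N σ) (Tn (G ∘ gg L Γ U v) (ggI L Γ U v ∘ Gi) (τ * R) N' σ)

/-- DQ. `Dq (h,y) = ∫ s in 0..1, deriv U (y + s h)`; smooth e.g. by
`contDiffOn_convolution_right_with_param_comp` (indicator of `[0,1]` against a cut off integrand) or by
induction on the order with differentiation under the integral. -/
def DqStmt : Prop :=
  ∀ U : ℝ → ℝ, SmPer U → ∃ Dq : ℝ × ℝ → ℝ, ContDiff ℝ ∞ Dq ∧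
    (∀ (h y : ℝ) (k : ℤ), Dq (h, y + k) = Dq (h, y)) ∧ ∀ h y, U (y + h) - U y = h * Dq (h, y)

/-- SOFT. `(s,p) ↦ iteratedFDeriv k (F (s,·)) p` is jointly continuous (it is
`(iteratedFDeriv k F (s,p)).compContinuousLinearMap fun _ => inr`), periodic in `p`, zero at `s = 0`;
tube lemma on `[0,1]³`. -/
def SoftStmt : Prop :=
  ∀ F : (ℝ × ℝ × ℝ) × R3 → R3, ContDiff ℝ ∞ F → (∀ s p κ, F (s, p + zc κ) = F (s, p)) →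
    (∀ p, F (0, p) = 0) → ∀ (n : ℕ) (ε : ℝ), 0 < ε → ∃ ρ : ℝ, 0 < ρ ∧ ∀ s, ‖s‖ ≤ ρ →
      ∀ k < n, ∀ p, ‖iteratedFDeriv ℝ k (fun p => F (s, p)) p‖ ≤ ε

/-- SM (from DQ, SOFT, TLA). Put `K = G ∘ lam L`, `Ki = lamI L ∘ Gi`, `ξ = 1/τ + 1/(2 Lp L τ) = N'/(τR)`,
`ε₀ = 1/(τ Lp) = Γ/(τR)`, `D, D'` from DQ for `U, U'`. For `σ = ±1` and `s = (t,t',μ)` and `q = (x,y,z)`:
`z₁ = z - v y`, `Δ = (t/L)(D'(t',z₁) + 1/2)`, `y₁ = y + t + μ Δ`,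
`Φ(s,q) = (x + σξ + Δ + v'(z₁+t') - v' z₁ + σ ε₀ (1 + μ (D'(t',z₁)+1/2)/L) D(y₁ - y, y)/L, y₁, z₁ + t' + v y₁)`,
`F_σ(s,p) = K(Φ(s, Ki p)) - K(Φ((t,0,0), Ki p))`, where in the second term `Δ` is replaced by `0`, i.e.
`Φ₀(t,q) = (x + σξ + σ ε₀ D(t,y)/L, y + t, z - v y + v (y+t))`. `F_σ` is smooth, periodic (`Eqv`), zero at
`s = 0`. With `t = σ/(τR)`, `t' = σ/(τ R R₂)`, `μ = 1/L₂`: `Tn (G∘gg) .. σ p = K(Φ₀(t, Ki p))` and the next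
`Tn` equals `K(Φ(s, Ki p) + zc (σ zz₂,0,0))` (use `L₂ = zz₂ τR + N'`), so the two agree mod `ℤ³` with
`Dd = F_σ(s,·)`. -/
def SmStmt : Prop :=
  ∀ (n : ℕ) (G Gi : R3 → R3) (τ Lp L : ℕ) (U v U' v' : ℝ → ℝ), IsTL G Gi → 0 < τ → 0 < Lp → 0 < L →
    SmPer U → SmPer v → SmPer U' → SmPer v' →
    ∃ R₀ : ℕ, ∀ (R N' : ℕ) (Γ : ℝ), R₀ ≤ R → Γ = (R : ℝ) / Lp → (N' : ℝ) = R + Γ / (2 * L) →
      Promise n (G ∘ gg L Γ U v) (ggI L Γ U v ∘ Gi) (τ * R) N' L U' v'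

/-- LIM (from TLA, BAS). Lift `A 0 + ∑' Dd n` (`contDiff_tsum_of_eventually`), uniform convergence of
`down (A n)` and `down (B n)`, `T ∘ S = id` in the limit, measure preservation by BAS item 4 and dominated
convergence, Koopman convergence by `MeasureTheory.Lp.compMeasurePreserving` continuity
(`Filter.Tendsto.compMeasurePreservingLp`). -/
def LimStmt : Prop :=
  ∀ A B : ℕ → R3 → R3, (∀ n, IsTL (A n) (B n)) → (∀ n, Close n (A n) (A (n + 1))) →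
    (∀ n, Close n (B n) (B (n + 1))) →
    ∃ T : Equiv.Perm T3, IsSmoothDiffeo T ∧ ∃ hT : MeasurePreserving T volume volume,
      MeasurePreserving T.symm volume volume ∧
      ∀ x : HH, Tendsto (fun n => kp (A n) x) atTop
        (𝓝 (Lp.compMeasurePreservingₗᵢ ℂ (T : T3 → T3) hT x))

/-! ## Jitter and chirps -/

noncomputable def dft (Q : ℕ) (w : ℤ → ℝ) (a r : ℤ) : ℂ :=
  (Q : ℂ)⁻¹ * ∑ i ∈ range Q, ee (a * w i - (i : ℝ) * r / Q)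

def PerZ (Q : ℕ) (w : ℤ → ℝ) : Prop := ∀ i : ℤ, w (i + Q) = w i

/-- GS1. `Q = 2 A!`, `w i = (i % Q)² / (2Q)`; `P = Q/|a|` is even, `i ↦ ee (± i²/(2P) - i r/P)` is `P`-periodic
and `|∑_{i<P}|² = P` (expand the square, shift, geometric sum). -/
def Gs1Stmt : Prop :=
  ∀ A : ℕ, ∃ (Q : ℕ) (w : ℤ → ℝ), 0 < Q ∧ PerZ Q w ∧
    ∀ a i : ℤ, a ≠ 0 → |a| ≤ A → ‖dft Q w a (a * i)‖ ^ 2 = (|a| : ℝ) / Q

/-- GS2. `ω` prime, `ω ≡ 1 mod b` (`Nat.exists_prime_gt_modEq_one`), `χ : MulChar (ZMod ω) ℂ` of order `b`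
(`MulChar.exists_mulChar_orderOf`), `ee (w i) = χ'(i) ee (ρ i/ω)` with `χ' i = χ i` for `i ≠ 0`, `χ' 0 = 1`
(`w i = arg (..)/(2π)`). Then `ω dft = 1 + ∑ χ^a(x) ψ(a(ρ - i) x)`, Gauss sums have norm `√ω`
(`gaussSum_mul_gaussSum_eq_card`, `gaussSum_mulShift`). -/
def Gs2Stmt : Prop :=
  ∀ (b Wd : ℕ) (ρ : ℤ), 0 < b → ∃ (q : ℕ) (w : ℤ → ℝ), q.Prime ∧ Wd < q ∧ PerZ q w ∧
    ∀ a i : ℤ, ¬ (q : ℤ) ∣ a →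
      ((b : ℤ) ∣ a → i ≡ ρ [ZMOD q] → ‖dft q w a (a * i)‖ = 1) ∧
      (¬ (b : ℤ) ∣ a → ¬ i ≡ ρ [ZMOD q] → (Real.sqrt q - 1) / q ≤ ‖dft q w a (a * i)‖)

/-- PROD. `w k = w₁ (k c₁) + w₂ (k c₂)` with `c₁ Q₂ + c₂ Q₁ = 1`; reindex the sum by the bijection
`(i₁,i₂) ↦ (Q₂ i₁ + Q₁ i₂) % (Q₁ Q₂)`. -/
def ProdStmt : Prop :=
  ∀ (Q₁ Q₂ : ℕ) (w₁ w₂ : ℤ → ℝ), 0 < Q₁ → 0 < Q₂ → Nat.Coprime Q₁ Q₂ → PerZ Q₁ w₁ → PerZ Q₂ w₂ →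
    ∃ w : ℤ → ℝ, PerZ (Q₁ * Q₂) w ∧ ∀ a r, dft (Q₁ * Q₂) w a r = dft Q₁ w₁ a r * dft Q₂ w₂ a r

structure JitOK (A : ℕ) (𝓑 : Finset ℕ) (η : ℝ) (Q N₀ : ℕ) (w : ℤ → ℝ) (𝓘 : ℤ → ℤ → Prop) : Prop where
  Qpos : 0 < Q
  per : PerZ Q w
  j1 : ∀ a t i : ℤ, t ≠ 0 → 𝓘 (t * a) i → 𝓘 a i
  j2 : ∀ a a' i i' x : ℤ, a ≠ 0 → |a| ≤ A → a'.natAbs ∈ 𝓑 → a ≠ a' → 𝓘 a i → 𝓘 a' i' →
    |x| ≤ 4 * A → ¬ (Q : ℤ) ∣ a * i - a' * i' + x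
  j3 : ∀ a : ℤ, a ≠ 0 → |a| ≤ A → ∃ d : ℕ, 0 < d ∧ ((∀ b ∈ 𝓑, ¬ (b : ℤ) ∣ a) → d = 1) ∧
    ∀ I : ℕ, N₀ ≤ I → ∃ Ks : Finset ℤ,
      (∀ i ∈ Ks, |i| ≤ I ∧ 𝓘 a i ∧ (1 - η) * (|a| : ℝ) * d / Q ≤ ‖dft Q w a (a * i)‖ ^ 2) ∧
      (1 - η) * (2 * I) / d ≤ (Ks.card : ℝ)

/-- JIT (from GS1, GS2, PROD). `ρ = 8A+1`. By induction on `𝓑` choose distinct primes `ω_b` larger than
`Q₁`, than `A` and than a bound `Wd(A, #𝓑, η)`; `Q = Q₁ ∏ ω_b`, `dft = ∏`.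
`𝓘 a i := ∀ b ∈ 𝓑, i ≡ ρ [ZMOD ω_b] ∨ (¬ b ∣ a ∧ ∀ a' σ x, 0<|a'|≤A → σ = ±1 → |x| ≤ 4A → ¬ ω_b ∣ a' i - σ b ρ + x)`.
j2: mod `ω_b`, `(a - a') ρ + x` is nonzero and smaller than `ω_b`. j3: `d = ∏_{b ∣ a} ω_b`,
`Ks = {|i| ≤ I, i ≡ ρ mod d, ∀ b ∤ a, i mod ω_b ∉ Bad_b ∪ {ρ}}`, `#Bad_b ≤ 2A·2·(8A+1)`; a class mod `d` has
`≥ 2I/d - 1` points, a class mod `d ω_b` has `≤ 2I/(d ω_b) + 1`. -/
def JitStmt : Prop :=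
  ∀ (A : ℕ) (𝓑 : Finset ℕ) (η : ℝ), 0 < η → η ≤ 1 → (∀ b ∈ 𝓑, 0 < b ∧ b ≤ A) →
    ∃ (Q N₀ : ℕ) (w : ℤ → ℝ) (𝓘 : ℤ → ℤ → Prop), JitOK A 𝓑 η Q N₀ w 𝓘

structure PrfOK (Q : ℕ) (w : ℤ → ℝ) (η : ℝ) (U v : ℝ → ℝ) : Prop where
  sU : SmPer U
  sv : SmPer v
  eU : ∀ (i : ℤ) (s : ℝ), η ≤ s → s ≤ 1 - η → U ((i + s) / Q) = (s - 1 / 2) ^ 2 / (2 * Q)
  ev : ∀ (i : ℤ) (s : ℝ), η ≤ s → s ≤ 1 - η → v ((i + s) / Q) = w i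

/-- PRF. `χ` a smooth bump (`ContDiffBump (1/2)`), `1` on `[η,1-η]`, `0` off `(η/2,1-η/2)`;
`U y = χ(fract (Qy)) (fract (Qy) - 1/2)²/(2Q)`, `v y = χ(fract (Qy)) w ⌊Qy⌋`; near an integer both vanish,
elsewhere `⌊·⌋` is locally constant. -/
def PrfStmt : Prop :=
  ∀ (Q : ℕ) (w : ℤ → ℝ) (η : ℝ), 0 < Q → PerZ Q w → 0 < η → η < 1 / 2 → ∃ U v, PrfOK Q w η U v

/-- FRES. Complete the square, substitute `u = √|β| (s - s₀)`, both end points are at distance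
`≥ η √|β|` from `0`; use `R75.A.fresnel` (Osc2) on the symmetric window and the first derivative test
`R75.A.fdt` (Osc1) on the rest; `β < 0` by conjugation. -/
def FresStmt : Prop :=
  ∀ η : ℝ, 0 < η → η < 1 / 4 → ∃ β₀ : ℝ, 0 < β₀ ∧ ∀ β t : ℝ, β₀ ≤ |β| → |t| ≤ (1 / 2 - 2 * η) * |β| →
    (1 - η) / Real.sqrt |β| ≤ ‖∫ s in η..(1 - η), ee (β * (s - 1 / 2) ^ 2 / 2 - t * s)‖

/-- DEC. Split `[0,1]` into the `Q` plateaus and the gaps; `gap j` is the Fourier coefficient of the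
integrand times the indicator of the gaps (measure `2η`), Bessel from `hasSum_sq_fourierCoeffOn`. -/
def DecStmt : Prop :=
  ∀ (Q : ℕ) (w : ℤ → ℝ) (η : ℝ) (U v : ℝ → ℝ), 0 < Q → 0 < η → η < 1 / 2 → PrfOK Q w η U v →
    ∀ (lm : ℝ) (a : ℤ) (Γ : ℝ), ∃ gap : ℤ → ℂ, (∀ F : Finset ℤ, ∑ j ∈ F, ‖gap j‖ ^ 2 ≤ 2 * η) ∧
      ∀ j : ℤ, cf lm a Γ U v j =
        dft Q w a j * (∫ s in η..(1 - η), ee (lm * Γ / Q * (s - 1 / 2) ^ 2 / 2 - (j : ℝ) / Q * s)) +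
          gap j

noncomputable def idx (𝓘 : ℤ → ℤ → Prop) (I : ℕ) (a : ℤ) : Finset ℤ :=
  (Finset.Icc (-(I : ℤ)) I).filter (𝓘 a)

/-- CHIRP (from FRES, DEC). `η = κ²`, `β = lm Γ/Q`. On `Ks` (j3) the main term has norm
`≥ (1-2η) √(d/Γ)`, `#Ks ≥ (1-9η) Γ/d`; `ℓ²` triangle inequality for the first claim, Cauchy-Schwarz
(`#Ks ≤ 2I+1 ≤ Γ`, `d = 1`) for the second; `11 κ² + √2 κ ≤ 3 κ`. -/
def ChirpStmt : Prop :=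
  ∀ (A : ℕ) (𝓑 : Finset ℕ) (κ : ℝ) (Q N₀ : ℕ) (w : ℤ → ℝ) (𝓘 : ℤ → ℤ → Prop) (U v : ℝ → ℝ),
    0 < κ → κ ≤ 1 / 10 → JitOK A 𝓑 (κ ^ 2) Q N₀ w 𝓘 → PrfOK Q w (κ ^ 2) U v →
    ∃ Γ₀ : ℝ, ∀ (Γ : ℝ) (I : ℕ) (a : ℤ) (lm : ℝ), Γ₀ ≤ Γ → (1 / 2 - 4 * κ ^ 2) * Γ ≤ I →
      (I : ℝ) ≤ (1 / 2 - 3 * κ ^ 2) * Γ → a ≠ 0 → |a| ≤ A → |lm - a| ≤ κ ^ 2 →
      (1 - 3 * κ) ^ 2 ≤ ∑ i ∈ idx 𝓘 I a, ‖cf lm a Γ U v (a * i)‖ ^ 2 ∧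
      ((∀ b ∈ 𝓑, ¬ (b : ℤ) ∣ a) →
        (1 - 3 * κ) * Real.sqrt Γ ≤ ∑ i ∈ idx 𝓘 I a, ‖cf lm a Γ U v (a * i)‖)

/-! ## Bands -/

def pos (N : ℕ) (m : V) : ℤ := N * m.1 + m.2.1
noncomputable def cells (τ N : ℕ) (m : V) : Finset ℤ :=
  (Finset.Ico (min (pos N m) (pos N m + m.2.2)) (max (pos N m) (pos N m + m.2.2))).image (· % (τ : ℤ))
noncomputable def refine (τ R : ℕ) (S : Finset ℤ) : Finset ℤ :=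
  (Finset.Ico (0 : ℤ) (τ * R)).filter fun x => x / R ∈ S
noncomputable def kids (𝓘 : ℤ → ℤ → Prop) (I L : ℕ) (m : V) : Finset V :=
  (idx 𝓘 I m.1).image fun i => line L m (m.1 * i)

structure Part (τ N : ℕ) (M : Finset V) : Prop where
  disj : ∀ m ∈ M, ∀ m' ∈ M, m ≠ m' → Disjoint (cells τ N m) (cells τ N m')
  cover : ∀ x ∈ Finset.Ico (0 : ℤ) τ, ∃ m ∈ M, x ∈ cells τ N m
  len : ∀ m ∈ M, m.2.2 ≠ 0 ∧ |m.2.2| ≤ τ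

structure Inv (τ N Lp D Z A : ℕ) (M P B : Finset V) (𝓑 : Finset ℕ) : Prop where
  τpos : 0 < τ
  Zle : Z ≤ τ
  DZ : 4 * Z + 8 ≤ D
  LD : 2 * D ≤ Lp
  ZA : Z ≤ A
  symM : ∀ m ∈ M, -m ∈ M
  symP : ∀ m ∈ P, -m ∈ P
  clMP : ∀ (t : ℤ) (m : V), t ≠ 0 → t • m ∈ M ∪ P → m ∈ M ∪ P
  clX : ∀ (t : ℤ) (m : V), t ≠ 0 → t • m ∈ M ∪ P ∪ B → m ∈ M ∪ P ∪ B
  disB : ∀ m ∈ B, m ∉ M ∪ P
  lac : ∀ m ∈ M ∪ P ∪ B,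
    m.2.2 ≠ 0 ∧ |m.2.2| ≤ Z ∧ D * |m.1 - Lp * m.2.2| ≤ Lp ∧ |m.1| ≤ A
  old : ∀ m ∈ M, ∀ b ∈ 𝓑, ¬ (b : ℤ) ∣ m.1
  new : ∀ m ∈ P, m.1.natAbs ∈ 𝓑
  bB : ∀ b ∈ 𝓑, 0 < b ∧ b ≤ A
  part : Part τ N M
  sib : ∀ m ∈ P, ∀ m' ∈ P, m ≠ m' → m.1 = m'.1 → Disjoint (cells τ N m) (cells τ N m')

/-- CM1. `pos N' (line L m (a i)) = R pos N m + c (y + L a) + z + a i + zz a (τ R)`, and the offsets
`o = c (y + L a) + z + a i` and `o + a` lie between `0` and `R z` (`Γ = 2 L c`; treat `z > 0` and `z < 0`).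
Siblings: integer intervals `[o, o + a)` are disjoint and lie in a window of length `R |z| ≤ τ R`. -/
def Cm1Stmt : Prop :=
  ∀ (τ N Lp D L zz c Γ R N' I : ℕ) (m : V), 0 < τ → 8 ≤ D → 2 * D ≤ Lp → 0 < L →
    L = zz * τ + N → Γ = 2 * L * c → R = Γ * Lp → N' = R + c → 2 * D * I + 6 * Γ ≤ D * Γ →
    4 * D ≤ Γ → m.2.2 ≠ 0 → |m.2.2| ≤ τ → D * |m.1 - Lp * m.2.2| ≤ Lp → D * |m.2.1| ≤ L →
    (∀ i : ℤ, |i| ≤ I → cells (τ * R) N' (line L m (m.1 * i)) ⊆ refine τ R (cells τ N m)) ∧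
    (∀ i i' : ℤ, |i| ≤ I → |i'| ≤ I → i ≠ i' →
      Disjoint (cells (τ * R) N' (line L m (m.1 * i))) (cells (τ * R) N' (line L m (m.1 * i'))))

/-- CM3 (fillers). `x ∈ cells m ↔ τ - 1 - x ∈ cells (-m)` on `[0,τ)`. For every uncovered `x < τ/2` take
`(L, x - N L, 1)` (cells `{x}`) and its negative (cells `{τ - 1 - x}`). -/
def Cm3Stmt : Prop :=
  ∀ (τ N L : ℕ) (C : Finset V), 0 < τ → Even τ → (∀ m ∈ C, -m ∈ C) →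
    (∀ m ∈ C, 2 ≤ |m.2.2| ∧ |m.2.2| ≤ τ) →
    (∀ m ∈ C, ∀ m' ∈ C, m ≠ m' → Disjoint (cells τ N m) (cells τ N m')) →
    ∃ F : Finset V, (∀ m ∈ F, -m ∈ F) ∧
      (∀ m ∈ F, (m.1 = L ∧ m.2.2 = 1) ∨ (m.1 = -L ∧ m.2.2 = -1)) ∧ Part τ N (C ∪ F)

/-- CM4 (lacunarity). Item 3: `y + L a = y' + L a'` forces `(a,y) = (a',y')`, and `a` determines `z`.
Item 4: if `y + L a = t (y' + L a')` then `|t| ≤ 2 Z' + 2`, so `y = t y'`, `a = t a'`; then `|t| ≤ 2 Z + 2`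
and `z = t z'`, i.e. `m = t • m'`, contradicting `clMP` and `disB`. -/
def Cm4Stmt : Prop :=
  ∀ (τ N Lp D Z A : ℕ) (M P B : Finset V) (𝓑 : Finset ℕ) (L D' Z' : ℕ),
    Inv τ N Lp D Z A M P B 𝓑 → 4 * Z' + 8 ≤ D' → 0 < L →
    (∀ m ∈ M ∪ P ∪ B, D' * |m.2.1| ≤ L ∧ |m.1| ≤ Z') →
    (∀ m ∈ M ∪ P ∪ B, 2 ≤ |m.1| ∧ (L : ℤ) < |m.2.1 + L * m.1|) ∧
    (∀ m ∈ M ∪ P ∪ B, ∀ m' ∈ M ∪ P ∪ B, m.1 = m'.1 → m.2.2 = m'.2.2) ∧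
    (∀ m ∈ M ∪ P ∪ B, ∀ m' ∈ M ∪ P ∪ B, m.2.1 + L * m.1 = m'.2.1 + L * m'.1 → m = m') ∧
    (∀ m ∈ M ∪ P, ∀ m' ∈ B, ¬ (m'.2.1 + L * m'.1) ∣ (m.2.1 + L * m.1))

/-- CMB (from CM1, CM3, CM4). `C = (M ∪ P).biUnion kids`, `M' = C ∪ F` (CM3), `P' = B.biUnion kids`,
`B' = {c | ∃ t ≠ 0, t • c ∈ W', (t • c).2.2 ≠ 0} \ (M' ∪ P')` (finite: `|t| ≤ Z'`).
Disjointness in `C`: same parent CM1; two parents in `M`, or in `P` with the same class (`sib`): CM1 and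
disjoint refinements; otherwise one parent is in `P`, the classes differ (`old`/`new`) and j2 applies since
`pos N' (line L m (a i)) ≡ z + a i mod Q`, `Q ∣ τ R`. Closure: if `t • c = line L m (a i)` then `t ∣ a`,
`t ∣ y`, `t ∣ z`, `m = t • m₀`, `c = line L m₀ (a₀ i)` and j1; fillers have third coordinate `±1`. -/
def CmbStmt : Prop :=
  ∀ (τ N Lp D Z A : ℕ) (M P B : Finset V) (𝓑 : Finset ℕ) (η : ℝ) (Q N₀ : ℕ) (w : ℤ → ℝ)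
    (𝓘 : ℤ → ℤ → Prop) (W₀ W' : Finset V) (L D' Z' A' zz γ Γ R N' I : ℕ),
    Inv τ N Lp D Z A M P B 𝓑 → JitOK A 𝓑 η Q N₀ w 𝓘 →
    L = zz * τ + N → D ≤ D' → 4 * Z' + 8 ≤ D' → 2 * D' ≤ L → L ≤ A' → 1 ≤ Z' → Z' ≤ A' →
    (∀ m ∈ M ∪ P ∪ B ∪ W₀, D' * |m.2.1| ≤ L ∧ |m.1| ≤ Z' ∧ |m.2.1 + L * m.1| ≤ A') →
    Γ = 2 * L * (Q * γ) → R = Γ * Lp → N' = R + Q * γ → 2 * D * I + 6 * Γ ≤ D * Γ → 4 * D ≤ Γ →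
    Z' ≤ τ * R → (∀ c ∈ W', ∃ m ∈ W₀, ∃ j, c = line L m j) →
    ∃ M' P' B' : Finset V,
      Inv (τ * R) N' L D' Z' A' M' P' B' (B.image fun m : V => (m.2.1 + (L : ℤ) * m.1).natAbs) ∧
      (∀ m ∈ M ∪ P, kids 𝓘 I L m ⊆ M') ∧ (∀ m ∈ B, kids 𝓘 I L m ⊆ P') ∧
      (∀ c ∈ W', c.2.2 ≠ 0 → c ∈ M' ∪ P' ∪ B') ∧
      (∀ m ∈ M, ∀ c ∈ kids 𝓘 I L m, cells (τ * R) N' c ⊆ refine τ R (cells τ N m))

/-! ## The frequency side -/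

noncomputable def ind (τ : ℕ) (S : Finset ℤ) : KK :=
  if h : MeasurableSet {θ : UnitAddCircle | ⌊(τ : ℝ) * rep θ⌋ ∈ S} then
    indicatorConstLp 2 h (measure_ne_top _ _) (1 : ℂ) else 0
noncomputable def phi (τ N : ℕ) (m : V) : KK :=
  ((Real.sqrt ((τ : ℝ) / |(m.2.2 : ℝ)|) : ℝ) : ℂ) • ind τ (cells τ N m)

/-- FRQ. `rep` is measurable and pushes Haar measure to Lebesgue measure on `[0,1)`
(`AddCircle.measurePreserving_mk`, `AddCircle.integral_preimage`); a cell has measure `1/τ`;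
`⌊τ x⌋ = ⌊τ R x⌋ / R`. Item 3: on the cell `k % τ`, `k` between `pos` and `pos + z`,
`|e(sθ) - e(s pos/τ)| ≤ 2π |s| |z|/τ`. -/
def FrqStmt : Prop :=
  (∀ (τ : ℕ) (S S' : Finset ℤ), 0 < τ → S ⊆ Finset.Ico (0 : ℤ) τ →
    ⟪ind τ S, ind τ S'⟫_ℂ = (((S ∩ S').card : ℝ) / τ : ℝ)) ∧
  (∀ (τ R : ℕ) (S : Finset ℤ), 0 < τ → 0 < R → ind τ S = ind (τ * R) (refine τ R S)) ∧
  (∀ (τ N : ℕ) (m : V), 0 < τ → |m.2.2| ≤ τ →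
    ((cells τ N m).card : ℤ) = |m.2.2| ∧ cells τ N m ⊆ Finset.Ico (0 : ℤ) τ ∧
    ∀ s : ℤ, ‖⟪ind τ (cells τ N m), eK s⟫_ℂ -
        ee (s * pos N m / τ) * ((|(m.2.2 : ℝ)| / τ : ℝ) : ℂ)‖ ≤
      2 * Real.pi * |(s : ℝ)| * (|(m.2.2 : ℝ)| / τ) ^ 2)

/-- A34 (from FRQ). `∑_{m ∈ M} |z_m|/τ = 1`; `‖e - ∑ ⟪φ,e⟫ φ‖² = 1 - ∑ |⟪φ,e⟫|² ≤ 4π|s| wd`. -/
def A34Stmt : Prop :=
  ∀ (τ N : ℕ) (M : Finset V) (wd : ℝ), 0 < τ → Part τ N M → (∀ m ∈ M, |(m.2.2 : ℝ)| / τ ≤ wd) →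
    Orthonormal ℂ (fun m : M => phi τ N m) ∧
    (∀ m ∈ M, ⟪phi τ N m, eK 0⟫_ℂ = ((Real.sqrt (|(m.2.2 : ℝ)| / τ) : ℝ) : ℂ)) ∧
    (∀ s : ℤ, ‖eK s - ∑ m ∈ M, ⟪phi τ N m, eK s⟫_ℂ • phi τ N m‖ ≤
      Real.sqrt (4 * Real.pi * |(s : ℝ)|) * Real.sqrt wd) ∧
    (∀ s : ℤ, ∑ m ∈ M, ‖⟪phi τ N m, eK (s + 1)⟫_ℂ - ee (pos N m / τ) * ⟪phi τ N m, eK s⟫_ℂ‖ ^ 2 ≤
      (2 * Real.pi * (2 * |(s : ℝ)| + 1) * wd) ^ 2)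

/-! ## Hilbert space lemmas -/

/-- ORT. The errors `x m - ∑_{c ∈ C m} t m c • y c` are pairwise orthogonal. The new coefficients are
`c' k = ∑_{m ∈ X} if k ∈ C m then c m * t m k else 0`. -/
def OrtStmt : Prop :=
  ∀ (E : Type) [NormedAddCommGroup E] [InnerProductSpace ℂ E] (X Y : Finset V) (x y : V → E)
    (C : V → Finset V) (t : V → V → ℂ) (δ : ℝ), 0 ≤ δ →
    Orthonormal ℂ (fun m : X => x m) → Orthonormal ℂ (fun k : Y => y k) →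
    (∀ m ∈ X, C m ⊆ Y) → (∀ m ∈ X, ∀ m' ∈ X, m ≠ m' → Disjoint (C m) (C m')) →
    (∀ m ∈ X, ∀ m' ∈ X, m ≠ m' → ∀ k ∈ C m, ⟪y k, x m'⟫_ℂ = 0) →
    (∀ m ∈ X, ‖x m - ∑ k ∈ C m, t m k • y k‖ ≤ δ) →
    ∀ c : V → ℂ,
      ‖∑ m ∈ X, c m • x m - ∑ k ∈ Y, (∑ m ∈ X, if k ∈ C m then c m * t m k else 0) • y k‖ ≤
        δ * Real.sqrt (∑ m ∈ X, ‖c m‖ ^ 2) ∧
      ((∀ m ∈ X, ∑ k ∈ C m, ‖t m k‖ ^ 2 ≤ 1) →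
        ∑ k ∈ Y, ‖∑ m ∈ X, if k ∈ C m then c m * t m k else 0‖ ^ 2 ≤ ∑ m ∈ X, ‖c m‖ ^ 2)

/-- One step of the approximate isometries. -/
def A2 {E F : Type} [NormedAddCommGroup E] [InnerProductSpace ℂ E] [NormedAddCommGroup F]
    [InnerProductSpace ℂ F] (δ : ℝ) (M M' : Finset V) (φ φ' : V → E) (ψ ψ' : V → F) : Prop :=
  ∀ c : V → ℂ, ∃ c' : V → ℂ, ∑ k ∈ M', ‖c' k‖ ^ 2 ≤ ∑ m ∈ M, ‖c m‖ ^ 2 ∧
    ‖∑ m ∈ M, c m • φ m - ∑ k ∈ M', c' k • φ' k‖ ≤ δ * Real.sqrt (∑ m ∈ M, ‖c m‖ ^ 2) ∧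
    ‖∑ m ∈ M, c m • ψ m - ∑ k ∈ M', c' k • ψ' k‖ ≤ δ * Real.sqrt (∑ m ∈ M, ‖c m‖ ^ 2)

/-- ABS. `J n x = ∑_{m ∈ M n} ⟪φ n m, x⟫ • ψ n m` is a contraction, isometric on the span of `φ n`, and
`⟪J n x, J n x'⟫ = ⟪P n x, P n x'⟫`. For `x` in the span of `φ n`: `‖J (n+1) x - J n x‖ ≤ 2 δ n ‖x‖` and, iterating
A2, `‖J N x - J n x‖ ≤ 2 ‖x‖ ∑_{k ≥ n} δ k`. Hence `J n (e s)` is Cauchy; `G s` is its limit. If `h ⊥ G s` for all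
`s` then `⟪J N x, h⟫ → 0` for all `x` (density), so `|⟪∑ c ψ n, h⟫| ≤ 2 ‖c‖ ‖h‖ tail n`. -/
def AbsStmt : Prop :=
  ∀ (E F : Type) [NormedAddCommGroup E] [InnerProductSpace ℂ E] [NormedAddCommGroup F]
    [InnerProductSpace ℂ F] [CompleteSpace F] (e : ℤ → E) (M : ℕ → Finset V) (φ : ℕ → V → E)
    (ψ : ℕ → V → F) (δ : ℕ → ℝ) (U : ℕ → F →L[ℂ] F) (Ul : F → F) (lm : ℕ → V → ℂ) (f : V → F),
    Orthonormal ℂ e → (⊤ ≤ (Submodule.span ℂ (Set.range e)).topologicalClosure) →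
    (∀ n, Orthonormal ℂ (fun m : M n => φ n m)) → (∀ n, Orthonormal ℂ (fun m : M n => ψ n m)) →
    (∀ n, 0 ≤ δ n) → Summable δ →
    (∀ n, A2 (δ n) (M n) (M (n + 1)) (φ n) (φ (n + 1)) (ψ n) (ψ (n + 1))) →
    (∀ s, ∃ C : ℝ, ∀ n, ‖e s - ∑ m ∈ M n, ⟪φ n m, e s⟫_ℂ • φ n m‖ ≤ C * δ n) →
    (∀ n x, ‖U n x‖ ≤ ‖x‖) → (∀ x, Tendsto (fun n => U n x) atTop (𝓝 (Ul x))) →
    (∀ n, ∀ m ∈ M n, U n (ψ n m) = lm n m • ψ n m) →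
    (∀ s, Tendsto (fun n => ∑ m ∈ M n, ‖⟪φ n m, e (s + 1)⟫_ℂ - lm n m * ⟪φ n m, e s⟫_ℂ‖ ^ 2)
      atTop (𝓝 0)) →
    (∀ k, k ≠ 0 → ∀ ε : ℝ, 0 < ε → ∀ᶠ n in atTop, ∃ c : V → ℂ, ‖f k - ∑ m ∈ M n, c m • ψ n m‖ ≤ ε) →
    ∃ G : ℤ → F, Orthonormal ℂ G ∧ (∀ s, G (s + 1) = Ul (G s)) ∧
      Tendsto (fun n => ∑ m ∈ M n, ⟪φ n m, e 0⟫_ℂ • ψ n m) atTop (𝓝 (G 0)) ∧
      ∀ h : F, (∀ s, ⟪G s, h⟫_ℂ = 0) → ∀ k, k ≠ 0 → ⟪f k, h⟫_ℂ = 0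

/-- REAL (from TLA, BAS). `em (-m) = conj (em m)`; item 1: the sum equals its conjugate (reindex by `m ↦ -m`). -/
def RealStmt : Prop :=
  ∀ G Gi, IsTL G Gi →
    (∀ (M : Finset V) (γ : V → ℂ), (∀ m ∈ M, -m ∈ M) → (∀ m ∈ M, γ (-m) = conj (γ m)) →
      IsRe (∑ m ∈ M, γ m • kp Gi (eL m))) ∧
    (∀ x : HH, IsRe x → ∀ m, ⟪kp Gi (eL (-m)), x⟫_ℂ = conj ⟪kp Gi (eL m), x⟫_ℂ)

/-- The frozen conclusion. -/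
def Goal : Prop :=
  ∃ (T : Equiv.Perm T3) (g : T3 → ℝ), IsSmoothDiffeo T ∧
    MeasureTheory.MeasurePreserving T MeasureTheory.volume MeasureTheory.volume ∧
    MeasureTheory.MemLp g 2 MeasureTheory.volume ∧ ∫ x, g x = 0 ∧
    (∀ m n : ℤ, ∫ x, g ((T ^ m) x) * g ((T ^ n) x) = if m = n then 1 else 0) ∧
    (∀ h : T3 → ℂ, MeasureTheory.MemLp h 2 MeasureTheory.volume → ∫ x, h x = 0 →
      (∀ n : ℤ, ∫ x, h x * (g ((T ^ n) x) : ℂ) = 0) → h =ᵐ[MeasureTheory.volume] 0)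

/-- CONV (from BAS). `g = re (G 0)`; `IsRe` is closed (`Complex.imCLM.compLpL`); by induction on `s : ℤ`
(both directions, using `T.symm`) `G s =ᵐ fun q => g ((T ^ s) q)`; `L2.inner_def`. -/
def ConvStmt : Prop :=
  ∀ (T : Equiv.Perm T3) (hT : MeasurePreserving T volume volume) (G : ℤ → HH) (x : ℕ → HH),
    IsSmoothDiffeo T → MeasurePreserving T.symm volume volume → Orthonormal ℂ G →
    (∀ s, G (s + 1) = Lp.compMeasurePreservingₗᵢ ℂ (T : T3 → T3) hT (G s)) →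
    (∀ n, IsRe (x n) ∧ ⟪eL 0, x n⟫_ℂ = 0) → Tendsto x atTop (𝓝 (G 0)) →
    (∀ h : HH, (∀ s, ⟪G s, h⟫_ℂ = 0) → ∀ k, k ≠ 0 → ⟪eL k, h⟫_ℂ = 0) → Goal

/-! ## The recursion -/

structure St where
  (τ N Lp D Z A Q N₀ : ℕ)
  (M P B W : Finset V)
  𝓑 : Finset ℕ
  w : ℤ → ℝ
  𝓘 : ℤ → ℤ → Prop
  (U v : ℝ → ℝ)
  (G Gi : R3 → R3)
  ph : V → ℂ

noncomputable def kap (n : ℕ) : ℝ := (1 / 4) ^ n / 16

structure Good (n : ℕ) (s : St) : Prop where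
  inv : Inv s.τ s.N s.Lp s.D s.Z s.A s.M s.P s.B s.𝓑
  jit : JitOK s.A s.𝓑 (kap n ^ 2) s.Q s.N₀ s.w s.𝓘
  prf : PrfOK s.Q s.w (kap n ^ 2) s.U s.v
  Dη : 1 ≤ kap n ^ 2 * s.D
  wid : 4 ^ n * s.Z ≤ s.τ
  tl : IsTL s.G s.Gi
  ph1 : ∀ m, ‖s.ph m‖ = 1
  phs : ∀ m, s.ph (-m) = conj (s.ph m)
  pro : Promise n s.G s.Gi s.τ s.N s.Lp s.U s.v

noncomputable def St.E (s : St) (m : V) : HH := kp s.Gi (eL m)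
noncomputable def St.psi (s : St) (m : V) : HH := s.ph m • s.E m
noncomputable def St.gv (s : St) : HH :=
  ∑ m ∈ s.M, ((Real.sqrt (|(m.2.2 : ℝ)| / s.τ) : ℝ) : ℂ) • s.psi m
noncomputable def St.sp (s : St) (Y : Set V) : Submodule ℂ HH := Submodule.span ℂ (s.E '' Y)
noncomputable def phase (z : ℂ) : ℂ := if z = 0 then 1 else z / (‖z‖ : ℂ)

def Appr (δ : ℝ) (S S' : Submodule ℂ HH) : Prop := ∀ y ∈ S, ∃ y' ∈ S', ‖y - y'‖ ≤ δ * ‖y‖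

/-- Genericity of a tracked mode by age. -/
def Gd : ℕ → V → Prop
  | 0, m => m ≠ 0
  | 1, m => ¬ (m.1 = 0 ∧ m.2.1 = 0)
  | 2, m => m.1 ≠ 0
  | _, m => m.2.2 ≠ 0

structure Trans (n : ℕ) (s s' : St) (L Γ I : ℕ) : Prop where
  hτ : s'.τ = s.τ * (Γ * s.Lp)
  hG : s'.G = s.G ∘ gg L Γ s.U s.v
  hGi : s'.Gi = ggI L Γ s.U s.v ∘ s.Gi
  Lpos : 0 < L
  Γbig : 1 ≤ kap n ^ 2 * Γ
  Ile : (I : ℝ) ≤ (1 / 2 - 3 * kap n ^ 2) * Γ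
  kM : ∀ m ∈ s.M ∪ s.P, kids s.𝓘 I L m ⊆ s'.M
  kB : ∀ m ∈ s.B, kids s.𝓘 I L m ⊆ s'.P
  sub : ∀ m ∈ s.M, ∀ c ∈ kids s.𝓘 I L m,
    cells s'.τ s'.N c ⊆ refine s.τ (Γ * s.Lp) (cells s.τ s.N m)
  inj : ∀ m ∈ s.M ∪ s.P ∪ s.B, ∀ m' ∈ s.M ∪ s.P ∪ s.B, ∀ j j', line L m j = line L m' j' → m = m'
  ne : ∀ m ∈ s.M ∪ s.P ∪ s.B, m.1 ≠ 0
  c2 : ∀ m ∈ s.M ∪ s.P ∪ s.B,
    (1 - 3 * kap n) ^ 2 ≤ ∑ i ∈ idx s.𝓘 I m.1, ‖coef L Γ s.U s.v m (m.1 * i)‖ ^ 2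
  c1 : ∀ m ∈ s.M,
    (1 - 3 * kap n) * Real.sqrt Γ ≤ ∑ i ∈ idx s.𝓘 I m.1, ‖coef L Γ s.U s.v m (m.1 * i)‖
  hph : ∀ c, s'.ph c = phase ⟪s'.E c, s.gv⟫_ℂ

/-- A2K (from FRQ, A34, ORT; frequency side). With `t m = √(|a|/(R |z|))`, `R = Γ Lp`:
`⟪phi' c, phi m⟫ = t m` for a kid `c` of `m`, `0` for kids of other parents, so
`‖phi m - ∑ t phi'‖² = 1 - #kids t²`; `#kids ≥ (1-3κ)² Γ` is a hypothesis, `t² Γ ∈ [1-κ², 1+κ²]` by `lac`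
and `Dη`, `#kids ≤ 2I+1`; `7 κ ≤ (1/4)^n`. -/
def A2kStmt : Prop :=
  ∀ (n : ℕ) (s s' : St) (L Γ I : ℕ), Good n s → Good (n + 1) s' → Trans n s s' L Γ I →
    (∀ m ∈ s.M, (1 - 3 * kap n) ^ 2 * Γ ≤ ((kids s.𝓘 I L m).card : ℝ)) →
    (∀ m ∈ s.M, ((kids s.𝓘 I L m).card : ℝ) * (|(m.1 : ℝ)| / (Γ * s.Lp * |(m.2.2 : ℝ)|)) ≤ 1) ∧
    (∀ m ∈ s.M, ∀ m' ∈ s.M, m ≠ m' → ∀ k ∈ kids s.𝓘 I L m,
      ⟪phi s'.τ s'.N k, phi s.τ s.N m'⟫_ℂ = 0) ∧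
    (∀ m ∈ s.M, ‖phi s.τ s.N m - ∑ k ∈ kids s.𝓘 I L m,
        ((Real.sqrt (|(m.1 : ℝ)| / (Γ * s.Lp * |(m.2.2 : ℝ)|)) : ℝ) : ℂ) • phi s'.τ s'.N k‖ ≤
      (1 / 2 : ℝ) ^ n)

/-- A2H (from TLA, BAS, INN; torus side). `s.E m = kp s'.Gi (kp gg (eL m))`, so
`⟪s'.E (line L m j), s.E m⟫ = coef m j`, zero for lines of other parents (`inj`). By `hph`,
`⟪s'.psi c, s.psi m⟫ = ‖coef‖`. Bessel gives `∑ ‖coef‖² ≤ 1`, Cauchy-Schwarz with `c1` gives the count.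
`‖psi m - ∑ t psi'‖² = 1 - 2 t ∑ ‖coef‖ + #kids t² ≤ 8 κ ≤ (1/4)^n`. -/
def A2hStmt : Prop :=
  ∀ (n : ℕ) (s s' : St) (L Γ I : ℕ), Good n s → Good (n + 1) s' → Trans n s s' L Γ I →
    (∀ m ∈ s.M, (1 - 3 * kap n) ^ 2 * Γ ≤ ((kids s.𝓘 I L m).card : ℝ)) ∧
    (∀ m ∈ s.M, ∀ m' ∈ s.M, m ≠ m' → ∀ k ∈ kids s.𝓘 I L m, ⟪s'.psi k, s.psi m'⟫_ℂ = 0) ∧
    ((∀ m ∈ s.M, ((kids s.𝓘 I L m).card : ℝ) * (|(m.1 : ℝ)| / (Γ * s.Lp * |(m.2.2 : ℝ)|)) ≤ 1) →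
      ∀ m ∈ s.M, ‖s.psi m - ∑ k ∈ kids s.𝓘 I L m,
        ((Real.sqrt (|(m.1 : ℝ)| / (Γ * s.Lp * |(m.2.2 : ℝ)|)) : ℝ) : ℂ) • s'.psi k‖ ≤
      (1 / 2 : ℝ) ^ n)

/-- APX (from TLA, BAS, INN, ORT). ORT with `x = s.E`, `y = s'.E`, `t m k = ⟪s'.E k, s.E m⟫`; error
`1 - ∑ ‖coef‖² ≤ 6κ` by `c2`. -/
def ApxStmt : Prop :=
  ∀ (n : ℕ) (s s' : St) (L Γ I : ℕ), Good n s → Good (n + 1) s' → Trans n s s' L Γ I →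
    Appr ((1 / 2 : ℝ) ^ n) (s.sp ↑(s.M ∪ s.P ∪ s.B)) (s'.sp ↑(s'.M ∪ s'.P)) ∧
    Appr ((1 / 2 : ℝ) ^ n) (s.sp ↑(s.M ∪ s.P)) (s'.sp ↑s'.M)

/-- FRESH (from TLA, BAS): BAS item 5 for `kp G (eL m₀)`, union over the finitely many `m₀`. -/
def FreshStmt : Prop :=
  ∀ (G Gi : R3 → R3) (n : ℕ) (δ : ℝ), IsTL G Gi → 0 < δ → ∃ S : Finset V, (0 : V) ∉ S ∧
    ∀ m₀ : V, m₀ ≠ 0 → |m₀.1| ≤ n → |m₀.2.1| ≤ n → |m₀.2.2| ≤ n →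
      ∃ y ∈ Submodule.span ℂ ((fun m => kp Gi (eL m)) '' ↑S), ‖eL m₀ - y‖ ≤ δ

/-- TRK (from TLA, BAS, INN). For `m ∈ W₀` take `S m` from BAS item 5 for `kp gg (eL m)` with
`ε = δ/(#W₀ + 1)`; its elements are `line L m j` with `j = 0` if `a = y = 0`, hence `Gd k m → Gd (k+1)`;
`W' = W₀.biUnion S`; `|c m| ≤ ‖y‖`. -/
def TrkStmt : Prop :=
  ∀ (G Gi : R3 → R3) (L : ℕ) (Γ δ : ℝ) (U v : ℝ → ℝ) (W₀ : Finset V), IsTL G Gi → 0 < L →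
    SmPer U → SmPer v → 0 < δ → (∀ m ∈ W₀, |m.2.1| < L) →
    ∃ W' : Finset V, (∀ c ∈ W', ∃ m ∈ W₀, ∃ j, c = line L m j) ∧ ∀ k < 3,
      Appr δ (Submodule.span ℂ ((fun m => kp Gi (eL m)) '' {m | m ∈ W₀ ∧ Gd k m}))
        (Submodule.span ℂ ((fun m => kp (ggI L Γ U v ∘ Gi) (eL m)) '' {m | m ∈ W' ∧ Gd (k + 1) m}))

structure Step (n : ℕ) (s s' : St) : Prop where
  sm : ∀ σ : ℝ, (σ = 1 ∨ σ = -1) →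
    Close n (Tn s.G s.Gi s.τ s.N σ) (Tn s'.G s'.Gi s'.τ s'.N σ)
  a2 : A2 ((1 / 2 : ℝ) ^ n) s.M s'.M (phi s.τ s.N) (phi s'.τ s'.N) s.psi s'.psi
  trk : ∃ S : Finset V, (0 : V) ∉ S ∧
    (∀ m₀ : V, m₀ ≠ 0 → |m₀.1| ≤ n → |m₀.2.1| ≤ n → |m₀.2.2| ≤ n →
      ∃ y ∈ s.sp ↑S, ‖eL m₀ - y‖ ≤ (1 / 2 : ℝ) ^ n) ∧
    ∀ k < 3, Appr ((1 / 2 : ℝ) ^ n) (s.sp {m | m ∈ s.W ∪ S ∧ Gd k m})
      (s'.sp {m | m ∈ s'.W ∧ Gd (k + 1) m})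
  w3 : ∀ c ∈ s'.W, c.2.2 ≠ 0 → c ∈ s'.M ∪ s'.P ∪ s'.B
  apX : Appr ((1 / 2 : ℝ) ^ n) (s.sp ↑(s.M ∪ s.P ∪ s.B)) (s'.sp ↑(s'.M ∪ s'.P))
  apM : Appr ((1 / 2 : ℝ) ^ n) (s.sp ↑(s.M ∪ s.P)) (s'.sp ↑s'.M)

/-- INIT (from TLA, JIT, PRF). `τ = 2`, `N = 0`, `Z = 1`, `D = 256`, `Lp = A = 512`,
`M = {(512,0,1), (-512,0,-1)}`, everything else empty, `G = Gi = id`, `ph = 1`; `Close 0` with `Dd` the
difference. -/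
def InitStmt : Prop := ∃ s : St, Good 0 s

/-- STEP. -/
def StepStmt : Prop := ∀ (n : ℕ) (s : St), Good n s → ∃ s' : St, Good (n + 1) s' ∧ Step n s s'

/-- CHAIN (from BAS: `‖eL m‖ = 1`). Start at a level `ℓ ≥ |m₀|` with `8 (1/2)^ℓ ≤ min ε 1`; ages
`S, W∩Gd 1, W∩Gd 2, W∩Gd 3 ⊆ M∪P∪B, M∪P, M, M, ...`; if `‖f - y‖ ≤ e ≤ 1` then the next error is
`≤ e + 2 δ`. Finally `y ∈ span (E '' M)` is `∑ c m • psi m` since `‖ph m‖ = 1`. -/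
def ChainStmt : Prop :=
  ∀ s : ℕ → St, (∀ n, Good n (s n)) → (∀ n, Step n (s n) (s (n + 1))) →
    ∀ k : V, k ≠ 0 → ∀ ε : ℝ, 0 < ε →
      ∀ᶠ n in atTop, ∃ c : V → ℂ, ‖eL k - ∑ m ∈ (s n).M, c m • (s n).psi m‖ ≤ ε

/-- EIG (from TLA, BAS). `Tn G Gi τ N 1 = G ∘ (· + β) ∘ Gi`; `em m (q + proj β) = ee (pos/τ) em m q`. -/
def EigStmt : Prop :=
  ∀ (G Gi : R3 → R3) (τ N : ℕ), IsTL G Gi → 0 < τ →
    IsTL (Tn G Gi τ N 1) (Tn G Gi τ N (-1)) ∧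
    ∀ m, kp (Tn G Gi τ N 1) (kp Gi (eL m)) = ee (pos N m / τ) • kp Gi (eL m)

end Crest.Agent.R81
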