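import Crest.Agent.R81.STEP

/-! # Row 81: the final assembly -/

set_option autoImplicit false

open Finset MeasureTheory Filter Topology
open scoped ContDiff ComplexConjugate InnerProductSpace Classical
open Crest.AnalysisR.Torus3
open Crest.Agent.R75 (ee)

namespace Crest.Agent.R81

open STEP in
theorem FIN_proof (hT : TlaStmt) (hB : BasStmt) (h0 : InitStmt) (hSt : StepStmt) (hE : EigStmt)
    (hL : LimStmt) (hAb : AbsStmt) (hA : A34Stmt) (hR : RealStmt) (hCh : ChainStmt)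
    (hCv : ConvStmt) : Goal := by
  obtain ⟨s₀, hs₀⟩ := h0
  choose nx hnx using hSt
  let sq : (n : ℕ) → {s : St // Good n s} := fun n =>
    Nat.rec (motive := fun n => {s : St // Good n s}) ⟨s₀, hs₀⟩
      (fun n p => ⟨nx n p.1 p.2, (hnx n p.1 p.2).1⟩) n
  obtain ⟨s, hG, hS⟩ : ∃ s : ℕ → St, (∀ n, Good n (s n)) ∧ ∀ n, Step n (s n) (s (n + 1)) :=
    ⟨fun n => (sq n).1, fun n => (sq n).2, fun n => (hnx n (sq n).1 (sq n).2).2⟩
  have hTL : ∀ n, IsTL (Tn (s n).G (s n).Gi (s n).τ (s n).N 1)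
      (Tn (s n).G (s n).Gi (s n).τ (s n).N (-1)) :=
    fun n => (hE _ _ _ _ (hG n).tl (hG n).inv.τpos).1
  obtain ⟨T, hTs, hTm, hTm', hlim⟩ := hL _ _ hTL (fun n => (hS n).sm 1 (Or.inl rfl))
    (fun n => (hS n).sm (-1) (Or.inr rfl))
  have hwd : ∀ n, ∀ m ∈ (s n).M, |(m.2.2 : ℝ)| / (s n).τ ≤ (1 / 4 : ℝ) ^ n := by
    intro n m hm
    have hτ : (0 : ℝ) < (s n).τ := by exact_mod_cast (hG n).inv.τpos
    have h1 := ((hG n).inv.lac m (mem_union_left _ (mem_union_left _ hm))).2.1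
    have h2 : |(m.2.2 : ℝ)| ≤ (s n).Z := by exact_mod_cast h1
    have h3 : (4 : ℝ) ^ n * (s n).Z ≤ (s n).τ := by exact_mod_cast (hG n).wid
    have h4 : (0 : ℝ) < 4 ^ n := by positivity
    rw [div_le_iff₀ hτ, one_div, inv_pow, ← div_eq_inv_mul, le_div_iff₀ h4]
    nlinarith
  have hA' := fun n => hA (s n).τ (s n).N (s n).M _ (hG n).inv.τpos (hG n).inv.part (hwd n)
  have hsq : ∀ n : ℕ, Real.sqrt ((1 / 4 : ℝ) ^ n) = (1 / 2 : ℝ) ^ n := by
    intro n
    rw [show (1 / 4 : ℝ) ^ n = ((1 / 2 : ℝ) ^ n) ^ 2 by rw [← pow_mul, mul_comm, pow_mul]; norm_num]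
    exact Real.sqrt_sq (by positivity)
  obtain ⟨G, hGo, hGs, hG0, hGc⟩ := hAb KK HH eK (fun n => (s n).M)
    (fun n => phi (s n).τ (s n).N) (fun n => (s n).psi) (fun n => (1 / 2 : ℝ) ^ n)
    (fun n => kp (Tn (s n).G (s n).Gi (s n).τ (s n).N 1))
    (Lp.compMeasurePreservingₗᵢ ℂ (T : T3 → T3) hTm)
    (fun n m => ee (pos (s n).N m / (s n).τ)) eL
    (@orthonormal_fourier 1 ⟨one_pos⟩)
    (by
      have := @span_fourierLp_closure_eq_top 1 ⟨one_pos⟩ 2 _ (by simp)
      exact this.ge)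
    (fun n => (hA' n).1) (fun n => psi_on hT hB (hG n) _) (fun n => by positivity)
    summable_geometric_two (fun n => (hS n).a2)
    (fun k => ⟨Real.sqrt (4 * Real.pi * |(k : ℝ)|), fun n => by
      have := (hA' n).2.2.1 k
      rwa [hsq] at this⟩)
    (fun n x => by
      obtain ⟨-, -, -, -, -, -, -, -, -, -, -, -, hn, -⟩ := hT
      exact (hn _ _ (hTL n) x).le)
    hlim
    (fun n m _ => by
      simp only [St.psi, St.E, map_smul]
      rw [(hE _ _ _ _ (hG n).tl (hG n).inv.τpos).2 m, smul_comm])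
    (fun k => by
      refine squeeze_zero (fun n => sum_nonneg fun _ _ => by positivity)
        (fun n => (hA' n).2.2.2 k) ?_
      have h1 : Tendsto (fun n : ℕ => (1 / 4 : ℝ) ^ n) atTop (𝓝 0) :=
        tendsto_pow_atTop_nhds_zero_of_lt_one (by norm_num) (by norm_num)
      have := (h1.const_mul (2 * Real.pi * (2 * |(k : ℝ)| + 1))).pow 2
      simpa using this)
    (hCh s hG hS)
  refine hCv T hTm G (fun n => (s n).gv) hTs hTm' hGo hGs (fun n => ⟨gv_re hR (hG n), ?_⟩) ?_ hGc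
  · have h00 : kp (s n).Gi (eL 0) = eL 0 := by
      obtain ⟨-, -, -, -, -, -, -, -, -, hsym, -, -, -, -, -, -, h1, -⟩ := hT
      exact h1 _ _ (hsym _ _ (hG n).tl)
    rw [St.gv, inner_sum]
    refine sum_eq_zero fun m hm => ?_
    have hm0 : (0 : V) ≠ m := by
      intro h
      have := ((hG n).inv.part.len m hm).1
      rw [← h] at this
      exact this rfl
    simp only [St.psi, St.E, inner_smul_right]
    rw [← h00, E_on hT hB (hG n).tl, if_neg hm0]
    simp
  · refine hG0.congr fun n => ?_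
    rw [St.gv]
    exact sum_congr rfl fun m hm => by rw [(hA' n).2.1 m hm]

end Crest.Agent.R81
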