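import Crest.Agent.R81.Defs
import Crest.Agent.R75.Fin1

set_option autoImplicit false

open Finset MeasureTheory Filter Topology
open scoped ContDiff ComplexConjugate InnerProductSpace Classical
open Crest.AnalysisR.Torus3
open Crest.Agent.R75 (ee)

namespace Crest.Agent.R81

namespace PROD

open Crest.Agent.R75.Fin1

lemma per_mul {Q : ℕ} {α : Type} (f : ℤ → α) (h : ∀ i : ℤ, f (i + Q) = f i) (i t : ℤ) :
    f (i + Q * t) = f i := by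
  have hp : Function.Periodic f (Q : ℤ) := h
  have := hp.int_mul t i
  simpa [mul_comm] using this

lemma per_dvd {Q : ℕ} {α : Type} (f : ℤ → α) (h : ∀ i : ℤ, f (i + Q) = f i) {i j : ℤ}
    (hd : (Q : ℤ) ∣ j - i) : f j = f i := by
  obtain ⟨t, ht⟩ := hd
  have : j = i + Q * t := by linarith
  rw [this, per_mul f h]

/-- CRT reindexing of the sum of a periodic function. -/
lemma crt (Q₁ Q₂ : ℕ) (h1 : 0 < Q₁) (h2 : 0 < Q₂) (hc : Nat.Coprime Q₁ Q₂) (f : ℤ → ℂ)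
    (hf : ∀ i : ℤ, f (i + (Q₁ * Q₂ : ℕ)) = f i) :
    ∑ p ∈ range Q₁ ×ˢ range Q₂, f (Q₂ * p.1 + Q₁ * p.2) = ∑ i ∈ range (Q₁ * Q₂), f i := by
  have hQ : 0 < Q₁ * Q₂ := Nat.mul_pos h1 h2
  have hmaps : ∀ p ∈ range Q₁ ×ˢ range Q₂, (Q₂ * p.1 + Q₁ * p.2) % (Q₁ * Q₂) ∈ range (Q₁ * Q₂) :=
    fun p _ => mem_range.2 (Nat.mod_lt _ hQ)
  have hinj : Set.InjOn (fun p : ℕ × ℕ => (Q₂ * p.1 + Q₁ * p.2) % (Q₁ * Q₂))
      ↑(range Q₁ ×ˢ range Q₂) := by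
    intro p hp p' hp' h
    simp only [coe_product, coe_range, Set.mem_prod, Set.mem_Iio] at hp hp'
    have hm : Q₂ * p.1 + Q₁ * p.2 ≡ Q₂ * p'.1 + Q₁ * p'.2 [MOD Q₁ * Q₂] := h
    have a1 : Q₂ * p.1 ≡ Q₂ * p'.1 [MOD Q₁] := by
      have := hm.of_mul_right Q₂
      simpa [Nat.ModEq] using this
    have a2 : Q₁ * p.2 ≡ Q₁ * p'.2 [MOD Q₂] := by
      have := hm.of_mul_left Q₁
      simpa [Nat.ModEq] using this
    have b1 := Nat.ModEq.cancel_left_of_coprime hc a1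
    have b2 := Nat.ModEq.cancel_left_of_coprime hc.symm a2
    exact Prod.ext (Nat.ModEq.eq_of_lt_of_lt b1 hp.1 hp'.1) (Nat.ModEq.eq_of_lt_of_lt b2 hp.2 hp'.2)
  refine Finset.sum_nbij (fun p : ℕ × ℕ => (Q₂ * p.1 + Q₁ * p.2) % (Q₁ * Q₂)) hmaps hinj ?_ ?_
  · apply Finset.surjOn_of_injOn_of_card_le _ hmaps hinj
    simp
  · intro p _
    apply per_dvd f hf
    push_cast
    exact (Int.ModEq.dvd (Int.mod_modEq _ _))

end PROD

open PROD Crest.Agent.R75.Fin1 in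
theorem PROD_proof : ProdStmt := by
  intro Q₁ Q₂ w₁ w₂ h1 h2 hc p1 p2
  obtain ⟨c₂, c₁, hb⟩ : IsCoprime (Q₁ : ℤ) (Q₂ : ℤ) := Nat.isCoprime_iff_coprime.2 hc
  have hw : PerZ (Q₁ * Q₂) (fun k => w₁ (k * c₁) + w₂ (k * c₂)) := by
    intro i
    have e1 : w₁ ((i + (Q₁ * Q₂ : ℕ)) * c₁) = w₁ (i * c₁) :=
      per_dvd w₁ p1 ⟨Q₂ * c₁, by push_cast; ring⟩
    have e2 : w₂ ((i + (Q₁ * Q₂ : ℕ)) * c₂) = w₂ (i * c₂) :=
      per_dvd w₂ p2 ⟨Q₁ * c₂, by push_cast; ring⟩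
    simp only [e1, e2]
  refine ⟨fun k => w₁ (k * c₁) + w₂ (k * c₂), hw, fun a r => ?_⟩
  have hq1 : (Q₁ : ℝ) ≠ 0 := by positivity
  have hq2 : (Q₂ : ℝ) ≠ 0 := by positivity
  have key := crt Q₁ Q₂ h1 h2 hc
    (fun k => ee (a * (w₁ (k * c₁) + w₂ (k * c₂)) - (k : ℝ) * r / (Q₁ * Q₂ : ℕ))) (by
      intro i
      have := hw i
      simp only at this
      simp only [this]
      apply ee_congr (-r)
      push_cast
      field_simp
      ring)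
  unfold dft
  simp only [Int.cast_natCast] at key
  rw [← key, Finset.sum_product, mul_mul_mul_comm, Finset.sum_mul_sum]
  congr 1
  · push_cast; rw [mul_inv]
  · refine sum_congr rfl fun i _ => sum_congr rfl fun j _ => ?_
    have e1 : w₁ (((Q₂ : ℤ) * i + Q₁ * j) * c₁) = w₁ i :=
      per_dvd w₁ p1 ⟨j * c₁ - c₂ * i, by linear_combination (i : ℤ) * hb⟩
    have e2 : w₂ (((Q₂ : ℤ) * i + Q₁ * j) * c₂) = w₂ j :=
      per_dvd w₂ p2 ⟨i * c₂ - c₁ * j, by linear_combination (j : ℤ) * hb⟩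
    rw [e1, e2, ← ee_add]
    congr 1
    push_cast
    field_simp
    ring

end Crest.Agent.R81
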