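import Crest.Agent.R81.Defs

/-! # Row 81: the inductive step -/

set_option autoImplicit false

open Finset MeasureTheory Filter Topology
open scoped ContDiff ComplexConjugate InnerProductSpace Classical
open Crest.AnalysisR.Torus3
open Crest.Agent.R75 (ee)

namespace Crest.Agent.R81
namespace STEP

lemma kap_pos (n : ℕ) : 0 < kap n := by unfold kap; positivity

lemma kap_le (n : ℕ) : kap n ≤ 1 / 16 := by
  unfold kap
  have : ((1 : ℝ) / 4) ^ n ≤ 1 := pow_le_one₀ (by norm_num) (by norm_num)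
  linarith

lemma phase_norm (z : ℂ) : ‖phase z‖ = 1 := by
  unfold phase
  split_ifs with h
  · simp
  · rw [norm_div, Complex.norm_real, norm_norm, div_self (norm_ne_zero_iff.2 h)]

lemma phase_conj (z : ℂ) : phase (conj z) = conj (phase z) := by
  unfold phase
  by_cases h : z = 0
  · simp [h]
  · have h' : conj z ≠ 0 := by simpa using h
    rw [if_neg h, if_neg h']
    simp

lemma E_on (hT : TlaStmt) (hB : BasStmt) {G Gi : R3 → R3} (h : IsTL G Gi) (m m' : V) :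
    ⟪kp Gi (eL m), kp Gi (eL m')⟫_ℂ = if m = m' then 1 else 0 := by
  obtain ⟨-, -, -, -, -, -, -, -, -, hsym, -, hin, -⟩ := hT
  rw [hin Gi G (hsym _ _ h)]
  exact (orthonormal_iff_ite.1 hB.1) m m'

lemma psi_on (hT : TlaStmt) (hB : BasStmt) {n : ℕ} {s : St} (hs : Good n s) (M : Finset V) :
    Orthonormal ℂ (fun m : M => s.psi m) := by
  rw [orthonormal_iff_ite]
  intro m m'
  simp only [St.psi, St.E, inner_smul_left, inner_smul_right, E_on hT hB hs.tl]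
  by_cases h : m = m'
  · subst h
    simp only [if_true, mul_one]
    rw [Complex.mul_conj, Complex.normSq_eq_norm_sq, hs.ph1]; simp
  · have : (m : V) ≠ m' := fun e => h (Subtype.ext e)
    simp [h, this]

lemma phi_on (hA : A34Stmt) {n : ℕ} {s : St} (hs : Good n s) :
    Orthonormal ℂ (fun m : s.M => phi s.τ s.N m) := by
  refine (hA s.τ s.N s.M 1 hs.inv.τpos hs.inv.part fun m hm => ?_).1
  have h1 := (hs.inv.part.len m hm).2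
  have hτ : (0 : ℝ) < s.τ := by exact_mod_cast hs.inv.τpos
  rw [div_le_one hτ]
  exact_mod_cast h1

lemma a2_of (hT : TlaStmt) (hB : BasStmt) (hA : A34Stmt) (hO : OrtStmt) (hK : A2kStmt)
    (hH : A2hStmt) {n : ℕ} {s s' : St} {L Γ I : ℕ} (hs : Good n s) (hs' : Good (n + 1) s')
    (ht : Trans n s s' L Γ I) :
    A2 ((1 / 2 : ℝ) ^ n) s.M s'.M (phi s.τ s.N) (phi s'.τ s'.N) s.psi s'.psi := by
  obtain ⟨hcnt, hH0, hH1⟩ := hH n s s' L Γ I hs hs' ht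
  obtain ⟨hK1, hK0, hK2⟩ := hK n s s' L Γ I hs hs' ht hcnt
  have hsub : ∀ m ∈ s.M, kids s.𝓘 I L m ⊆ s'.M := fun m hm => ht.kM m (mem_union_left _ hm)
  have hdis : ∀ m ∈ s.M, ∀ m' ∈ s.M, m ≠ m' →
      Disjoint (kids s.𝓘 I L m) (kids s.𝓘 I L m') := by
    intro m hm m' hm' hne
    rw [Finset.disjoint_left]
    intro k hk hk'
    obtain ⟨i, -, rfl⟩ := mem_image.1 hk
    obtain ⟨i', -, h'⟩ := mem_image.1 hk'
    exact hne (ht.inj m (mem_union_left _ (mem_union_left _ hm)) m'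
      (mem_union_left _ (mem_union_left _ hm')) _ _ h'.symm)
  intro c
  set t : V → V → ℂ := fun m _ =>
    ((Real.sqrt (|(m.1 : ℝ)| / (Γ * s.Lp * |(m.2.2 : ℝ)|)) : ℝ) : ℂ) with htdef
  have hδ : (0 : ℝ) ≤ (1 / 2 : ℝ) ^ n := by positivity
  have o1 := hO KK s.M s'.M (phi s.τ s.N) (phi s'.τ s'.N) (kids s.𝓘 I L) t _ hδ (phi_on hA hs)
    (phi_on hA hs') hsub hdis hK0 hK2 c
  have o2 := hO HH s.M s'.M s.psi s'.psi (kids s.𝓘 I L) t _ hδ (psi_on hT hB hs _)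
    (psi_on hT hB hs' _) hsub hdis hH0 (hH1 hK1) c
  refine ⟨fun k => ∑ m ∈ s.M, if k ∈ kids s.𝓘 I L m then c m * t m k else 0, o1.2 ?_, o1.1, o2.1⟩
  intro m hm
  have : ∀ k, ‖t m k‖ ^ 2 = |(m.1 : ℝ)| / (Γ * s.Lp * |(m.2.2 : ℝ)|) := by
    intro k
    simp only [htdef, Complex.norm_real, Real.norm_eq_abs, sq_abs]
    exact Real.sq_sqrt (by positivity)
  simp only [this, sum_const, nsmul_eq_mul]
  exact hK1 m hm

lemma gv_re (hR : RealStmt) {n : ℕ} {s : St} (hs : Good n s) : IsRe s.gv := by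
  have := (hR s.G s.Gi hs.tl).1 s.M
    (fun m => ((Real.sqrt (|(m.2.2 : ℝ)| / s.τ) : ℝ) : ℂ) * s.ph m) hs.inv.symM
    (fun m _ => by simp [hs.phs])
  simpa only [St.gv, St.psi, St.E, smul_smul] using this

end STEP

set_option maxHeartbeats 1600000 in
open STEP in
theorem STEP_proof (hT : TlaStmt) (hB : BasStmt) (hI : InnStmt) (hS : SmStmt) (hJ : JitStmt)
    (hP : PrfStmt) (hC : ChirpStmt) (h4 : Cm4Stmt) (hM : CmbStmt) (hA : A34Stmt) (hO : OrtStmt)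
    (hR : RealStmt) (hK : A2kStmt) (hH : A2hStmt) (hX : ApxStmt) (hF : FreshStmt)
    (hW : TrkStmt) : StepStmt := by
  intro n s hs
  have hδ : (0 : ℝ) < (1 / 2 : ℝ) ^ n := by positivity
  obtain ⟨S, hS0, hSa⟩ := hF s.G s.Gi n _ hs.tl hδ
  have hτ := hs.inv.τpos
  have hD8 : 8 ≤ s.D := by have := hs.inv.DZ; omega
  have hLp : 0 < s.Lp := by have := hs.inv.LD; omega
  have hQ := hs.jit.Qpos
  have k0 := kap_pos n
  have k1 := kap_le n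
  have k0' := kap_pos (n + 1)
  have k1' := kap_le (n + 1)
  obtain ⟨Y, hY⟩ : ∃ Y, Y = s.M ∪ s.P ∪ s.B ∪ (s.W ∪ S) := ⟨_, rfl⟩
  obtain ⟨Z', hZ1, hZ'⟩ : ∃ Z' : ℕ, 1 ≤ Z' ∧ ∀ m ∈ Y, |m.1| ≤ Z' := by
    refine ⟨Y.sup (fun m => m.1.natAbs) + 1, by omega, fun m hm => ?_⟩
    have : m.1.natAbs ≤ Y.sup (fun m => m.1.natAbs) := Finset.le_sup (f := fun m : V => m.1.natAbs) hm
    rw [← Int.natCast_natAbs]; push_cast
    have h2 : ((m.1.natAbs : ℕ) : ℤ) ≤ (Y.sup (fun m => m.1.natAbs) : ℕ) := by exact_mod_cast this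
    push_cast at h2
    linarith
  obtain ⟨Yb, hYb⟩ : ∃ Yb : ℕ, ∀ m ∈ Y, |m.2.1| ≤ Yb := by
    refine ⟨Y.sup (fun m => m.2.1.natAbs), fun m hm => ?_⟩
    have : m.2.1.natAbs ≤ Y.sup (fun m => m.2.1.natAbs) :=
      Finset.le_sup (f := fun m : V => m.2.1.natAbs) hm
    rw [← Int.natCast_natAbs]
    exact_mod_cast this
  obtain ⟨D', hD1, hD2, hD3⟩ : ∃ D' : ℕ, s.D ≤ D' ∧ 4 * Z' + 8 ≤ D' ∧ 1 ≤ kap (n + 1) ^ 2 * D' := by
    refine ⟨s.D + (4 * Z' + 8) + ⌈1 / kap (n + 1) ^ 2⌉₊, by omega, by omega, ?_⟩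
    have h1 := Nat.le_ceil (1 / kap (n + 1) ^ 2)
    have h2 : 0 < kap (n + 1) ^ 2 := by positivity
    rw [div_le_iff₀ h2] at h1
    push_cast
    nlinarith [Nat.cast_nonneg (α := ℝ) s.D, Nat.cast_nonneg (α := ℝ) Z']
  obtain ⟨zz, hzz⟩ : ∃ zz : ℕ, zz = D' * Yb + 2 * D' + 1 := ⟨_, rfl⟩
  obtain ⟨L, hL⟩ : ∃ L : ℕ, L = zz * s.τ + s.N := ⟨_, rfl⟩
  have hLz : zz ≤ L := by rw [hL]; nlinarith
  have hLτ : s.τ ≤ L := by
    have : s.τ ≤ zz * s.τ := Nat.le_mul_of_pos_left _ (by omega)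
    omega
  have hL0 : 0 < L := by omega
  have hLy : ∀ m ∈ Y, (D' : ℤ) * |m.2.1| ≤ L := by
    intro m hm
    have h1 := hYb m hm
    have h2 : ((D' * Yb : ℕ) : ℤ) ≤ L := by exact_mod_cast (by omega : D' * Yb ≤ L)
    push_cast at h2
    nlinarith [Int.natCast_nonneg D']
  obtain ⟨A', hA1, hA2, hA3⟩ : ∃ A' : ℕ, L ≤ A' ∧ Z' ≤ A' ∧ ∀ m ∈ Y, |m.2.1 + L * m.1| ≤ A' := by
    refine ⟨L + Z' + Y.sup (fun m => (m.2.1 + L * m.1).natAbs), by omega, by omega, fun m hm => ?_⟩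
    have : (m.2.1 + L * m.1).natAbs ≤ Y.sup (fun m => (m.2.1 + L * m.1).natAbs) :=
      Finset.le_sup (f := fun m : V => (m.2.1 + L * m.1).natAbs) hm
    rw [← Int.natCast_natAbs]
    exact_mod_cast (by omega)
  have hXY : ∀ m ∈ s.M ∪ s.P ∪ s.B, m ∈ Y := fun m hm => hY ▸ mem_union_left _ hm
  obtain ⟨c41, -, c43, -⟩ := h4 _ _ _ _ _ _ _ _ _ _ L D' Z' hs.inv hD2 hL0
    (fun m hm => ⟨hLy m (hXY m hm), hZ' m (hXY m hm)⟩)
  obtain ⟨𝓑', h𝓑'⟩ : ∃ 𝓑', 𝓑' = s.B.image fun m : V => (m.2.1 + (L : ℤ) * m.1).natAbs := ⟨_, rfl⟩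
  obtain ⟨Q', N₀', w', 𝓘', hjit⟩ := hJ A' 𝓑' (kap (n + 1) ^ 2) (by positivity) (by nlinarith) (by
    intro b hb
    rw [h𝓑'] at hb
    obtain ⟨m, hm, rfl⟩ := mem_image.1 hb
    have h1 := (c41 m (mem_union_right _ hm)).2
    have h2 := hA3 m (hXY m (mem_union_right _ hm))
    rw [← Int.natCast_natAbs] at h1 h2
    constructor <;> omega)
  obtain ⟨U', v', hprf⟩ := hP Q' w' (kap (n + 1) ^ 2) hjit.Qpos hjit.per (by positivity)
    (by nlinarith)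
  obtain ⟨R₀, hR₀⟩ := hS (n + 1) s.G s.Gi s.τ s.Lp L s.U s.v U' v' hs.tl hτ hLp hL0 hs.prf.sU
    hs.prf.sv hprf.sU hprf.sv
  obtain ⟨Γ₀, hΓ₀⟩ := hC s.A s.𝓑 (kap n) s.Q s.N₀ s.w s.𝓘 s.U s.v k0 (by linarith) hs.jit hs.prf
  obtain ⟨γ, hγ⟩ : ∃ γ : ℕ, γ = R₀ + ⌈Γ₀⌉₊ + 4 * s.D + 4 ^ (n + 1) * Z' + 1 := ⟨_, rfl⟩
  obtain ⟨Γ, hΓ⟩ : ∃ Γ : ℕ, Γ = 2 * L * (s.Q * γ) := ⟨_, rfl⟩
  have hγΓ : γ ≤ Γ := by
    rw [hΓ]
    have : γ ≤ s.Q * γ := Nat.le_mul_of_pos_left _ hQ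
    nlinarith
  obtain ⟨R, hRd⟩ : ∃ R : ℕ, R = Γ * s.Lp := ⟨_, rfl⟩
  have hΓR : Γ ≤ R := by rw [hRd]; exact Nat.le_mul_of_pos_right _ hLp
  have hRτ : R ≤ s.τ * R := Nat.le_mul_of_pos_left _ hτ
  obtain ⟨N', hN'⟩ : ∃ N' : ℕ, N' = R + s.Q * γ := ⟨_, rfl⟩
  obtain ⟨I, hId⟩ : ∃ I : ℕ, I = ⌊(1 / 2 - 3 * kap n ^ 2) * Γ⌋₊ := ⟨_, rfl⟩
  have hDΓ : (s.D : ℝ) ≤ Γ := by exact_mod_cast (by omega : s.D ≤ Γ)
  have hΓbig : 1 ≤ kap n ^ 2 * Γ := by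
    have := hs.Dη
    nlinarith [sq_nonneg (kap n)]
  have hΓ0 : (0 : ℝ) ≤ Γ := Nat.cast_nonneg _
  have hIle : (I : ℝ) ≤ (1 / 2 - 3 * kap n ^ 2) * Γ := by
    rw [hId]; exact Nat.floor_le (mul_nonneg (by nlinarith) hΓ0)
  have hIge : (1 / 2 - 4 * kap n ^ 2) * Γ ≤ I := by
    have := Nat.lt_floor_add_one ((1 / 2 - 3 * kap n ^ 2) * Γ)
    rw [← hId] at this
    nlinarith
  have hIint : 2 * s.D * I + 6 * Γ ≤ s.D * Γ := by
    have h1 := hs.Dη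
    have h2 : (2 * s.D * I + 6 * Γ : ℝ) ≤ s.D * Γ := by
      have hD0 : (0 : ℝ) ≤ s.D := Nat.cast_nonneg _
      have h3 : (s.D : ℝ) * I ≤ s.D * ((1 / 2 - 3 * kap n ^ 2) * Γ) :=
        mul_le_mul_of_nonneg_left hIle hD0
      nlinarith
    exact_mod_cast h2
  have hΓreal : (Γ : ℝ) = (R : ℝ) / s.Lp := by
    have : (s.Lp : ℝ) ≠ 0 := by exact_mod_cast hLp.ne'
    rw [hRd]; push_cast; field_simp
  have hN'real : (N' : ℝ) = R + (Γ : ℝ) / (2 * L) := by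
    have : (L : ℝ) ≠ 0 := by exact_mod_cast hL0.ne'
    rw [hN', hΓ]; push_cast; field_simp
  obtain ⟨hgTL, -⟩ := hI L Γ s.U s.v hL0 hs.prf.sU hs.prf.sv
  obtain ⟨W', hW1, hW2⟩ := hW s.G s.Gi L Γ _ s.U s.v (s.W ∪ S) hs.tl hL0 hs.prf.sU hs.prf.sv hδ (by
    intro m hm
    have h1 := hLy m (hY ▸ mem_union_right _ hm)
    have h2 : (8 : ℤ) ≤ D' := by exact_mod_cast (by omega : 8 ≤ D')
    have h3 : (0 : ℤ) < L := by exact_mod_cast hL0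
    nlinarith [abs_nonneg m.2.1])
  obtain ⟨M', P', B', hinv, hkM, hkB, hw3, hsub⟩ := hM s.τ s.N s.Lp s.D s.Z s.A s.M s.P s.B s.𝓑 _
    s.Q s.N₀ s.w s.𝓘 (s.W ∪ S) W' L D' Z' A' zz γ Γ R N' I hs.inv hs.jit hL hD1 hD2 (by omega) hA1
    hZ1 hA2 (fun m hm => ⟨hLy m (hY ▸ hm), hZ' m (hY ▸ hm), hA3 m (hY ▸ hm)⟩) hΓ hRd hN' hIint
    (by omega) (by
      have : Z' ≤ 4 ^ (n + 1) * Z' := Nat.le_mul_of_pos_left _ (by positivity)
      omega) hW1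
  have hTL' : IsTL (s.G ∘ gg L Γ s.U s.v) (ggI L Γ s.U s.v ∘ s.Gi) := by
    obtain ⟨-, -, -, -, -, -, -, -, -, -, hcomp, -⟩ := hT
    exact hcomp _ _ _ _ hs.tl hgTL
  let s' : St :=
    { τ := s.τ * R, N := N', Lp := L, D := D', Z := Z', A := A', Q := Q', N₀ := N₀'
      M := M', P := P', B := B', W := W', 𝓑 := 𝓑', w := w', 𝓘 := 𝓘', U := U', v := v'
      G := s.G ∘ gg L Γ s.U s.v, Gi := ggI L Γ s.U s.v ∘ s.Gi
      ph := fun c => phase ⟪kp (ggI L Γ s.U s.v ∘ s.Gi) (eL c), s.gv⟫_ℂ }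
  have hs' : Good (n + 1) s' :=
    { inv := by rw [← h𝓑'] at hinv; exact hinv
      jit := hjit
      prf := hprf
      Dη := hD3
      wid := by
        change 4 ^ (n + 1) * Z' ≤ s.τ * R
        omega
      tl := hTL'
      ph1 := fun m => phase_norm _
      phs := fun m => by
        change phase _ = conj (phase _)
        rw [(hR _ _ hTL').2 s.gv (gv_re hR hs) m, phase_conj]
      pro := hR₀ R N' Γ (by omega) hΓreal hN'real }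
  have hch : ∀ m ∈ s.M ∪ s.P ∪ s.B,
      (1 - 3 * kap n) ^ 2 ≤ ∑ i ∈ idx s.𝓘 I m.1, ‖coef L Γ s.U s.v m (m.1 * i)‖ ^ 2 ∧
      ((∀ b ∈ s.𝓑, ¬ (b : ℤ) ∣ m.1) →
        (1 - 3 * kap n) * Real.sqrt Γ ≤
          ∑ i ∈ idx s.𝓘 I m.1, ‖coef L Γ s.U s.v m (m.1 * i)‖) := by
    intro m hm
    refine hΓ₀ Γ I m.1 _ ?_ hIge hIle ?_ (hs.inv.lac m hm).2.2.2 ?_
    · have h1 := Nat.le_ceil Γ₀
      have h2 : ((⌈Γ₀⌉₊ : ℕ) : ℝ) ≤ Γ := by exact_mod_cast (by omega : ⌈Γ₀⌉₊ ≤ Γ)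
      linarith
    · intro h0
      have := (c41 m hm).1
      rw [h0] at this
      simp at this
    · have hL' : (0 : ℝ) < L := by exact_mod_cast hL0
      have h1 : ((D' : ℤ) : ℝ) * ((|m.2.1| : ℤ) : ℝ) ≤ ((L : ℤ) : ℝ) := by
        exact_mod_cast hLy m (hXY m hm)
      push_cast at h1
      have h2 : (s.D : ℝ) ≤ D' := by exact_mod_cast hD1
      have h3 := hs.Dη
      rw [add_sub_cancel_left, abs_div, abs_of_pos hL', div_le_iff₀ hL']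
      have h4 : 0 ≤ |(m.2.1 : ℝ)| := abs_nonneg _
      have h5 : 0 ≤ kap n ^ 2 := sq_nonneg _
      calc |(m.2.1 : ℝ)| ≤ kap n ^ 2 * s.D * |(m.2.1 : ℝ)| := by nlinarith
        _ ≤ kap n ^ 2 * (D' * |(m.2.1 : ℝ)|) := by
          rw [mul_assoc]
          exact mul_le_mul_of_nonneg_left (mul_le_mul_of_nonneg_right h2 h4) h5
        _ ≤ kap n ^ 2 * L := mul_le_mul_of_nonneg_left h1 h5
  have ht : Trans n s s' L Γ I :=
    { hτ := by change s.τ * R = _; rw [hRd]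
      hG := rfl
      hGi := rfl
      Lpos := hL0
      Γbig := hΓbig
      Ile := hIle
      kM := hkM
      kB := hkB
      sub := by rw [← hRd]; exact hsub
      inj := fun m hm m' hm' j j' h => c43 m hm m' hm' (congrArg Prod.fst h)
      ne := fun m hm h0 => by
        have := (c41 m hm).1
        rw [h0] at this
        simp at this
      c2 := fun m hm => (hch m hm).1
      c1 := fun m hm => (hch m (mem_union_left _ (mem_union_left _ hm))).2 (hs.inv.old m hm)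
      hph := fun c => rfl }
  obtain ⟨hx1, hx2⟩ := hX n s s' L Γ I hs hs' ht
  refine ⟨s', hs', ?_, a2_of hT hB hA hO hK hH hs hs' ht, ⟨S, hS0, hSa, hW2⟩, hw3, hx1, hx2⟩
  intro σ hσ
  exact hs.pro L R N' zz Γ σ hσ hLτ hL (by omega) hΓreal hN'real

end Crest.Agent.R81
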